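import Vale.Agent.P202.NC.Datum

/-!
# P202, general source ring: removing the constant by squaring
-/

noncomputable section

namespace Vale.Agent.P202.NC

universe u

variable {k : Type u} [Field k]

/-- A bound up to a factor linear in the exponent is a bound. -/
theorem le_of_pow_le_linear_mul_pow {a b : ℤ} {c : ℕ} (hb : 0 ≤ b)
    (h : ∀ s : ℕ, 2 ≤ s → a ^ 2 ^ s ≤ c * 2 ^ s * b ^ 2 ^ s) : a ≤ b := by
  by_contra hab
  have hab' : b + 1 ≤ a := by omega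
  rcases hb.eq_or_lt with rfl | hb'
  · have h0 : (0 : ℤ) < a ^ 2 ^ 2 := pow_pos (by omega) _
    have := h 2 le_rfl
    simp only [ne_eq, Nat.pow_eq_zero, OfNat.ofNat_ne_zero, false_and, not_false_eq_true,
      zero_pow, mul_zero] at this
    omega
  obtain ⟨s, hs⟩ : ∃ s : ℕ, 2 * c * b.toNat ^ 2 + 1 ≤ 2 ^ s := ⟨_, Nat.lt_two_pow_self⟩
  set N : ℕ := 2 ^ (s + 1) with hN
  have hNN : 2 ^ (s + 1 + 1) = N + N := by rw [pow_succ, hN]; ring
  have hs' : 2 * (c : ℝ) * (b : ℝ) ^ 2 < N := by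
    have h1 : (2 * c * b.toNat ^ 2 + 1 : ℕ) ≤ N :=
      hs.trans (Nat.pow_le_pow_right (by norm_num) s.le_succ)
    have h2 : ((b.toNat : ℕ) : ℝ) = (b : ℝ) := by
      exact_mod_cast Int.toNat_of_nonneg hb
    have h3 : ((2 * c * b.toNat ^ 2 + 1 : ℕ) : ℝ) ≤ N := by exact_mod_cast h1
    push_cast [h2] at h3
    linarith
  have hbR : (0 : ℝ) < b := by exact_mod_cast hb'
  have h4 := h (s + 1 + 1) (by omega)
  have h5 : (a : ℝ) ^ (N + N) ≤ c * ((N : ℝ) + N) * (b : ℝ) ^ (N + N) := by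
    rw [hNN] at h4
    have : (2 : ℤ) ^ (s + 1 + 1) = ((N + N : ℕ) : ℤ) := by rw [← hNN]; push_cast; rfl
    rw [this] at h4
    exact_mod_cast h4
  have h6 : (1 + (N : ℝ) / b) * (b : ℝ) ^ N ≤ (a : ℝ) ^ N := by
    have hB := one_add_mul_le_pow (a := (1 : ℝ) / b) (by
      have : (0 : ℝ) ≤ 1 / b := by positivity
      linarith) N
    calc (1 + (N : ℝ) / b) * (b : ℝ) ^ N
        ≤ (1 + 1 / (b : ℝ)) ^ N * (b : ℝ) ^ N := by
          refine mul_le_mul_of_nonneg_right ?_ (by positivity)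
          rwa [mul_one_div] at hB
      _ = ((b : ℝ) + 1) ^ N := by rw [← mul_pow]; congr 1; field_simp
      _ ≤ _ := pow_le_pow_left₀ (by positivity) (by exact_mod_cast hab') N
  have h7 : ((N : ℝ) / b) * ((N : ℝ) / b) ≤ c * ((N : ℝ) + N) := by
    refine le_of_mul_le_mul_right ?_ (pow_pos hbR (N + N))
    refine le_trans ?_ h5
    have hnn : (N : ℝ) / b * (b : ℝ) ^ N ≤ (a : ℝ) ^ N :=
      le_trans (mul_le_mul_of_nonneg_right (by linarith) (by positivity)) h6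
    have h0 : 0 ≤ (N : ℝ) / b * (b : ℝ) ^ N := by positivity
    rw [pow_add, pow_add, mul_mul_mul_comm]
    exact mul_le_mul hnn hnn h0 (h0.trans hnn)
  rw [div_mul_div_comm, div_le_iff₀ (by positivity)] at h7
  have hN0 : (0 : ℝ) < N := by rw [hN]; positivity
  nlinarith

theorem Bounded.nonneg {D : ℕ} {E : ℤ} {r : ℕ} (h : Bounded k D E r) : 0 ≤ E := by
  obtain ⟨c, m, C, hQ⟩ := h
  obtain ⟨K, -, hK, X, -, -, -, -, -, -, hchi, -⟩ := hQ 0
  have h1 : (0 : ℤ) < ((K + C : ℕ) : ℤ) ^ D := pow_pos (by omega) D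
  exact nonneg_of_mul_nonneg_left ((abs_nonneg _).trans hchi) h1

/-- The sharp bound from the weak bound and the squaring construction. -/
theorem le_of_bounded
    (weak : ∀ n : ℕ, 3 ≤ n → ∀ (E : ℤ) (r : ℕ), Bounded k (n + 1) E r → (r : ℤ) ≤ 3 * n * E)
    (square : ∀ (D : ℕ) (E : ℤ) (r : ℕ), 1 ≤ D → Bounded k D E r →
      Bounded k (D + D) (E ^ 2) (r ^ 2))
    {D : ℕ} {E : ℤ} {r : ℕ} (hD : 1 ≤ D) (h : Bounded k D E r) : (r : ℤ) ≤ E := by
  have hE := h.nonneg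
  have hsq : ∀ s : ℕ, Bounded k (2 ^ s * D) (E ^ 2 ^ s) (r ^ 2 ^ s) := by
    intro s
    induction s with
    | zero => simpa using h
    | succ s ih =>
      have h' := square (2 ^ s * D) _ _ (Nat.mul_pos (Nat.two_pow_pos s) hD) ih
      rw [← pow_mul, ← pow_mul] at h'
      rw [pow_succ, show 2 ^ s * 2 * D = 2 ^ s * D + 2 ^ s * D by ring]
      exact h'
  refine le_of_pow_le_linear_mul_pow (c := 3 * D) hE fun s hs => ?_
  obtain ⟨n, hn⟩ : ∃ n, 2 ^ s * D = n + 1 :=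
    ⟨2 ^ s * D - 1, by have := Nat.mul_pos (Nat.two_pow_pos s) hD; omega⟩
  have h4 : 4 ≤ 2 ^ s * D := le_trans (Nat.pow_le_pow_right (show 0 < 2 by norm_num) hs)
    (Nat.le_mul_of_pos_right _ (by omega))
  have hB := hsq s
  rw [hn] at hB
  have h1 := weak n (by omega) _ _ hB
  push_cast at h1
  refine h1.trans ?_
  have h2 : (n : ℤ) ≤ 2 ^ s * D := by
    have : ((n : ℕ) : ℤ) ≤ ((2 ^ s * D : ℕ) : ℤ) := by exact_mod_cast (by omega : n ≤ 2 ^ s * D)
    push_cast at this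
    exact this
  push_cast
  refine mul_le_mul_of_nonneg_right ?_ (pow_nonneg hE _)
  linarith

end Vale.Agent.P202.NC
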