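import Vale.Agent.P202.NC.Band.Count

/-!
# P202, general source ring: the band bound for the pair (cut complex, `c` times it)

Multiplication by `c` is injective on the Laurent model, so the homology of the pair is squeezed
between the cokernel and the kernel of multiplication on the homology of the cut complex.
-/

noncomputable section

namespace Vale.Agent.P202.NC

open Finset Segre

namespace Band

/-- Finiteness and size of a space from a map whose kernel is covered by a second one. -/
theorem finite_and_finrank_le {F A B Q : Type*} [Field F] [AddCommGroup A] [Module F A]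
    [AddCommGroup B] [Module F B] [AddCommGroup Q] [Module F Q] [Module.Finite F B]
    [Module.Finite F Q] (f : A →ₗ[F] B) (g : Q →ₗ[F] A)
    (h : ∀ a, f a = 0 → a ∈ LinearMap.range g) :
    Module.Finite F A ∧ Module.finrank F A ≤ Module.finrank F Q + Module.finrank F B := by
  have hle : LinearMap.ker f ≤ LinearMap.range g := fun a ha => h a ha
  have : Module.Finite F (LinearMap.ker f) :=
    Module.Finite.of_injective (Submodule.inclusion hle) (Submodule.inclusion_injective hle)
  have : Module.Finite F (A ⧸ LinearMap.ker f) := Module.Finite.equiv f.quotKerEquivRange.symm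
  have hA : Module.Finite F A := Module.Finite.of_submodule_quotient (LinearMap.ker f)
  refine ⟨hA, ?_⟩
  have h1 := f.finrank_range_add_finrank_ker
  have h2 := Submodule.finrank_le (LinearMap.range f)
  have h3 := (Submodule.finrank_mono hle).trans (LinearMap.finrank_range_le g)
  omega

variable {k : Type*} [Field k] {n : ℕ} (K : ℕ)

theorem mem_cutMul {c : MvPowerSeries (Fin (n + 1)) k} {L : ℤ} {f : Cov n → Lam k n} :
    f ∈ cutMul k n K c L ↔ ∃ w, w ∈ cutK k n K L ∧ c • w = f := Iff.rfl

theorem smul_cancel {c : MvPowerSeries (Fin (n + 1)) k} (hc : c ≠ 0) {f g : Cov n → Lam k n}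
    (h : c • f = c • g) : f = g := by
  have : NoZeroDivisors (Coef k n) := inferInstance
  funext e
  have he : segreHom k n c * f e = segreHom k n c * g e := congrFun h e
  exact mul_left_cancel₀ (segreHom_ne_zero hc) he

theorem deg_of_smul {c : MvPowerSeries (Fin (n + 1)) k} (hc : c ≠ 0) {j : ℤ}
    {w : Cov n → Lam k n} (h : c • w ∈ (lamDiff k n).deg j) : w ∈ (lamDiff k n).deg j := by
  intro e he
  have h1 : segreHom k n c * w e = 0 := h e he
  exact (mul_eq_zero.1 h1).resolve_left (segreHom_ne_zero hc)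

/-- The pair is controlled by kernel and cokernel of multiplication. -/
theorem pair_betti_le {c : MvPowerSeries (Fin (n + 1)) k} (hc : c ≠ 0) (L j : ℤ) :
    Module.Finite k ((lamDiff k n).H (cutK k n K L) (cutMul k n K c L) j) ∧
    (lamDiff k n).betti (cutK k n K L) (cutMul k n K c L) j ≤
      Module.finrank k ((lamDiff k n).H (cutK k n K L) ⊥ j ⧸
          LinearMap.range (homMul k n K c L j)) +
        Module.finrank k (LinearMap.ker (homMul k n K c L (j - 1))) := by
  have := cut_finite (k := k) (n := n) K L j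
  have := cut_finite (k := k) (n := n) K L (j - 1)
  have hw : ∀ x : (lamDiff k n).cycles (cutK k n K L) (cutMul k n K c L) j,
      ∃ w, w ∈ (lamDiff k n).cycles (cutK k n K L) ⊥ (j - 1) ∧
        c • w = delta k (Lam k n) x.1 := by
    rintro ⟨x, ⟨hx1, hx2⟩, hx3⟩
    obtain ⟨w, hw1, hw2⟩ := (mem_cutMul K).1 hx3
    have hdeg := (lamDiff k n).d_deg j x hx2
    rw [← hw2] at hdeg
    refine ⟨w, ⟨⟨hw1, deg_of_smul hc hdeg⟩, ?_⟩, hw2⟩
    rw [SetLike.mem_coe, Submodule.mem_comap, Submodule.mem_bot]
    refine smul_cancel hc ?_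
    show c • delta k (Lam k n) w = c • 0
    rw [← delta_smul, show c • w = delta k (Lam k n) x from hw2, delta_delta, smul_zero]
  choose w hwc hwe using hw
  let fc : (lamDiff k n).cycles (cutK k n K L) (cutMul k n K c L) j →ₗ[k]
      LinearMap.ker (homMul k n K c L (j - 1)) :=
    { toFun := fun x => ⟨Submodule.Quotient.mk ⟨w x, hwc x⟩, by
        rw [LinearMap.mem_ker, homMul, Submodule.mapQ_apply, Submodule.Quotient.mk_eq_zero]
        refine Submodule.mem_sup_left ⟨x.1, ⟨x.2.1.1, ?_⟩, (hwe x).symm⟩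
        rw [sub_add_cancel]
        exact x.2.1.2⟩
      map_add' := fun x y => by
        refine Subtype.ext (congrArg Submodule.Quotient.mk (Subtype.ext (smul_cancel hc ?_)))
        show c • w (x + y) = c • (w x + w y)
        rw [smul_add, hwe, hwe, hwe, ← map_add]
        rfl
      map_smul' := fun a x => by
        refine Subtype.ext (congrArg Submodule.Quotient.mk (Subtype.ext (smul_cancel hc ?_)))
        show c • w (a • x) = c • a • w x
        rw [hwe, smul_comm c a, hwe, ← map_smul]
        rfl }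
  have hf : ((lamDiff k n).bdries (cutK k n K L) (cutMul k n K c L) j).comap
      ((lamDiff k n).cycles (cutK k n K L) (cutMul k n K c L) j).subtype ≤ LinearMap.ker fc := by
    rintro x h
    simp only [Submodule.mem_comap, Submodule.subtype_apply, Diff.bdries, Submodule.mem_sup,
      Submodule.mem_map] at h
    obtain ⟨a, ⟨y, -, rfl⟩, b, ⟨hb1, hb2⟩, hab⟩ := h
    obtain ⟨v, hv1, hv2⟩ := (mem_cutMul K).1 hb1
    refine LinearMap.mem_ker.2 (Subtype.ext ?_)
    show Submodule.Quotient.mk _ = (0 : (lamDiff k n).H (cutK k n K L) ⊥ (j - 1))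
    rw [Submodule.Quotient.mk_eq_zero]
    refine Submodule.mem_sup_left ⟨v, ⟨hv1, ?_⟩, ?_⟩
    · rw [sub_add_cancel]
      exact deg_of_smul hc (hv2 ▸ hb2)
    · refine smul_cancel hc ?_
      show c • delta k (Lam k n) v = c • w x
      rw [← delta_smul, hv2, hwe, ← hab]
      show _ = delta k (Lam k n) (delta k (Lam k n) y + b)
      rw [map_add, delta_delta, zero_add]
  let f : (lamDiff k n).H (cutK k n K L) (cutMul k n K c L) j →ₗ[k]
      LinearMap.ker (homMul k n K c L (j - 1)) := Submodule.liftQ _ fc hf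
  let gc : (lamDiff k n).cycles (cutK k n K L) ⊥ j →ₗ[k]
      (lamDiff k n).cycles (cutK k n K L) (cutMul k n K c L) j :=
    Submodule.inclusion (inf_le_inf_left _ (Submodule.comap_mono bot_le))
  let g0 : (lamDiff k n).H (cutK k n K L) ⊥ j →ₗ[k]
      (lamDiff k n).H (cutK k n K L) (cutMul k n K c L) j :=
    Submodule.mapQ _ _ gc (by
      intro x h
      simp only [Submodule.mem_comap, Submodule.subtype_apply, Diff.bdries, bot_inf_eq,
        sup_bot_eq] at h ⊢
      exact Submodule.mem_sup_left h)
  have hg : LinearMap.range (homMul k n K c L j) ≤ LinearMap.ker g0 := by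
    rintro _ ⟨q, rfl⟩
    obtain ⟨x, rfl⟩ := Submodule.Quotient.mk_surjective _ q
    rw [LinearMap.mem_ker, homMul, Submodule.mapQ_apply, Submodule.mapQ_apply,
      Submodule.Quotient.mk_eq_zero]
    refine Submodule.mem_sup_right ⟨⟨x.1, x.2.1.1, rfl⟩, ?_⟩
    exact fun e he => by
      show c • x.1 e = 0
      rw [x.2.1.2 e he, smul_zero]
  refine finite_and_finrank_le f (Submodule.liftQ _ g0 hg) fun q hq => ?_
  obtain ⟨x, rfl⟩ := Submodule.Quotient.mk_surjective _ q
  have h0 : (Submodule.Quotient.mk ⟨w x, hwc x⟩ : (lamDiff k n).H (cutK k n K L) ⊥ (j - 1)) = 0 :=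
    congrArg Subtype.val hq
  rw [Submodule.Quotient.mk_eq_zero] at h0
  simp only [Submodule.mem_comap, Submodule.subtype_apply, Diff.bdries, bot_inf_eq, sup_bot_eq,
    Submodule.mem_map] at h0
  obtain ⟨v, ⟨v1, v2⟩, hv⟩ := h0
  rw [sub_add_cancel] at v2
  have hx' : x.1 - c • v ∈ (lamDiff k n).cycles (cutK k n K L) ⊥ j := by
    refine ⟨⟨Submodule.sub_mem _ x.2.1.1 (smul_mem_cutK K c v1),
      Submodule.sub_mem _ x.2.1.2 fun e he => by rw [Pi.smul_apply, v2 e he, smul_zero]⟩, ?_⟩
    rw [SetLike.mem_coe, Submodule.mem_comap, Submodule.mem_bot]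
    show delta k (Lam k n) (x.1 - c • v) = 0
    rw [map_sub, delta_smul, show delta k (Lam k n) v = w x from hv, hwe, sub_self]
  refine ⟨Submodule.Quotient.mk (Submodule.Quotient.mk ⟨_, hx'⟩), ?_⟩
  show Submodule.Quotient.mk (gc ⟨_, hx'⟩) = _
  rw [Submodule.Quotient.eq]
  refine Submodule.mem_sup_right ⟨⟨-v, Submodule.neg_mem _ v1, ?_⟩, ?_⟩
  · show c • -v = x.1 - c • v - x.1
    rw [smul_neg, sub_sub_cancel_left]
  · show x.1 - c • v - x.1 ∈ (lamDiff k n).deg j
    rw [sub_sub_cancel_left]
    exact Submodule.neg_mem _ fun e he => by rw [Pi.smul_apply, v2 e he, smul_zero]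

end Band

/-- The band bound. -/
theorem bandBound {k : Type*} [Field k] {n : ℕ} {c : MvPowerSeries (Fin (n + 1)) k} (hc : c ≠ 0) :
    BandBound k n c := by
  obtain ⟨C, hC⟩ := Band.band hc
  refine ⟨2 * C, fun K hK i hi j => ?_⟩
  set L : ℤ := (K : ℤ) + 1 - K * i with hL
  obtain ⟨h1, h2⟩ := Band.pair_betti_le K hc L j
  refine ⟨h1, h2.trans ?_⟩
  have hLlo : -(((n + 1) * K : ℕ) : ℤ) ≤ L := by
    have : (K : ℤ) * i ≤ (K : ℤ) * ((n : ℤ) + 1) :=
      mul_le_mul_of_nonneg_left (by exact_mod_cast hi) (by positivity)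
    push_cast
    rw [hL]
    linarith
  have := (hC K hK L hLlo j).2
  have := (hC K hK L hLlo (j - 1)).1
  rw [Nat.mul_assoc]
  omega

end Vale.Agent.P202.NC
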