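import Vale.Agent.P202.Comb

/-!
# P202, general source ring: the strong combinatorial inequality

The main sum exceeds the middle alternating partial sum by a multiple of `K ^ (n + 1)`.
-/

namespace Vale.Agent.P202.Segre

open Finset

variable (n K : ℕ)

lemma mul_le_pFun_sub_qFun (m s : ℕ) (hs : s ≤ K) :
    (s : ℤ) ^ 2 * (((m + 1).factorial : ℤ) * (K : ℤ) ^ m) ≤
      pFun (m + 2) K (s : ℤ) - qFun (m + 2) K s := by
  have hK : (0 : ℤ) ≤ K := Int.natCast_nonneg K
  have hs0 : (0 : ℤ) ≤ s := Int.natCast_nonneg s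
  have hsK : (s : ℤ) ≤ K := by exact_mod_cast hs
  set T : ℤ := ((m + 1).factorial : ℤ) * (K : ℤ) ^ m with hT
  have hTeq : T = ∏ a : Fin m, (((a.val : ℤ) + 2) * K) := by
    rw [hT, prod_mul_distrib, prod_const, card_univ, Fintype.card_fin]
    congr 1
    rw [Fin.prod_univ_eq_prod_range (fun a => ((a : ℤ) + 2)) m,
      ← prod_range_add_one_eq_factorial, prod_range_succ']
    push_cast
    simp only [add_assoc]
    norm_num
  have hT0 : 0 ≤ T := by rw [hT]; positivity
  have h1 : (K + s : ℤ) * T ≤ ∏ a : Fin (m + 1), ((s : ℤ) + ((a.val : ℤ) + 1) * K) := by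
    rw [Fin.prod_univ_succ, hTeq]
    simp only [Fin.val_zero, Fin.val_succ]
    push_cast
    refine mul_le_mul (le_of_eq (by ring)) ?_ (prod_nonneg fun a _ => by positivity) (by positivity)
    exact prod_le_prod (fun a _ => by positivity) fun a _ => by nlinarith
  have h2 : ∏ a : Fin (m + 1), |(s : ℤ) - ((a.val : ℤ) + 1) * K| ≤ (K : ℤ) * T := by
    rw [Fin.prod_univ_succ, hTeq]
    simp only [Fin.val_zero, Fin.val_succ]
    push_cast
    refine mul_le_mul (abs_le.2 ⟨by linarith, by linarith⟩)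
      (prod_le_prod (fun a _ => abs_nonneg _) fun a _ => abs_le.2 ⟨?_, ?_⟩)
      (prod_nonneg fun a _ => abs_nonneg _) hK
    · have : 0 ≤ (a.val : ℤ) * K := by positivity
      nlinarith
    · have : 0 ≤ (a.val : ℤ) * K := by positivity
      nlinarith
  have hp : pFun (m + 2) K (s : ℤ) =
      (s : ℤ) * ∏ a : Fin (m + 1), ((s : ℤ) + ((a.val : ℤ) + 1) * K) := by
    rw [pFun, Fin.prod_univ_succ]
    simp
  have hq : qFun (m + 2) K s =
      (s : ℤ) * ∏ a : Fin (m + 1), |(s : ℤ) - ((a.val : ℤ) + 1) * K| := by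
    rw [qFun, Fin.prod_univ_succ]
    simp
  rw [hp, hq, ← mul_sub, sq, mul_assoc]
  refine mul_le_mul_of_nonneg_left ?_ hs0
  linarith [show (K + s : ℤ) * T = K * T + s * T by ring]

lemma cube_le_three_mul_sum_sq (L : ℕ) :
    (L : ℤ) ^ 3 ≤ 3 * ∑ s ∈ range L, ((s + 1 : ℕ) : ℤ) ^ 2 := by
  induction L with
  | zero => simp
  | succ L ih =>
    rw [sum_range_succ]
    push_cast at ih ⊢
    nlinarith [Int.natCast_nonneg L]

lemma block_zero_add_le_mainSum_strong (hn : 2 ≤ n) :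
    (n.factorial : ℤ) * (K : ℤ) ^ (n + 1) ≤ 3 * n * (mainSum n K - block n K 0) := by
  obtain ⟨m, rfl⟩ : ∃ m, n = m + 2 := ⟨n - 2, by omega⟩
  have h0 : mainSum (m + 2) K = ∑ s ∈ range K, pFun (m + 2) K ((s + 1 : ℕ) : ℤ) := by
    refine sum_nbij' (fun t => (t - 1).toNat) (fun s => ((s + 1 : ℕ) : ℤ)) ?_ ?_ ?_ ?_ ?_ <;>
      intro t ht <;> simp at ht ⊢ <;> try omega
    congr 1; omega
  have h1 : block (m + 2) K 0 ≤ ∑ s ∈ range K, qFun (m + 2) K (s + 1) := by
    rcases K with _ | L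
    · simp [block]
    rw [block, sum_range_succ', Nat.add_zero (0 * (L + 1)),
      qFun_mul_self (m + 2) (L + 1) 0 (by omega), add_zero, sum_range_succ]
    simp only [zero_mul, zero_add]
    linarith [qFun_nonneg (m + 2) (L + 1) (L + 1)]
  set T : ℤ := ((m + 1).factorial : ℤ) * (K : ℤ) ^ m with hT
  have h2 : (∑ s ∈ range K, ((s + 1 : ℕ) : ℤ) ^ 2) * T ≤
      mainSum (m + 2) K - block (m + 2) K 0 := by
    refine le_trans ?_ (sub_le_sub_left h1 _)
    rw [h0, ← sum_sub_distrib, sum_mul]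
    exact sum_le_sum fun s hs => mul_le_pFun_sub_qFun K m (s + 1) (mem_range.1 hs)
  have h3 := mul_le_mul_of_nonneg_right (cube_le_three_mul_sum_sq K)
    (show (0 : ℤ) ≤ ((m : ℤ) + 2) * T by rw [hT]; positivity)
  have h4 := mul_le_mul_of_nonneg_left h2 (show (0 : ℤ) ≤ 3 * ((m : ℤ) + 2) by positivity)
  have h5 : ((m + 2).factorial : ℤ) * (K : ℤ) ^ (m + 2 + 1) = (K : ℤ) ^ 3 * (((m : ℤ) + 2) * T) := by
    rw [hT, Nat.factorial_succ]
    push_cast
    ring
  rw [h5]
  push_cast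
  linarith

/-- The combinatorial input of the weak bound for a general source ring. -/
theorem exists_alternation_strong (hn : 2 ≤ n) (_hK : 1 ≤ K) :
    ∃ C : ℤ, (∀ i ∈ Icc 1 (n + 1), 0 ≤ (-1) ^ i * (sFun n K (i - 1) - C)) ∧
      (n.factorial : ℤ) * (K : ℤ) ^ (n + 1) ≤ 3 * n * (mainSum n K - C) := by
  refine ⟨altSum n K ((n - 1) / 2), fun i hi => ?_, ?_⟩
  · rw [mem_Icc] at hi
    obtain ⟨m, rfl⟩ : ∃ m, i = m + 1 := ⟨i - 1, by omega⟩
    rw [Nat.add_sub_cancel, sFun_eq_altSum n K m (by omega)]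
    exact altSum_alternates n K m
  · have h := altSum_alternates n K 1
    have h1 : altSum n K 1 = block n K 0 := by simp [altSum]
    rw [h1] at h
    norm_num at h
    refine (block_zero_add_le_mainSum_strong n K hn).trans ?_
    exact mul_le_mul_of_nonneg_left (by linarith) (by positivity)

end Vale.Agent.P202.Segre
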