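import Vale.Agent.P202.Segre.Action
import Vale.Agent.P202.Segre.Delta

/-!
# P202, general source ring: the augmented Čech complex over the Segre model, cut below a degree
-/

noncomputable section

namespace Vale.Agent.P202.NC

open Segre

variable (k : Type*) [Field k] (n K : ℕ)

/-- The augmented Čech complex with values in the Laurent model, position `-cdeg`. -/
def lamDiff : Diff k (Cov n → Lam k n) where
  d := delta k (Lam k n)
  deg j :=
    { carrier := {f | ∀ e, -(cdeg n e : ℤ) ≠ j → f e = 0}
      add_mem' := by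
        intro f f' hf hf' e he
        simp [hf e he, hf' e he]
      zero_mem' := by
        intro e _
        rfl
      smul_mem' := by
        intro c f hf e he
        simp [hf e he] }
  d_d := delta_delta
  d_deg := by
    intro j f hf e he
    by_cases h : ∃ a : ℕ, -(a : ℤ) = j
    · obtain ⟨a, ha⟩ := h
      exact delta_apply_eq_zero f a (fun e' he' => hf e' (by omega)) e (by omega)
    · have : f = 0 := funext fun e' => hf e' fun hh => h ⟨_, hh⟩
      simp [this]

/-- The part in degrees at least `L`. -/
def cut (L : ℤ) : Submodule (MvPowerSeries (Fin (n + 1)) k) (Cov n → Lam k n) where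
  carrier := {f | (∀ e, f e ∈ comp k n K e) ∧ ∀ e t, t < L → (f e).coeff t = 0}
  add_mem' := by
    rintro f f' ⟨h1, h2⟩ ⟨h1', h2'⟩
    exact ⟨fun e => (comp k n K e).add_mem (h1 e) (h1' e),
      fun e t ht => by simp [h2 e t ht, h2' e t ht]⟩
  zero_mem' := ⟨fun e => (comp k n K e).zero_mem, fun e t _ => by simp⟩
  smul_mem' := by
    rintro c f ⟨h1, h2⟩
    refine ⟨fun e => (comp k n K e).smul_mem c (h1 e), fun e t ht => ?_⟩
    exact smul_coeff_eq_zero (K := 0) (by simp) (lo := L - 1)
      (fun t' ht' => h2 e t' (by omega)) (by omega)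

/-- The cut complex over `k`. -/
def cutK (L : ℤ) : Submodule k (Cov n → Lam k n) := (cut k n K L).restrictScalars k

/-- The image of the cut complex under multiplication by `c`. -/
def cutMul (c : MvPowerSeries (Fin (n + 1)) k) (L : ℤ) : Submodule k (Cov n → Lam k n) :=
  ((cut k n K L).map (LinearMap.lsmul (MvPowerSeries (Fin (n + 1)) k) (Cov n → Lam k n) c)).restrictScalars k

/-- Multiplication by a fixed nonzero `c` is almost bijective on the homology of the cut complexes. -/
def BandBound (c : MvPowerSeries (Fin (n + 1)) k) : Prop :=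
  ∃ C : ℕ, ∀ K : ℕ, 1 ≤ K → ∀ i : ℕ, i ≤ n + 1 → ∀ j : ℤ,
    Module.Finite k ((lamDiff k n).H (cutK k n K ((K : ℤ) + 1 - K * i))
      (cutMul k n K c ((K : ℤ) + 1 - K * i)) j) ∧
    (lamDiff k n).betti (cutK k n K ((K : ℤ) + 1 - K * i))
      (cutMul k n K c ((K : ℤ) + 1 - K * i)) j ≤ C * K ^ n

end Vale.Agent.P202.NC
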