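import Vale.Agent.P202.NC.Main
import Vale.Agent.P202.NC.Window.Weak
import Vale.Agent.P202.Reduce.General

/-!
# P202: Lech's inequality in characteristic `p` for perfect residue fields
-/

noncomputable section

namespace Vale.Agent.P202

open IsLocalRing Filter

universe u

/-- Lech's inequality for an arbitrary flat local map out of a Noetherian local ring of
characteristic `p` with perfect residue field. -/
theorem lech_charP (p : ℕ) [Fact p.Prime]
    (R : Type u) [CommRing R] [IsNoetherianRing R] [IsLocalRing R] [CharP R p]
    [PerfectField (ResidueField R)]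
    (S : Type u) [CommRing S] [IsNoetherianRing S] [IsLocalRing S] [Algebra R S]
    [IsLocalHom (algebraMap R S)] [Module.Flat R S] :
    limsup (hsSeq R) atTop ≤ liminf (hsSeq S) atTop :=
  lech_of_main (p := p) (Good := fun _ _ _ => True)
    (fun _ _ _ _ _ _ _ _ _ _ _ _ _ => trivial)
    (fun A _ _ _ _ _ _ _ B _ _ _ _ _ _ =>
      NC.lech_main_of_weak p (fun _ _ _ hn _ _ h => NC.weak hn h) A B) R trivial S

end Vale.Agent.P202
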