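import Vale.Agent.P202.HomAlg.Homotopy
import Vale.Agent.P202.Diag.Syzygy

/-!
# P202, general source ring: augmented finite free resolutions and lifting along them

A resolution is a finite free complex with an augmentation `ε`, exact in the augmented sense. Maps
into it are solved column by column: this gives lifts of endomorphisms and null-homotopies.
-/

noncomputable section

namespace Vale.Agent.P202.NC

open Matrix

universe u

/-- A finite free resolution of `N`. -/
structure Reso (A : Type u) [CommRing A] (N : Type u) [AddCommGroup N] [Module A N] where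
  F : FreeCx A
  ε : (F.ι → A) →ₗ[A] N
  surj : Function.Surjective ε
  ε_d : ∀ u, ε (F.dA A u) = 0
  ε_pos : ∀ u, (∀ b, F.pos b = 0 → u b = 0) → ε u = 0
  exact : ∀ u, F.dA A u = 0 → ε u = 0 → ∃ v, F.dA A v = u

namespace Reso

variable {A : Type u} [CommRing A] {N : Type u} [AddCommGroup N] [Module A N] (Φ : Reso A N)

/-- The augmentation on a basis vector. -/
def gen (b : Φ.F.ι) : N := Φ.ε (Pi.single b 1)

theorem ε_apply (u : Φ.F.ι → A) : Φ.ε u = ∑ b, u b • Φ.gen b := by
  conv_lhs => rw [← Finset.univ_sum_single u]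
  rw [map_sum]
  refine Finset.sum_congr rfl fun b _ => ?_
  rw [gen, ← map_smul, ← Pi.single_smul, smul_eq_mul, mul_one]

theorem gen_eq_zero {b : Φ.F.ι} (hb : Φ.F.pos b ≠ 0) : Φ.gen b = 0 :=
  Φ.ε_pos _ fun b' hb' => by
    rw [Pi.single_eq_of_ne fun e => hb (by rw [← e]; exact hb')]

theorem sum_gen_mat (g : Φ.F.ι) : ∑ b, Φ.F.mat b g • Φ.gen b = 0 := by
  have h := Φ.ε_d (Pi.single g 1)
  rw [ε_apply] at h
  rw [← h]
  refine Finset.sum_congr rfl fun b _ => ?_
  simp [FreeCx.dA_apply, Pi.single_apply]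

theorem ε_posProj_zero (u : Φ.F.ι → A) : Φ.ε (Φ.F.posProj A 0 u) = Φ.ε u := by
  have h := Φ.ε_pos (u - Φ.F.posProj A 0 u) fun b hb => by
    simp [FreeCx.posProj_apply, hb]
  rw [map_sub, sub_eq_zero] at h
  exact h.symm

/-- Column by column solution of `d ψ = φ + σ ψ d` with prescribed augmentation `τ`. -/
theorem exists_solve (δ : ℕ) (σ : A) (φ : Matrix Φ.F.ι Φ.F.ι A) (τ : Φ.F.ι → N)
    (hφ : ∀ h g, φ h g ≠ 0 → Φ.F.pos g + δ = Φ.F.pos h + 1)
    (hcy : Φ.F.mat * φ + σ • (φ * Φ.F.mat) = 0)
    (hτ : ∀ g, τ g ≠ 0 → δ = 0 ∧ Φ.F.pos g = 0)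
    (hε : ∀ g, Φ.ε (fun h => φ h g) + σ • ∑ l, Φ.F.mat l g • τ l = 0) :
    ∃ ψ : Matrix Φ.F.ι Φ.F.ι A, (∀ h g, ψ h g ≠ 0 → Φ.F.pos h = Φ.F.pos g + δ) ∧
      Φ.F.mat * ψ = φ + σ • (ψ * Φ.F.mat) ∧ ∀ g, Φ.ε (fun h => ψ h g) = τ g := by
  classical
  set d := Φ.F.mat with hd
  suffices h : ∀ i, ∃ ψ : Matrix Φ.F.ι Φ.F.ι A,
      (∀ h g, ψ h g ≠ 0 → Φ.F.pos h = Φ.F.pos g + δ) ∧
      ∀ g, Φ.F.pos g < i → Φ.ε (fun h => ψ h g) = τ g ∧
        ∀ h, (d * ψ) h g = (φ + σ • (ψ * d)) h g by
    obtain ⟨ψ, h1, h2⟩ := h (Finset.univ.sup Φ.F.pos + 1)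
    have hlt : ∀ g, Φ.F.pos g < Finset.univ.sup Φ.F.pos + 1 := fun g =>
      Nat.lt_succ_of_le (Finset.le_sup (Finset.mem_univ g))
    exact ⟨ψ, h1, by ext h g; exact (h2 g (hlt g)).2 h, fun g => (h2 g (hlt g)).1⟩
  intro i
  induction i with
  | zero => exact ⟨0, fun h g hne => absurd rfl hne, fun g hg => absurd hg (Nat.not_lt_zero _)⟩
  | succ i ih =>
    obtain ⟨ψ, h1, h2⟩ := ih
    let u : Φ.F.ι → Φ.F.ι → A := fun g h => (φ + σ • (ψ * d)) h g
    have hsupp : ∀ g h, u g h ≠ 0 → Φ.F.pos g + δ = Φ.F.pos h + 1 := by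
      intro g h hne
      by_contra hc
      apply hne
      simp only [u, Matrix.add_apply, Matrix.smul_apply, Matrix.mul_apply]
      rw [show φ h g = 0 from by_contra fun e => hc (hφ h g e), zero_add,
        Finset.sum_eq_zero fun l _ => ?_, smul_zero]
      by_contra hne
      have e1 := h1 h l (left_ne_zero_of_mul hne)
      have e2 := Φ.F.mat_pos l g (right_ne_zero_of_mul hne)
      omega
    have hv : ∀ g, ∃ v : Φ.F.ι → A, Φ.F.pos g = i →
        (∀ h, v h ≠ 0 → Φ.F.pos h = Φ.F.pos g + δ) ∧ Φ.ε v = τ g ∧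
          Φ.F.dA A v = u g := by
      intro g
      by_cases hg : Φ.F.pos g = i
      swap
      · exact ⟨0, fun h => absurd h hg⟩
      have hprev : ∀ l, d l g ≠ 0 → Φ.ε (fun h => ψ h l) = τ l ∧
          ∀ h, (d * ψ) h l = (φ + σ • (ψ * d)) h l := fun l hl =>
        h2 l (by have := Φ.F.mat_pos l g hl; omega)
      by_cases h0 : δ = 0 ∧ Φ.F.pos g = 0
      · obtain ⟨w, hw⟩ := Φ.surj (τ g)
        refine ⟨Φ.F.posProj A 0 w, fun _ => ⟨fun h hh => ?_, by rw [ε_posProj_zero, hw], ?_⟩⟩
        · rw [FreeCx.posProj_apply] at hh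
          split_ifs at hh with hp
          · omega
          · exact absurd rfl hh
        · funext h
          rw [FreeCx.dA_apply]
          rw [show u g h = 0 from by_contra fun e => by have := hsupp g h e; omega]
          refine Finset.sum_eq_zero fun l _ => ?_
          by_cases hm : Φ.F.mat h l = 0
          · simp [hm]
          · have := Φ.F.mat_pos h l hm
            rw [FreeCx.posProj_apply, if_neg (by omega), smul_zero]
      have hτ0 : τ g = 0 := by_contra fun e => h0 (hτ g e)
      have hdu : Φ.F.dA A (u g) = 0 := by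
        funext l
        have e : ∑ h, d l h * (ψ * d) h g = ∑ h, (φ + σ • (ψ * d)) l h * d h g := by
          rw [← Matrix.mul_apply, ← Matrix.mul_assoc, Matrix.mul_apply]
          refine Finset.sum_congr rfl fun h _ => ?_
          by_cases hm : d h g = 0
          · simp [hm]
          · rw [(hprev h hm).2 l]
        have e' : ∑ h, (φ + σ • (ψ * d)) l h * d h g = (φ * d) l g := by
          rw [← Matrix.mul_apply, Matrix.add_mul, Matrix.smul_mul, Matrix.mul_assoc ψ, hd,
            Φ.F.sq, Matrix.mul_zero, smul_zero, add_zero]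
        have hc := congrFun (congrFun hcy l) g
        rw [Matrix.add_apply, Matrix.mul_apply, Matrix.smul_apply, Matrix.zero_apply,
          smul_eq_mul, ← e', ← e] at hc
        rw [FreeCx.dA_apply, Pi.zero_apply, ← hc, Finset.mul_sum, ← Finset.sum_add_distrib]
        refine Finset.sum_congr rfl fun h _ => ?_
        simp only [u, Matrix.add_apply, Matrix.smul_apply, smul_eq_mul, hd]
        ring
      have hεu : Φ.ε (u g) = 0 := by
        have e : u g = (fun h => φ h g) + σ • ∑ l, d l g • (fun h => ψ h l) := by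
          funext h
          simp [u, Matrix.mul_apply, mul_comm]
        rw [e, map_add, map_smul, map_sum, ← hε g]
        congr 2
        refine Finset.sum_congr rfl fun l _ => ?_
        rw [map_smul]
        by_cases hm : d l g = 0
        · rw [hm, zero_smul, zero_smul]
        · rw [(hprev l hm).1]
      obtain ⟨w, hw⟩ := Φ.exact (u g) hdu hεu
      refine ⟨Φ.F.posProj A ((i + δ : ℕ) : ℤ) w, fun _ => ⟨fun h hh => ?_, ?_, ?_⟩⟩
      · rw [FreeCx.posProj_apply] at hh
        split_ifs at hh with hp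
        · omega
        · exact absurd rfl hh
      · rw [hτ0]
        refine Φ.ε_pos _ fun b hb => ?_
        rw [FreeCx.posProj_apply, if_neg (by omega)]
      · have e := Φ.F.dA_posProj A (((i + δ : ℕ) : ℤ) - 1) w
        rw [sub_add_cancel] at e
        rw [e, hw]
        funext h
        rw [FreeCx.posProj_apply]
        split_ifs with hp
        · rfl
        · exact (by_contra fun e => hp (by have := hsupp g h (fun e' => e e'.symm); omega))
    choose v hv using hv
    refine ⟨Matrix.of fun h g => if Φ.F.pos g = i then v g h else ψ h g, fun h g hne => ?_,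
      fun g hg => ?_⟩
    · simp only [Matrix.of_apply] at hne
      split_ifs at hne with hp
      · exact (hv g hp).1 h hne
      · exact h1 h g hne
    · have hψd : ∀ h, ((Matrix.of fun h g => if Φ.F.pos g = i then v g h else ψ h g) * d) h g =
          (ψ * d) h g := fun h => by
        simp only [Matrix.mul_apply, Matrix.of_apply]
        refine Finset.sum_congr rfl fun l _ => ?_
        by_cases hm : d l g = 0
        · simp [hm]
        · rw [if_neg (by have := Φ.F.mat_pos l g hm; omega)]
      simp only [Matrix.add_apply, Matrix.smul_apply, hψd]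
      simp only [Matrix.mul_apply, Matrix.of_apply]
      by_cases hp : Φ.F.pos g = i
      · simp only [hp, if_true]
        refine ⟨(hv g hp).2.1, fun h => ?_⟩
        have := congrFun (hv g hp).2.2 h
        rw [FreeCx.dA_apply] at this
        simpa [u, hd, Matrix.mul_apply] using this
      · simp only [hp, if_false]
        refine ⟨(h2 g (by omega)).1, fun h => ?_⟩
        have := (h2 g (by omega)).2 h
        simpa [Matrix.mul_apply] using this

/-- A degree zero chain map of the resolution over `f`. -/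
structure IsLift (f : N →ₗ[A] N) (L : Matrix Φ.F.ι Φ.F.ι A) : Prop where
  deg : ∀ h g, L h g ≠ 0 → Φ.F.pos h = Φ.F.pos g
  comm : Φ.F.mat * L = L * Φ.F.mat
  aug : ∀ g, Φ.ε (fun h => L h g) = f (Φ.gen g)

theorem exists_lift (f : N →ₗ[A] N) : ∃ L, Φ.IsLift f L := by
  obtain ⟨L, h1, h2, h3⟩ := Φ.exists_solve 0 1 0 (fun g => f (Φ.gen g))
    (fun h g hne => absurd rfl hne) (by simp)
    (fun g hg => ⟨rfl, by_contra fun h => hg (by simp [Φ.gen_eq_zero h])⟩)
    (fun g => by
      rw [show (fun h => (0 : Matrix Φ.F.ι Φ.F.ι A) h g) = 0 from rfl, map_zero, zero_add,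
        one_smul]
      simp only [← map_smul, ← map_sum, Φ.sum_gen_mat, map_zero])
  exact ⟨L, fun h g hh => by simpa using h1 h g hh, by simpa using h2, h3⟩

variable {Φ}

theorem IsLift.aug_vec {f : N →ₗ[A] N} {L : Matrix Φ.F.ι Φ.F.ι A} (hL : Φ.IsLift f L)
    (u : Φ.F.ι → A) : Φ.ε (fun h => ∑ g, L h g * u g) = f (Φ.ε u) := by
  rw [Φ.ε_apply u, map_sum,
    show (fun h => ∑ g, L h g * u g) = ∑ g, u g • fun h => L h g by
      funext h; simp [mul_comm], map_sum]
  exact Finset.sum_congr rfl fun g _ => by rw [map_smul, map_smul, hL.aug]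

theorem IsLift.add {f f' : N →ₗ[A] N} {L L' : Matrix Φ.F.ι Φ.F.ι A} (hL : Φ.IsLift f L)
    (hL' : Φ.IsLift f' L') : Φ.IsLift (f + f') (L + L') where
  deg h g hne := by
    by_cases e : L h g = 0
    · exact hL'.deg h g (by simpa [e] using hne)
    · exact hL.deg h g e
  comm := by rw [Matrix.mul_add, Matrix.add_mul, hL.comm, hL'.comm]
  aug g := by
    rw [show (fun h => (L + L') h g) = (fun h => L h g) + fun h => L' h g from rfl, map_add,
      hL.aug, hL'.aug, LinearMap.add_apply]

theorem IsLift.zero : Φ.IsLift 0 (0 : Matrix Φ.F.ι Φ.F.ι A) where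
  deg h g hne := absurd rfl hne
  comm := by simp
  aug g := by
    rw [show (fun h => (0 : Matrix Φ.F.ι Φ.F.ι A) h g) = 0 from rfl, map_zero, LinearMap.zero_apply]

theorem IsLift.smul {f : N →ₗ[A] N} {L : Matrix Φ.F.ι Φ.F.ι A} (hL : Φ.IsLift f L) (a : A) :
    Φ.IsLift (a • f) (a • L) where
  deg h g hne := hL.deg h g fun e => hne (by simp [e])
  comm := by rw [Matrix.mul_smul, Matrix.smul_mul, hL.comm]
  aug g := by
    rw [show (fun h => (a • L) h g) = a • fun h => L h g from rfl, map_smul, hL.aug,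
      LinearMap.smul_apply]

theorem IsLift.mul {f f' : N →ₗ[A] N} {L L' : Matrix Φ.F.ι Φ.F.ι A} (hL : Φ.IsLift f L)
    (hL' : Φ.IsLift f' L') : Φ.IsLift (f * f') (L * L') where
  deg h g hne := by
    obtain ⟨l, -, hl⟩ := Finset.exists_ne_zero_of_sum_ne_zero
      (show ∑ l, L h l * L' l g ≠ 0 by rwa [← Matrix.mul_apply])
    rw [hL.deg h l (left_ne_zero_of_mul hl), hL'.deg l g (right_ne_zero_of_mul hl)]
  comm := by rw [← Matrix.mul_assoc, hL.comm, Matrix.mul_assoc, hL'.comm, Matrix.mul_assoc]
  aug g := by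
    rw [show (fun h => (L * L') h g) = fun h => ∑ l, L h l * L' l g from
      funext fun h => Matrix.mul_apply, hL.aug_vec, hL'.aug]
    rfl

theorem IsLift.sum {ι : Type*} (s : Finset ι) {f : ι → N →ₗ[A] N}
    {L : ι → Matrix Φ.F.ι Φ.F.ι A} (hL : ∀ i ∈ s, Φ.IsLift (f i) (L i)) :
    Φ.IsLift (∑ i ∈ s, f i) (∑ i ∈ s, L i) := by
  classical
  induction s using Finset.induction_on with
  | empty => simpa using IsLift.zero
  | insert i s hi ih =>
    rw [Finset.sum_insert hi, Finset.sum_insert hi]
    exact (hL i (Finset.mem_insert_self i s)).add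
      (ih fun j hj => hL j (Finset.mem_insert_of_mem hj))

theorem isLift_one : Φ.IsLift 1 1 where
  deg h g hne := by
    by_cases e : h = g
    · rw [e]
    · exact absurd (Matrix.one_apply_ne e) hne
  comm := by simp
  aug g := by
    rw [show (fun h => (1 : Matrix Φ.F.ι Φ.F.ι A) h g) = Pi.single g 1 from funext fun h => by
      simp [Matrix.one_apply, Pi.single_apply]]
    rfl

variable (Φ)

/-- A chain map of degree zero inducing zero is null-homotopic. -/
theorem exists_null (φ : Matrix Φ.F.ι Φ.F.ι A) (hφ : Φ.IsLift 0 φ) :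
    ∃ ψ : Matrix Φ.F.ι Φ.F.ι A, (∀ h g, ψ h g ≠ 0 → Φ.F.pos h = Φ.F.pos g + 1) ∧
      φ = Φ.F.mat * ψ + ψ * Φ.F.mat := by
  obtain ⟨ψ, h1, h2, -⟩ := Φ.exists_solve 1 (-1) φ 0
    (fun h g hne => by rw [hφ.deg h g hne]) (by rw [hφ.comm]; simp)
    (fun g hg => absurd rfl hg) (fun g => by simp [hφ.aug g])
  exact ⟨ψ, h1, by rw [h2]; simp⟩

/-- A map of degree `t` commuting with the differential and vanishing on the augmentation is an
anticommutator. -/
theorem exists_anticomm (t : ℕ) (φ : Matrix Φ.F.ι Φ.F.ι A)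
    (hdeg : ∀ h g, φ h g ≠ 0 → Φ.F.pos h = Φ.F.pos g + t)
    (hcomm : Φ.F.mat * φ = φ * Φ.F.mat) (hε : ∀ g, Φ.ε (fun h => φ h g) = 0) :
    ∃ ψ : Matrix Φ.F.ι Φ.F.ι A, (∀ h g, ψ h g ≠ 0 → Φ.F.pos h = Φ.F.pos g + (t + 1)) ∧
      φ = Φ.F.mat * ψ + ψ * Φ.F.mat := by
  obtain ⟨ψ, h1, h2, -⟩ := Φ.exists_solve (t + 1) (-1) φ 0
    (fun h g hne => by rw [hdeg h g hne]; ring) (by rw [hcomm]; simp)
    (fun g hg => absurd rfl hg) (fun g => by simp [hε g])
  exact ⟨ψ, h1, by rw [h2]; simp⟩

end Reso

/-- A module with a finite free resolution has an augmented one of the same length, whose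
alternating rank is the rank of the module. -/
theorem exists_reso {A : Type u} [CommRing A] [IsDomain A] [IsNoetherianRing A] :
    ∀ (n : ℕ) (M : Type u) [AddCommGroup M] [Module A M], Diag.FinRes A n M →
      ∃ Φ : Reso A M, Φ.F.LengthLE n ∧
        ∑ b, (-1 : ℤ) ^ Φ.F.pos b = (Module.finrank A M : ℤ) := by
  classical
  intro n
  induction n with
  | zero =>
    intro M _ _ ⟨m, ⟨e⟩⟩
    let F : FreeCx A :=
      { ι := Fin m
        pos := fun _ => 0
        mat := 0
        mat_pos := fun h g hg => absurd rfl hg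
        sq := by simp }
    have hd : ∀ u, F.dA A u = 0 := fun u => funext fun h => by
      show ∑ g, (0 : Matrix (Fin m) (Fin m) A) h g • u g = 0
      simp
    refine ⟨{ F := F, ε := e.symm.toLinearMap, surj := e.symm.surjective,
              ε_d := fun u => by rw [hd, map_zero],
              ε_pos := fun u hu => by rw [show u = 0 from funext fun b => hu b rfl, map_zero],
              exact := fun u _ hu => ⟨0, by rw [hd, e.symm.map_eq_zero_iff.1 hu]⟩ },
      fun _ => le_rfl, ?_⟩
    show ∑ _b : Fin m, (-1 : ℤ) ^ 0 = _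
    rw [e.finrank_eq, Module.finrank_fin_fun]
    simp
  | succ n ih =>
    intro M _ _ ⟨m, f, hf, hres⟩
    obtain ⟨Φ', hlen, heul⟩ := ih (LinearMap.ker f) hres
    let F : FreeCx A :=
      { ι := Fin m ⊕ Φ'.F.ι
        pos := Sum.elim (fun _ => 0) (fun b => Φ'.F.pos b + 1)
        mat := Matrix.of fun a b => match a, b with
          | .inl i, .inr b => (Φ'.gen b : Fin m → A) i
          | .inr a, .inr b => Φ'.F.mat a b
          | _, .inl _ => 0
        mat_pos := by
          rintro (i | a) (j | b) hne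
          · exact absurd rfl hne
          · by_contra hc
            apply hne
            simp only [Sum.elim_inl, Sum.elim_inr] at hc
            simp [Φ'.gen_eq_zero (b := b) (by omega)]
          · exact absurd rfl hne
          · simpa using Φ'.F.mat_pos a b hne
        sq := by
          ext a c
          rw [Matrix.mul_apply, Fintype.sum_sum_type, Matrix.zero_apply]
          rcases c with j | c
          · simp
          rcases a with i | a
          · have h := congrArg (fun v : LinearMap.ker f => (v : Fin m → A) i) (Φ'.sum_gen_mat c)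
            simpa [mul_comm] using h
          · have h := congrFun (congrFun Φ'.F.sq a) c
            simpa [Matrix.mul_apply] using h }
    have hl : ∀ (u : F.ι → A) (i : Fin m),
        F.dA A u (Sum.inl i) = (Φ'.ε (fun b => u (Sum.inr b)) : Fin m → A) i := by
      intro u i
      rw [Φ'.ε_apply, FreeCx.dA_apply, Fintype.sum_sum_type]
      simp [F, mul_comm]
    have hr : ∀ (u : F.ι → A) (a : Φ'.F.ι),
        F.dA A u (Sum.inr a) = Φ'.F.dA A (fun b => u (Sum.inr b)) a := by
      intro u a
      rw [FreeCx.dA_apply, FreeCx.dA_apply, Fintype.sum_sum_type]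
      simp [F]
    refine ⟨{ F := F, ε := f.comp (LinearMap.funLeft A A Sum.inl),
              surj := fun x => ?_, ε_d := fun u => ?_, ε_pos := fun u hu => ?_,
              exact := fun u hu hu' => ?_ }, ?_, ?_⟩
    · obtain ⟨v, rfl⟩ := hf x
      exact ⟨Sum.elim v 0, rfl⟩
    · show f (fun i => F.dA A u (Sum.inl i)) = 0
      rw [funext (hl u)]
      exact LinearMap.mem_ker.1 (Φ'.ε (fun b => u (Sum.inr b))).2
    · show f (fun i => u (Sum.inl i)) = 0
      rw [show (fun i => u (Sum.inl i)) = 0 from funext fun i => hu _ rfl, map_zero]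
    · have h1 : Φ'.F.dA A (fun b => u (Sum.inr b)) = 0 := funext fun a => by rw [← hr, hu]; rfl
      have h2 : Φ'.ε (fun b => u (Sum.inr b)) = 0 := Subtype.ext (funext fun i => by
        rw [← hl, hu]; rfl)
      obtain ⟨v, hv⟩ := Φ'.exact _ h1 h2
      obtain ⟨w, hw⟩ := Φ'.surj (⟨fun i => u (Sum.inl i), hu'⟩ - Φ'.ε v)
      have h3 : Φ'.F.dA A (Φ'.F.posProj A 0 w) = 0 := funext fun a => by
        rw [FreeCx.dA_apply]
        refine Finset.sum_eq_zero fun b _ => ?_
        by_cases hm : Φ'.F.mat a b = 0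
        · simp [hm]
        · have := Φ'.F.mat_pos a b hm
          rw [FreeCx.posProj_apply, if_neg (by omega), smul_zero]
      refine ⟨Sum.elim 0 (v + Φ'.F.posProj A 0 w), funext fun a => ?_⟩
      rcases a with i | a
      · rw [hl]
        show (Φ'.ε (v + Φ'.F.posProj A 0 w) : Fin m → A) i = _
        rw [map_add, Φ'.ε_posProj_zero, hw, add_sub_cancel]
      · rw [hr]
        show Φ'.F.dA A (v + Φ'.F.posProj A 0 w) a = _
        rw [map_add, h3, add_zero, hv]
    · rintro (i | b)
      · simp [F]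
      · simpa [F] using hlen b
    · show ∑ b : Fin m ⊕ Φ'.F.ι, (-1 : ℤ) ^ Sum.elim (fun _ => 0) (fun b => Φ'.F.pos b + 1) b = _
      have hsum : Module.finrank A M + Module.finrank A (LinearMap.ker f) = m := by
        rw [← (f.quotKerEquivOfSurjective hf).finrank_eq,
          Submodule.finrank_quotient_add_finrank, Module.finrank_fin_fun]
      rw [Fintype.sum_sum_type]
      simp only [Sum.elim_inl, Sum.elim_inr, pow_zero, Finset.sum_const, Finset.card_univ,
        Fintype.card_fin, nsmul_eq_mul, mul_one, pow_succ, mul_neg, Finset.sum_neg_distrib, heul]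
      push_cast [← hsum]
      ring

end Vale.Agent.P202.NC
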