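import Mathlib

/-!
# P202, general source ring: duals over the base and comparison with free modules

`DualMod A R M` is `Hom_A(M, A)` as an `R`-module.  A finite `A`-module over a domain is free up to
a nonzero scalar; the same scalar then compares its double dual with it.
-/

noncomputable section

namespace Vale.Agent.P202.NC

universe u

/-- `Hom_A(M, A)` with `R` acting on `M`. -/
def DualMod (A : Type u) [CommRing A] (R : Type u) [CommRing R] (M : Type u) [AddCommGroup M]
    [Module A M] : Type u :=
  M →ₗ[A] A

namespace DualMod

section basic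

variable {A : Type u} [CommRing A] {R : Type u} [CommRing R] [Algebra A R]
  {M : Type u} [AddCommGroup M] [Module A M] [Module R M] [IsScalarTower A R M]

instance : AddCommGroup (DualMod A R M) := inferInstanceAs (AddCommGroup (M →ₗ[A] A))

instance : Module A (DualMod A R M) := inferInstanceAs (Module A (M →ₗ[A] A))

/-- A functional as an element of the dual. -/
def of : (M →ₗ[A] A) ≃ₗ[A] DualMod A R M := LinearEquiv.refl A _

instance : SMul R (DualMod A R M) :=
  ⟨fun r θ => of ((of.symm θ).comp (Algebra.lsmul A A M r))⟩

omit [Algebra A R] [Module R M] [IsScalarTower A R M] in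
theorem ext {θ θ' : DualMod A R M} (h : ∀ x, of.symm θ x = of.symm θ' x) : θ = θ' :=
  of.symm.injective (LinearMap.ext h)

theorem smul_apply (r : R) (θ : DualMod A R M) (x : M) :
    of.symm (r • θ) x = of.symm θ (r • x) := rfl

instance : Module R (DualMod A R M) where
  one_smul θ := ext fun x => by rw [smul_apply, one_smul]
  mul_smul r s θ := ext fun x => by rw [smul_apply, smul_apply, smul_apply, smul_smul, mul_comm s]
  smul_zero r := ext fun x => rfl
  smul_add r θ θ' := ext fun x => rfl
  add_smul r s θ := ext fun x => by
    rw [smul_apply, add_smul, map_add]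
    rfl
  zero_smul θ := ext fun x => by
    rw [smul_apply, zero_smul, map_zero]
    rfl

instance : IsScalarTower A R (DualMod A R M) :=
  IsScalarTower.of_algebraMap_smul fun a θ => ext fun x => by
    rw [smul_apply, algebraMap_smul, map_smul]
    rfl

instance [IsNoetherianRing A] [Module.Finite A M] : Module.Finite A (DualMod A R M) := by
  obtain ⟨n, f, hf⟩ := Module.Finite.exists_fin' A M
  let g : DualMod A R M →ₗ[A] (Fin n → A) :=
    { toFun := fun θ i => of.symm θ (f (Pi.single i 1))
      map_add' := fun _ _ => rfl
      map_smul' := fun _ _ => rfl }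
  refine Module.Finite.of_injective g fun θ θ' h => ext fun x => ?_
  obtain ⟨v, rfl⟩ := hf x
  have : ((of.symm θ).comp f : (Fin n → A) →ₗ[A] A) = (of.symm θ').comp f := by
    refine LinearMap.pi_ext' fun i => LinearMap.ext_ring ?_
    exact congrFun h i
  exact LinearMap.congr_fun this v

instance [IsNoetherianRing A] [Module.Finite A M] : Module.Finite R (DualMod A R M) :=
  Module.Finite.of_restrictScalars_finite A R _

variable (A M) in
/-- The map to the double dual. -/
def eval : M →ₗ[R] DualMod A R (DualMod A R M) where
  toFun x := of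
    { toFun := fun θ => of.symm θ x
      map_add' := fun _ _ => rfl
      map_smul' := fun _ _ => rfl }
  map_add' x y := ext fun θ => map_add (of.symm θ) x y
  map_smul' _ _ := ext fun _ => rfl

theorem eval_apply (x : M) (θ : DualMod A R M) : of.symm (eval A M x) θ = of.symm θ x := rfl

omit [Algebra A R] [Module R M] [IsScalarTower A R M] in
/-- A comparison with a free module up to `c` gives one for the dual. -/
theorem exists_comparison {e : ℕ} {c : A} (α : (Fin e → A) →ₗ[A] M) (β : M →ₗ[A] (Fin e → A))
    (hαβ : ∀ x, α (β x) = c • x) (hβα : ∀ v, β (α v) = c • v) :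
    ∃ (α' : (Fin e → A) →ₗ[A] DualMod A R M) (β' : DualMod A R M →ₗ[A] (Fin e → A)),
      (∀ x, α' (β' x) = c • x) ∧ ∀ v, β' (α' v) = c • v := by
  classical
  let α' : (Fin e → A) →ₗ[A] DualMod A R M :=
    { toFun := fun v => of ((Fintype.linearCombination A v).comp β)
      map_add' := fun v w => ext fun x => by
        show Fintype.linearCombination A (v + w) (β x) = _
        simp [Fintype.linearCombination_apply, mul_add, Finset.sum_add_distrib]
      map_smul' := fun a v => ext fun x => by
        show Fintype.linearCombination A (a • v) (β x) = a * Fintype.linearCombination A v (β x)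
        simp [Fintype.linearCombination_apply, Finset.mul_sum, mul_left_comm] }
  let β' : DualMod A R M →ₗ[A] (Fin e → A) :=
    { toFun := fun θ i => of.symm θ (α (Pi.single i 1))
      map_add' := fun _ _ => rfl
      map_smul' := fun _ _ => rfl }
  refine ⟨α', β', fun θ => ext fun x => ?_, fun v => funext fun i => ?_⟩
  · show Fintype.linearCombination A (fun i => of.symm θ (α (Pi.single i 1))) (β x) = _
    rw [Fintype.linearCombination_apply,
      show of.symm (c • θ) x = of.symm θ (c • x) by rw [map_smul, map_smul]; rfl, ← hαβ]
    conv_rhs => rw [← Finset.univ_sum_single (β x)]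
    simp only [map_sum, smul_eq_mul]
    refine Finset.sum_congr rfl fun i _ => ?_
    rw [← smul_eq_mul, ← map_smul, ← map_smul, ← Pi.single_smul, smul_eq_mul, mul_one]
  · show Fintype.linearCombination A v (β (α (Pi.single i 1))) = _
    simp [hβα, Fintype.linearCombination_apply, Pi.single_apply, ite_mul]

/-- Up to `c`, a module comparable to a free one is its double dual. -/
theorem eval_ker_coker {e : ℕ} {c : A} (α : (Fin e → A) →ₗ[A] M) (β : M →ₗ[A] (Fin e → A))
    (hαβ : ∀ x, α (β x) = c • x) :
    (∀ x, eval A M x = (0 : DualMod A R (DualMod A R M)) → c • x = 0) ∧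
      ∀ ξ : DualMod A R (DualMod A R M), ∃ x, eval A M x = c • ξ := by
  classical
  refine ⟨fun x hx => ?_, fun ξ => ?_⟩
  · have : β x = 0 := funext fun i => by
      have := congrArg (fun ξ => of.symm ξ (of ((LinearMap.proj i).comp β))) hx
      exact this
    rw [← hαβ, this, map_zero]
  · refine ⟨α fun i => of.symm ξ (of ((LinearMap.proj i).comp β)), ext fun θ => ?_⟩
    rw [eval_apply, show of.symm (c • ξ) θ = of.symm ξ (c • θ) by rw [map_smul, map_smul]; rfl]
    have hθ : c • θ = ∑ i, of.symm θ (α (Pi.single i 1)) •
        (of ((LinearMap.proj i).comp β) : DualMod A R M) := by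
      refine ext fun x => ?_
      simp only [map_sum, map_smul, LinearEquiv.symm_apply_apply]
      show c • of.symm θ x = _
      rw [← map_smul, ← hαβ]
      conv_lhs => rw [← Finset.univ_sum_single (β x)]
      simp only [map_sum, LinearMap.sum_apply, LinearMap.smul_apply, LinearMap.comp_apply,
        LinearMap.proj_apply, smul_eq_mul]
      refine Finset.sum_congr rfl fun i _ => ?_
      rw [mul_comm, ← smul_eq_mul, ← map_smul, ← map_smul, ← Pi.single_smul, smul_eq_mul, mul_one]
    rw [hθ, map_sum]
    conv_lhs => rw [← Finset.univ_sum_single (fun i => of.symm ξ (of ((LinearMap.proj i).comp β)))]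
    simp only [map_sum]
    refine Finset.sum_congr rfl fun i _ => ?_
    rw [← mul_one (of.symm ξ _), ← smul_eq_mul (b := (1 : A)), Pi.single_smul, map_smul, map_smul,
      map_smul, smul_eq_mul, smul_eq_mul]
    exact mul_comm _ _

end basic

end DualMod

/-- A finite module over a domain is free of its rank up to a nonzero scalar. -/
theorem exists_free_comparison (A : Type u) [CommRing A] [IsDomain A] (M : Type u)
    [AddCommGroup M] [Module A M] [Module.Finite A M] :
    ∃ (c : A) (α : (Fin (Module.finrank A M) → A) →ₗ[A] M)
      (β : M →ₗ[A] (Fin (Module.finrank A M) → A)),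
      c ≠ 0 ∧ (∀ x, α (β x) = c • x) ∧ ∀ v, β (α v) = c • v := by
  classical
  set e := Module.finrank A M with he
  obtain ⟨v, hv⟩ := exists_linearIndependent_of_le_finrank (R := A) (M := M) (n := e) le_rfl
  let α := Fintype.linearCombination A v
  have hα : Function.Injective α :=
    linearIndependent_iff_injective_fintypeLinearCombination.1 hv
  have hx : ∀ x : M, ∃ a : A, a ≠ 0 ∧ a • x ∈ LinearMap.range α := by
    intro x
    by_contra hno
    push Not at hno
    have hli : LinearIndependent A (Fin.cons x v : Fin (e + 1) → M) := by
      rw [Fintype.linearIndependent_iff]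
      intro g hg
      rw [Fin.sum_univ_succ] at hg
      simp only [Fin.cons_zero, Fin.cons_succ] at hg
      have hg0 : g 0 = 0 := by
        by_contra h0
        refine hno (g 0) h0 ⟨fun i => -g i.succ, ?_⟩
        rw [eq_neg_of_add_eq_zero_left hg]
        simp [α, Fintype.linearCombination_apply]
      rw [hg0, zero_smul, zero_add] at hg
      exact Fin.cases hg0 (Fintype.linearIndependent_iff.1 hv _ hg)
    have := hli.fintype_card_le_finrank
    simp [e] at this
  obtain ⟨s, hs⟩ := Module.Finite.fg_top (R := A) (M := M)
  choose a ha ham using hx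
  refine ⟨∏ x ∈ s, a x, α, ?_⟩
  have hc : ∀ x : M, (∏ x ∈ s, a x) • x ∈ LinearMap.range α := by
    have hle : Submodule.span A (s : Set M) ≤
        (LinearMap.range α).comap ((∏ x ∈ s, a x) • LinearMap.id) := by
      rw [Submodule.span_le]
      intro x hx
      show (∏ x ∈ s, a x) • x ∈ LinearMap.range α
      rw [← Finset.prod_erase_mul s a hx, mul_smul]
      exact Submodule.smul_mem _ _ (ham x)
    intro x
    exact hle (hs ▸ Submodule.mem_top)
  choose b hb using hc
  let β : M →ₗ[A] (Fin e → A) :=
    { toFun := b
      map_add' := fun x y => hα (by rw [map_add, hb, hb, hb, smul_add])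
      map_smul' := fun r x => hα (by rw [RingHom.id_apply, map_smul, hb, hb, smul_comm]) }
  refine ⟨β, Finset.prod_ne_zero_iff.2 fun x _ => ha x, hb, fun w => hα ?_⟩
  show α (b (α w)) = α _
  rw [hb, map_smul]

end Vale.Agent.P202.NC
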