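import Vale.Agent.P202.NC.Datum
import Vale.Agent.P202.Diag.Square

/-!
# P202, general source ring: squaring bounded families of data
-/

noncomputable section

namespace Vale.Agent.P202.NC

open Finset Matrix Diag MvPowerSeries IsLocalRing
open scoped Kronecker

universe u

section homotopy

variable {ι ι' A : Type*} [Fintype ι] [Fintype ι'] [DecidableEq ι] [DecidableEq ι'] [CommRing A]

omit [Fintype ι] [Fintype ι'] in
theorem smul_one_kronecker (a b : A) :
    (a • (1 : Matrix ι ι A)) ⊗ₖ (b • (1 : Matrix ι' ι' A)) = (a * b) • 1 := by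
  rw [smul_kronecker, kronecker_smul, smul_smul, one_kronecker_one]

/-- Homotopies of two split complexes give one on the product. -/
theorem homotopy_kronecker {B s P Sg : Matrix ι ι A} {B' s' P' : Matrix ι' ι' A} {c c' : A}
    (h1 : c • (1 : Matrix ι ι A) - P = B * s + s * B)
    (h2 : c' • (1 : Matrix ι' ι' A) - P' = B' * s' + s' * B')
    (hBP : B * P = 0) (hPB : P * B = 0) (hs : Sg * s + s * Sg = 0) (hP : Sg * P = P * Sg)
    (hSg : Sg * Sg = 1) :
    (c * c') • (1 : Matrix (ι × ι') (ι × ι') A) - P ⊗ₖ P' =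
      (B ⊗ₖ (1 : Matrix ι' ι' A) + Sg ⊗ₖ B') * (s ⊗ₖ (c' • 1) + (P * Sg) ⊗ₖ s') +
        (s ⊗ₖ (c' • 1) + (P * Sg) ⊗ₖ s') * (B ⊗ₖ (1 : Matrix ι' ι' A) + Sg ⊗ₖ B') := by
  have e1 : B * (P * Sg) = 0 := by rw [← Matrix.mul_assoc, hBP, Matrix.zero_mul]
  have e2 : (P * Sg) * B = 0 := by rw [← hP, Matrix.mul_assoc, hPB, Matrix.mul_zero]
  have e3 : Sg * (P * Sg) = P := by
    rw [← Matrix.mul_assoc, hP, Matrix.mul_assoc, hSg, Matrix.mul_one]
  have e4 : (P * Sg) * Sg = P := by rw [Matrix.mul_assoc, hSg, Matrix.mul_one]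
  simp only [Matrix.add_mul, Matrix.mul_add, ← mul_kronecker_mul, e1, e2, e3, e4,
    zero_kronecker, Matrix.one_mul, Matrix.mul_one, Matrix.mul_smul, Matrix.smul_mul]
  calc (c * c') • (1 : Matrix (ι × ι') (ι × ι') A) - P ⊗ₖ P'
      = (c • (1 : Matrix ι ι A) - P) ⊗ₖ (c' • (1 : Matrix ι' ι' A)) +
          P ⊗ₖ (c' • (1 : Matrix ι' ι' A) - P') := by
        rw [← smul_one_kronecker c c']
        ext ⟨a, b⟩ ⟨a', b'⟩
        simp only [Matrix.sub_apply, Matrix.add_apply, kroneckerMap_apply]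
        ring
    _ = (B * s + s * B) ⊗ₖ (c' • (1 : Matrix ι' ι' A)) +
          (Sg * s + s * Sg) ⊗ₖ (c' • B') + P ⊗ₖ (B' * s' + s' * B') := by
        rw [h1, h2, hs, zero_kronecker, add_zero]
    _ = _ := by
        simp only [add_kronecker, kronecker_add]
        abel

/-- A homotopy of the first factor acts on the product. -/
theorem homotopy_left {B s Sg : Matrix ι ι A} {B' : Matrix ι' ι' A} {z : A}
    (h : B * s + s * B = z • (1 : Matrix ι ι A)) (hs : Sg * s + s * Sg = 0) :
    (B ⊗ₖ (1 : Matrix ι' ι' A) + Sg ⊗ₖ B') * (s ⊗ₖ (1 : Matrix ι' ι' A)) +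
      (s ⊗ₖ (1 : Matrix ι' ι' A)) * (B ⊗ₖ (1 : Matrix ι' ι' A) + Sg ⊗ₖ B') =
        z • (1 : Matrix (ι × ι') (ι × ι') A) := by
  simp only [Matrix.add_mul, Matrix.mul_add, ← mul_kronecker_mul, Matrix.mul_one, Matrix.one_mul]
  rw [add_add_add_comm, ← add_kronecker, ← add_kronecker, h, hs, zero_kronecker, add_zero,
    smul_kronecker, one_kronecker_one]

/-- A homotopy of the second factor acts on the product. -/
theorem homotopy_right {B Sg : Matrix ι ι A} {B' s' : Matrix ι' ι' A} {z : A}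
    (h : B' * s' + s' * B' = z • (1 : Matrix ι' ι' A)) (hB : Sg * B + B * Sg = 0)
    (hSg : Sg * Sg = 1) :
    (B ⊗ₖ (1 : Matrix ι' ι' A) + Sg ⊗ₖ B') * (Sg ⊗ₖ s') +
      (Sg ⊗ₖ s') * (B ⊗ₖ (1 : Matrix ι' ι' A) + Sg ⊗ₖ B') =
        z • (1 : Matrix (ι × ι') (ι × ι') A) := by
  simp only [Matrix.add_mul, Matrix.mul_add, ← mul_kronecker_mul, Matrix.mul_one, Matrix.one_mul,
    hSg]
  rw [add_add_add_comm, ← add_kronecker, ← kronecker_add, h, add_comm (B * Sg), hB, zero_kronecker,
    zero_add, kronecker_smul, one_kronecker_one]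

end homotopy

variable {k : Type u} [Field k] {D : ℕ}

variable (k D) in
/-- The first block. -/
def blockX : PS k D →+* PS k (D + D) :=
  (blockEquiv k D D).toRingEquiv.toRingHom.comp inX

variable (k D) in
/-- The second block. -/
def blockY : PS k D →+* PS k (D + D) :=
  (blockEquiv k D D).toRingEquiv.toRingHom.comp inY

theorem constantCoeff_blockX (x : PS k D) : constantCoeff (blockX k D x) = constantCoeff x :=
  (constantCoeff_rename _ _).trans (constantCoeff_rename _ x)

theorem constantCoeff_blockY (x : PS k D) : constantCoeff (blockY k D x) = constantCoeff x :=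
  (constantCoeff_rename _ _).trans (constantCoeff_rename _ x)

theorem blockX_ne {c : PS k D} (hc : c ≠ 0) : blockX k D c ≠ 0 := by
  classical
  intro h
  have h' : inX (β := Fin D) c = 0 := (blockEquiv k D D).injective (h.trans (map_zero _).symm)
  refine hc (MvPowerSeries.ext fun a => ?_)
  have := coeff_inX (β := Fin D) c a 0
  rw [h', if_pos rfl] at this
  simpa using this.symm

theorem blockY_ne {c : PS k D} (hc : c ≠ 0) : blockY k D c ≠ 0 := by
  classical
  intro h
  have h' : inY (α := Fin D) c = 0 := (blockEquiv k D D).injective (h.trans (map_zero _).symm)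
  refine hc (MvPowerSeries.ext fun a => ?_)
  have := coeff_inY (α := Fin D) c 0 a
  rw [h', if_pos rfl] at this
  simpa using this.symm

namespace Datum

variable (X : Datum k D)

/-- Both blocks, in one ring. -/
abbrev sqCx : FreeCx (PS k (D + D)) where
  ι := X.G.ι × X.G.ι
  pos p := X.G.pos p.1 + X.G.pos p.2
  mat := ((prodCx X.G X.G).map (blockEquiv k D D).toRingEquiv.toRingHom).mat
  mat_pos := ((prodCx X.G X.G).map (blockEquiv k D D).toRingEquiv.toRingHom).mat_pos
  sq := ((prodCx X.G X.G).map (blockEquiv k D D).toRingEquiv.toRingHom).sq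

theorem sqCx_eq : X.sqCx = (prodCx X.G X.G).map (blockEquiv k D D).toRingEquiv.toRingHom := rfl

theorem sqCx_mat (p q : X.G.ι × X.G.ι) :
    X.sqCx.mat p q = (if p.2 = q.2 then blockX k D (X.G.mat p.1 q.1) else 0) +
      (if p.1 = q.1 then (-1) ^ X.G.pos p.1 * blockY k D (X.G.mat p.2 q.2) else 0) := by
  show (blockEquiv k D D) ((if p.2 = q.2 then inX (X.G.mat p.1 q.1) else 0) +
    (if p.1 = q.1 then (-1) ^ X.G.pos p.1 * inY (X.G.mat p.2 q.2) else 0)) = _
  simp only [map_add, apply_ite (blockEquiv k D D), map_zero, map_mul, map_pow, map_neg, map_one]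
  rfl

/-- The sign of the first block. -/
def sgnMat : Matrix X.G.ι X.G.ι (PS k (D + D)) :=
  Matrix.diagonal fun g => (-1) ^ X.G.pos g

theorem sgnMat_sq : X.sgnMat * X.sgnMat = 1 := by
  rw [sgnMat, Matrix.diagonal_mul_diagonal, ← Matrix.diagonal_one]
  congr 1
  funext g
  rw [← mul_pow]
  simp

/-- The product datum. -/
abbrev sq : Datum k (D + D) where
  G := X.sqCx
  m := X.m + X.m
  c := blockX k D X.c * blockY k D X.c
  lev p := X.lev p.1 + X.lev p.2
  free := X.free × X.free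
  flev a := X.flev a.1 + X.flev a.2
  ψ := X.ψ.map (blockX k D) ⊗ₖ X.ψ.map (blockY k D)
  π := X.π.map (blockX k D) ⊗ₖ X.π.map (blockY k D)
  hom := X.hom.map (blockX k D) ⊗ₖ (blockY k D X.c • (1 : Matrix X.G.ι X.G.ι (PS k (D + D)))) +
    ((X.ψ * X.π).map (blockX k D) * X.sgnMat) ⊗ₖ X.hom.map (blockY k D)
  c_ne := mul_ne_zero (blockX_ne X.c_ne) (blockY_ne X.c_ne)
  lev_le p := Nat.add_le_add (X.lev_le p.1) (X.lev_le p.2)
  le_pos p := Nat.add_le_add (X.le_pos p.1) (X.le_pos p.2)
  pos_le p := by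
    show X.G.pos p.1 + X.G.pos p.2 ≤ _
    have := X.pos_le p.1
    have := X.pos_le p.2
    omega
  ψ_supp := by
    rintro ⟨g, g'⟩ ⟨a, a'⟩ hne
    have h1 : X.ψ g a ≠ 0 := fun h => hne (by simp [h])
    have h2 : X.ψ g' a' ≠ 0 := fun h => hne (by simp [h])
    obtain ⟨l1, p1⟩ := X.ψ_supp g a h1
    obtain ⟨l2, p2⟩ := X.ψ_supp g' a' h2
    refine ⟨by simp only [l1, l2], ?_⟩
    show X.G.pos g + X.G.pos g' = _
    simp only
    omega
  π_supp := by
    rintro ⟨a, a'⟩ ⟨g, g'⟩ hne
    have h1 : X.π a g ≠ 0 := fun h => hne (by simp [h])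
    have h2 : X.π a' g' ≠ 0 := fun h => hne (by simp [h])
    obtain ⟨l1, p1⟩ := X.π_supp a g h1
    obtain ⟨l2, p2⟩ := X.π_supp a' g' h2
    refine ⟨by simp only [l1, l2], ?_⟩
    show X.G.pos g + X.G.pos g' = _
    simp only
    omega
  hom_supp := by
    rintro ⟨h, h'⟩ ⟨g, g'⟩ hne
    show X.lev h + X.lev h' = X.lev g + X.lev g' ∧
      X.G.pos h + X.G.pos h' = X.G.pos g + X.G.pos g' + 1
    rw [Matrix.add_apply] at hne
    by_cases hA : X.hom h g ≠ 0 ∧ h' = g'
    · obtain ⟨hs, rfl⟩ := hA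
      obtain ⟨l, p⟩ := X.hom_supp h g hs
      omega
    · have hA0 : (X.hom.map (blockX k D) ⊗ₖ
          (blockY k D X.c • (1 : Matrix X.G.ι X.G.ι (PS k (D + D))))) (h, h') (g, g') = 0 := by
        rw [not_and_or, not_not] at hA
        rcases hA with e | e
        · simp [e]
        · simp [Matrix.one_apply_ne e]
      rw [hA0, zero_add] at hne
      simp only [kroneckerMap_apply, Matrix.map_apply, sgnMat, Matrix.mul_diagonal] at hne
      have h1 : (X.ψ * X.π) h g ≠ 0 := fun e => hne (by simp [e])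
      have h2 : X.hom h' g' ≠ 0 := fun e => hne (by simp [e])
      obtain ⟨a, -, ha⟩ := Finset.exists_ne_zero_of_sum_ne_zero (by rwa [Matrix.mul_apply] at h1)
      obtain ⟨l1, p1⟩ := X.ψ_supp h a (left_ne_zero_of_mul ha)
      obtain ⟨l2, p2⟩ := X.π_supp a g (right_ne_zero_of_mul ha)
      obtain ⟨l, p⟩ := X.hom_supp h' g' h2
      omega

theorem sq_blockMat :
    X.sq.blockMat = X.blockMat.map (blockX k D) ⊗ₖ (1 : Matrix X.G.ι X.G.ι (PS k (D + D))) +
      X.sgnMat ⊗ₖ X.blockMat.map (blockY k D) := by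
  ext ⟨h, h'⟩ ⟨g, g'⟩ : 1
  show (if X.lev h + X.lev h' = X.lev g + X.lev g' then X.sqCx.mat (h, h') (g, g') else 0) = _
  rw [sqCx_mat]
  simp only [blockMat, sgnMat, Matrix.add_apply, kroneckerMap_apply, Matrix.map_apply,
    Matrix.of_apply, Matrix.one_apply, Matrix.diagonal_apply]
  by_cases e1 : h' = g' <;> by_cases e2 : h = g
  · subst e1 e2
    simp
  · subst e1
    simp [e2, apply_ite (blockX k D)]
  · subst e2
    simp [e1, apply_ite (blockY k D)]
  · simp [e1, e2]

theorem sgn_anticomm :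
    X.sgnMat * X.hom.map (blockX k D) + X.hom.map (blockX k D) * X.sgnMat = 0 := by
  ext h g : 1
  simp only [sgnMat, Matrix.add_apply, Matrix.diagonal_mul, Matrix.mul_diagonal, Matrix.map_apply,
    Matrix.zero_apply]
  by_cases e : X.hom h g = 0
  · simp [e]
  · rw [(X.hom_supp h g e).2, pow_succ]
    ring

theorem sgn_comm :
    X.sgnMat * (X.ψ * X.π).map (blockX k D) = (X.ψ * X.π).map (blockX k D) * X.sgnMat := by
  ext h g : 1
  simp only [sgnMat, Matrix.diagonal_mul, Matrix.mul_diagonal, Matrix.map_apply]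
  by_cases e : (X.ψ * X.π) h g = 0
  · simp [e]
  · obtain ⟨a, -, ha⟩ := Finset.exists_ne_zero_of_sum_ne_zero (by rwa [Matrix.mul_apply] at e)
    rw [(X.ψ_supp h a (left_ne_zero_of_mul ha)).2, (X.π_supp a g (right_ne_zero_of_mul ha)).2]
    ring

theorem map_homotopy {K : ℕ} (h : X.IsGood K) (φ : PS k D →+* PS k (D + D)) :
    φ X.c • (1 : Matrix X.G.ι X.G.ι (PS k (D + D))) - (X.ψ * X.π).map φ =
      X.blockMat.map φ * X.hom.map φ + X.hom.map φ * X.blockMat.map φ := by
  have := congrArg (fun M : Matrix X.G.ι X.G.ι (PS k D) => φ.mapMatrix M) h.homotopy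
  simp only [map_sub, map_add, map_mul] at this
  rw [show φ.mapMatrix (X.c • (1 : Matrix X.G.ι X.G.ι (PS k D))) =
    φ X.c • (1 : Matrix X.G.ι X.G.ι (PS k (D + D))) from by
      ext a b : 1
      simp [Matrix.one_apply, apply_ite φ]] at this
  simpa using this

theorem sq_isGood {K : ℕ} (h : X.IsGood K) : X.sq.IsGood K where
  mat_lev := by
    rintro ⟨a, a'⟩ ⟨b, b'⟩ hne
    show X.lev a + X.lev a' ≤ X.lev b + X.lev b'
    change X.sqCx.mat (a, a') (b, b') ≠ 0 at hne
    rw [sqCx_mat] at hne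
    simp only at hne
    by_cases e1 : a' = b' ∧ X.G.mat a b ≠ 0
    · obtain ⟨rfl, hm⟩ := e1
      have := h.mat_lev a b hm
      omega
    · by_cases e2 : a = b ∧ X.G.mat a' b' ≠ 0
      · obtain ⟨rfl, hm⟩ := e2
        have := h.mat_lev a' b' hm
        omega
      · exfalso
        apply hne
        rw [not_and_or, not_not] at e1 e2
        rcases e1 with e1 | e1 <;> rcases e2 with e2 | e2 <;> simp [e1, e2]
  mat_mem := by
    rintro ⟨a, a'⟩ ⟨b, b'⟩
    show X.sqCx.mat (a, a') (b, b') ∈ _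
    rw [sqCx_mat]
    simp only
    refine Ideal.add_mem _ ?_ ?_
    · split_ifs with e
      · subst e
        show _ ∈ maximalIdeal (PS k (D + D)) ^ (K * (X.lev b + X.lev a' - (X.lev a + X.lev a')))
        rw [Nat.add_sub_add_right]
        exact map_mem_maximal_pow _ constantCoeff_blockX _ (h.mat_mem a b)
      · simp
    · split_ifs with e
      · subst e
        refine Ideal.mul_mem_left _ _ ?_
        show _ ∈ maximalIdeal (PS k (D + D)) ^ (K * (X.lev a + X.lev b' - (X.lev a + X.lev a')))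
        rw [Nat.add_sub_add_left]
        exact map_mem_maximal_pow _ constantCoeff_blockY _ (h.mat_mem a' b')
      · simp
  block_ψ := by
    show X.sq.blockMat * (X.ψ.map (blockX k D) ⊗ₖ X.ψ.map (blockY k D)) = 0
    rw [sq_blockMat, Matrix.add_mul, ← mul_kronecker_mul, ← mul_kronecker_mul,
      ← Matrix.map_mul, ← Matrix.map_mul, h.block_ψ]
    simp
  π_block := by
    show (X.π.map (blockX k D) ⊗ₖ X.π.map (blockY k D)) * X.sq.blockMat = 0
    rw [sq_blockMat, Matrix.mul_add, ← mul_kronecker_mul, ← mul_kronecker_mul,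
      ← Matrix.map_mul, ← Matrix.map_mul, h.π_block]
    simp
  π_ψ := by
    show (X.π.map (blockX k D) ⊗ₖ X.π.map (blockY k D)) *
      (X.ψ.map (blockX k D) ⊗ₖ X.ψ.map (blockY k D)) =
        (blockX k D X.c * blockY k D X.c) • (1 : Matrix (X.free × X.free) (X.free × X.free) _)
    rw [← mul_kronecker_mul, ← Matrix.map_mul, ← Matrix.map_mul, h.π_ψ, ← smul_one_kronecker]
    congr 1 <;> · ext a b : 1; by_cases e : a = b <;> simp [e]
  homotopy := by
    show (blockX k D X.c * blockY k D X.c) • (1 : Matrix (X.G.ι × X.G.ι) (X.G.ι × X.G.ι) _) -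
        (X.ψ.map (blockX k D) ⊗ₖ X.ψ.map (blockY k D)) *
          (X.π.map (blockX k D) ⊗ₖ X.π.map (blockY k D)) =
      X.sq.blockMat * X.sq.hom + X.sq.hom * X.sq.blockMat
    rw [sq_blockMat, ← mul_kronecker_mul, ← Matrix.map_mul, ← Matrix.map_mul]
    refine homotopy_kronecker (X.map_homotopy h _) (X.map_homotopy h _) ?_ ?_ X.sgn_anticomm
      X.sgn_comm X.sgnMat_sq
    · rw [← Matrix.map_mul, ← Matrix.mul_assoc, h.block_ψ]
      simp
    · rw [← Matrix.map_mul, Matrix.mul_assoc, h.π_block]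
      simp
  euler := by
    intro i
    show ∑ p ∈ (univ : Finset (X.G.ι × X.G.ι)).filter (fun p => X.lev p.1 + X.lev p.2 = i),
      (-1 : ℤ) ^ (X.G.pos p.1 + X.G.pos p.2) =
        (-1) ^ (i + (X.m + X.m)) *
          (((univ : Finset (X.free × X.free)).filter
            fun a => X.flev a.1 + X.flev a.2 = i).card : ℤ)
    have hG : ∀ p ∈ (univ : Finset (X.G.ι × X.G.ι)).filter (fun p => X.lev p.1 + X.lev p.2 = i),
        (fun p : X.G.ι × X.G.ι => (X.lev p.1, X.lev p.2)) p ∈ antidiagonal i :=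
      fun p hp => HasAntidiagonal.mem_antidiagonal.2 (Finset.mem_filter.1 hp).2
    have hF : ∀ a ∈ (univ : Finset (X.free × X.free)).filter (fun a => X.flev a.1 + X.flev a.2 = i),
        (fun a : X.free × X.free => (X.flev a.1, X.flev a.2)) a ∈ antidiagonal i :=
      fun a ha => HasAntidiagonal.mem_antidiagonal.2 (Finset.mem_filter.1 ha).2
    rw [← sum_fiberwise_of_maps_to hG, card_eq_sum_card_fiberwise hF, Nat.cast_sum, mul_sum]
    refine sum_congr rfl fun ij hij => ?_
    rw [HasAntidiagonal.mem_antidiagonal] at hij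
    have e1 : ((univ : Finset (X.G.ι × X.G.ι)).filter fun p => X.lev p.1 + X.lev p.2 = i).filter
        (fun p => (X.lev p.1, X.lev p.2) = ij) =
        (univ.filter fun g => X.lev g = ij.1) ×ˢ (univ.filter fun g => X.lev g = ij.2) := by
      ext p
      simp only [Finset.mem_filter, Finset.mem_univ, true_and, Finset.mem_product, Prod.ext_iff]
      omega
    have e2 : ((univ : Finset (X.free × X.free)).filter fun a =>
        X.flev a.1 + X.flev a.2 = i).filter (fun a => (X.flev a.1, X.flev a.2) = ij) =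
        (univ.filter fun g => X.flev g = ij.1) ×ˢ (univ.filter fun g => X.flev g = ij.2) := by
      ext p
      simp only [Finset.mem_filter, Finset.mem_univ, true_and, Finset.mem_product, Prod.ext_iff]
      omega
    rw [e1, e2, sum_product, card_product]
    simp only [pow_add]
    rw [← sum_mul_sum, h.euler, h.euler, ← hij]
    push_cast [Datum.frank]
    ring
  finite := finiteHom_map_equiv _ _ fun j =>
    (kunneth (L := D + X.m) h.finite h.finite
      (fun g => (X.pos_le g).trans (Nat.add_le_add_right (X.lev_le g) _)) j).1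

theorem sq_frank_zero : X.sq.frank 0 = X.frank 0 ^ 2 := by
  show ((univ : Finset (X.free × X.free)).filter fun a => X.flev a.1 + X.flev a.2 = 0).card = _
  rw [frank, pow_two, ← card_product]
  congr 1
  ext a
  simp

/-- A killing power gives a graded null-homotopy. -/
theorem exists_graded_homotopy {z : PS k D} (hz : X.G.Kills (PS k D) z) :
    ∃ s : Matrix X.G.ι X.G.ι (PS k D),
      (∀ h g, s h g ≠ 0 → X.G.pos h = X.G.pos g + 1) ∧
      X.G.mat * s + s * X.G.mat = z ^ (D + X.m + 1) • (1 : Matrix X.G.ι X.G.ι (PS k D)) := by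
  classical
  obtain ⟨s, hs⟩ := X.G.exists_homotopy hz (L := D + X.m) fun g =>
    (X.pos_le g).trans (Nat.add_le_add_right (X.lev_le g) _)
  refine ⟨Matrix.of fun h g => if X.G.pos h = X.G.pos g + 1 then s h g else 0,
    fun h g hne => by_contra fun e => hne (if_neg e), ?_⟩
  ext h g : 1
  have hh := congrFun (congrFun hs h) g
  rw [Matrix.add_apply, Matrix.mul_apply, Matrix.mul_apply] at hh ⊢
  by_cases hp : X.G.pos h = X.G.pos g
  · rw [← hh]
    congr 1 <;> refine Finset.sum_congr rfl fun l _ => ?_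
    · by_cases hm : X.G.mat h l = 0
      · simp [hm]
      · rw [Matrix.of_apply, if_pos (by rw [X.G.mat_pos h l hm, hp])]
    · by_cases hm : X.G.mat l g = 0
      · simp [hm]
      · rw [Matrix.of_apply, if_pos (by rw [hp, X.G.mat_pos l g hm])]
  · rw [Matrix.smul_apply, Matrix.one_apply_ne fun e => hp (by rw [e]), smul_zero,
      Finset.sum_eq_zero fun l _ => ?_, Finset.sum_eq_zero fun l _ => ?_, add_zero]
    · by_cases hm : X.G.mat l g = 0
      · simp [hm]
      · have := X.G.mat_pos l g hm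
        rw [Matrix.of_apply, if_neg (by omega), zero_mul]
    · by_cases hm : X.G.mat h l = 0
      · simp [hm]
      · have := X.G.mat_pos h l hm
        rw [Matrix.of_apply, if_neg (by omega), mul_zero]

theorem sqCx_mat_eq :
    X.sqCx.mat = X.G.mat.map (blockX k D) ⊗ₖ (1 : Matrix X.G.ι X.G.ι (PS k (D + D))) +
      X.sgnMat ⊗ₖ X.G.mat.map (blockY k D) := by
  ext ⟨h, h'⟩ ⟨g, g'⟩ : 1
  rw [sqCx_mat]
  simp only [sgnMat, Matrix.add_apply, kroneckerMap_apply, Matrix.map_apply, Matrix.one_apply,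
    Matrix.diagonal_apply]
  split_ifs <;> simp

/-- A null-homotopy kills homology. -/
theorem kills_of_homotopy {A : Type*} [CommRing A] (G : FreeCx A) {z : A} {s : Matrix G.ι G.ι A}
    (hs : G.mat * s + s * G.mat = z • (1 : Matrix G.ι G.ι A)) : G.Kills A z := by
  intro f hf
  have hd : ∀ v : G.ι → A, G.dA A v = G.mat *ᵥ v := fun v => rfl
  refine ⟨s *ᵥ f, ?_⟩
  rw [hd] at hf ⊢
  have := congrArg (fun M : Matrix G.ι G.ι A => M *ᵥ f) hs
  simp only [Matrix.add_mulVec, Matrix.smul_mulVec, Matrix.one_mulVec, ← Matrix.mulVec_mulVec, hf,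
    Matrix.mulVec_zero, add_zero] at this
  exact this

theorem sgn_anticomm_map (φ : PS k D →+* PS k (D + D)) {s : Matrix X.G.ι X.G.ι (PS k D)}
    (hs : ∀ h g, s h g ≠ 0 → X.G.pos h = X.G.pos g + 1 ∨ X.G.pos g = X.G.pos h + 1) :
    X.sgnMat * s.map φ + s.map φ * X.sgnMat = 0 := by
  ext h g : 1
  simp only [sgnMat, Matrix.add_apply, Matrix.diagonal_mul, Matrix.mul_diagonal, Matrix.map_apply,
    Matrix.zero_apply]
  by_cases e : s h g = 0
  · simp [e]
  · rcases hs h g e with h1 | h1 <;> rw [h1, pow_succ] <;> ring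

theorem map_smul_one (φ : PS k D →+* PS k (D + D)) (z : PS k D) :
    (z • (1 : Matrix X.G.ι X.G.ι (PS k D))).map φ = φ z • 1 := by
  ext a b : 1
  by_cases e : a = b <;> simp [e]

theorem map_identity (φ : PS k D →+* PS k (D + D)) {z : PS k D} {N : ℕ}
    {s : Matrix X.G.ι X.G.ι (PS k D)}
    (he : X.G.mat * s + s * X.G.mat = z ^ N • (1 : Matrix X.G.ι X.G.ι (PS k D))) :
    X.G.mat.map φ * s.map φ + s.map φ * X.G.mat.map φ =
      φ z ^ N • (1 : Matrix X.G.ι X.G.ι (PS k (D + D))) := by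
  rw [← Matrix.map_mul, ← Matrix.map_mul, ← Matrix.map_add _ (map_add φ), he, map_smul_one, map_pow]

theorem sq_kills_left {z : PS k D} (hz : X.G.Kills (PS k D) z) :
    X.sq.G.Kills (PS k (D + D)) (blockX k D z ^ (D + X.m + 1)) := by
  obtain ⟨s, hs, he⟩ := X.exists_graded_homotopy hz
  refine kills_of_homotopy X.sqCx (s := s.map (blockX k D) ⊗ₖ 1) ?_
  rw [sqCx_mat_eq]
  refine homotopy_left ?_ (X.sgn_anticomm_map _ fun h g e => Or.inl (hs h g e))
  exact X.map_identity (blockX k D) he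

theorem sq_kills_right {z : PS k D} (hz : X.G.Kills (PS k D) z) :
    X.sq.G.Kills (PS k (D + D)) (blockY k D z ^ (D + X.m + 1)) := by
  obtain ⟨s, -, he⟩ := X.exists_graded_homotopy hz
  refine kills_of_homotopy X.sqCx (s := X.sgnMat ⊗ₖ s.map (blockY k D)) ?_
  rw [sqCx_mat_eq]
  refine homotopy_right ?_ (X.sgn_anticomm_map _ fun h g e => Or.inr (X.G.mat_pos h g e)) X.sgnMat_sq
  exact X.map_identity (blockY k D) he

theorem sq_chi {K : ℕ} (h : X.IsGood K) :
    X.sq.G.chi (PS k (D + D)) k = X.G.chi (PS k D) k ^ 2 := by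
  have hL : X.G.LengthLE (D + X.m) := fun g =>
    (X.pos_le g).trans (Nat.add_le_add_right (X.lev_le g) _)
  show X.sqCx.chi (PS k (D + D)) k = _
  rw [sqCx_eq, chi_map_equiv _ (blockEquiv k D D), (chi_prodCx h.finite h.finite hL hL).2, pow_two]

end Datum

/-- Squaring a bounded family. -/
theorem Bounded.square {E : ℤ} {r : ℕ} (hD : 1 ≤ D) (h : Bounded k D E r) :
    Bounded k (D + D) (E ^ 2) (r ^ 2) := by
  obtain ⟨c, m, C, hQ⟩ := h
  refine ⟨blockX k D c * blockY k D c, m + m, C * C + C * (D + m + 1), fun Q => ?_⟩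
  obtain ⟨K, hQK, hK, X, hXc, hXm, hgood, hcard, hfree, hr, hchi, hkill⟩ := hQ Q
  set C' := C * C + C * (D + m + 1) with hC'
  have hC : C ≤ C' := by
    have := Nat.le_mul_of_pos_right C (show 0 < D + m + 1 by omega)
    omega
  refine ⟨K, hQK, hK, X.sq, by rw [← hXc], by rw [← hXm], X.sq_isGood hgood, ?_, ?_, ?_, ?_,
    fun i => ?_⟩
  · show Fintype.card (X.G.ι × X.G.ι) ≤ C'
    rw [Fintype.card_prod]
    exact (Nat.mul_le_mul hcard hcard).trans (Nat.le_add_right _ _)
  · show Fintype.card (X.free × X.free) ≤ C'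
    rw [Fintype.card_prod]
    exact (Nat.mul_le_mul hfree hfree).trans (Nat.le_add_right _ _)
  · rw [X.sq_frank_zero]
    exact Nat.pow_le_pow_left hr 2
  · rw [X.sq_chi hgood, abs_pow]
    refine (pow_le_pow_left₀ (abs_nonneg _) hchi 2).trans ?_
    rw [mul_pow, ← pow_mul, Nat.mul_two]
    refine mul_le_mul_of_nonneg_left (pow_le_pow_left₀ (by positivity) ?_ _) (sq_nonneg E)
    exact_mod_cast Nat.add_le_add_left hC K
  · have hle : C * (D + m + 1) * K ≤ C' * K := Nat.mul_le_mul_right _ (Nat.le_add_left _ _)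
    have mono : ∀ z : PS k (D + D), X.sq.G.Kills (PS k (D + D)) (z ^ (C * (D + m + 1) * K)) →
        X.sq.G.Kills (PS k (D + D)) (z ^ (C' * K)) := by
      intro z hz f hf
      obtain ⟨v, hv⟩ := hz f hf
      obtain ⟨d, hd⟩ := Nat.exists_eq_add_of_le hle
      refine ⟨z ^ d • v, ?_⟩
      rw [map_smul, hv, smul_smul, hd, pow_add, mul_comm]
    refine mono _ ?_
    rw [show C * (D + m + 1) * K = C * K * (D + X.m + 1) by rw [hXm]; ring, pow_mul]
    obtain ⟨s, rfl⟩ := finSumFinEquiv.surjective i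
    rcases s with a | a
    · have he : blockX k D (MvPowerSeries.X a) = MvPowerSeries.X (finSumFinEquiv (Sum.inl a)) := by
        show (blockEquiv k D D) (inX (MvPowerSeries.X a)) = _
        simp [blockEquiv, inX, rename_X]
      rw [← he, ← map_pow]
      exact X.sq_kills_left (hkill a)
    · have he : blockY k D (MvPowerSeries.X a) = MvPowerSeries.X (finSumFinEquiv (Sum.inr a)) := by
        show (blockEquiv k D D) (inY (MvPowerSeries.X a)) = _
        simp [blockEquiv, inY, rename_X]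
      rw [← he, ← map_pow]
      exact X.sq_kills_right (hkill a)

end Vale.Agent.P202.NC
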