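import Vale.Agent.P202.NC.Hilbert
import Vale.Agent.P202.RingSide.Reduction

/-!
# P202, general source ring: parametrisations of source and target

Minimal reductions `x` of the maximal ideal of `R` and `y` of that of `S`, with the multiplicity
symbols squeezed against the Hilbert-Samuel functions. No Cohen-Macaulay hypothesis.
-/

noncomputable section

namespace Vale.Agent.P202.NC

open IsLocalRing Filter
open scoped ENNReal

universe u

theorem ofList_ofFn' {A : Type*} [CommRing A] {n : ℕ} (x : Fin n → A) :
    Ideal.ofList (List.ofFn x) = Ideal.span (Set.range x) := by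
  simp [Ideal.ofList, Set.range, List.mem_ofFn]

/-- The source: a finite parametrisation by a minimal reduction, whose multiplicity symbol
dominates `limsup hsSeq`. -/
theorem exists_source_nc {k : Type u} [Field k]
    {R : Type u} [CommRing R] [IsNoetherianRing R] [IsLocalRing R]
    [IsAdicComplete (maximalIdeal R) R] [Infinite (ResidueField R)]
    [Algebra k R] (hres : ∀ a : R, ∃ c, a - algebraMap k R c ∈ maximalIdeal R) :
    ∃ (φ : MvPowerSeries (Fin (dimNat R)) k →+* R) (r e : ℕ),
      (∀ c, φ (MvPowerSeries.C c) = algebraMap k R c) ∧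
      (∀ i, φ (MvPowerSeries.X i) ∈ maximalIdeal R) ∧ φ.Finite ∧
      Module.Finite k (R ⧸ Ideal.span (Set.range fun i => φ (MvPowerSeries.X i))) ∧
      (∀ N, maximalIdeal R ^ (N + r) ≤
        (maximalIdeal (MvPowerSeries (Fin (dimNat R)) k) ^ N).map φ) ∧
      emult k (List.ofFn fun i => φ (MvPowerSeries.X i)) R = e ∧
      limsup (hsSeq R) atTop ≤ (e : ℝ≥0∞) := by
  obtain ⟨x, r, hx, hxr⟩ := exists_reduction (A := R)
  have hxm : ∀ i, x i ∈ maximalIdeal R := fun i => hx (Ideal.subset_span ⟨i, rfl⟩)
  have hxr0 : maximalIdeal R ^ (1 + r) ≤ Ideal.span (Set.range x) := by simpa using hxr 1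
  obtain ⟨φ, hC, hX, -⟩ := exists_evalHom (algebraMap k R) x hxm
  have hspan : (fun i => φ (MvPowerSeries.X i)) = x := funext hX
  have hφ : φ.Finite := finite_of_powerSeriesHom φ (fun a => by
      obtain ⟨c, hc⟩ := hres a
      exact ⟨c, by rw [hC]; exact hc⟩)
    (fun i => by rw [hX]; exact hxm i) (r := 1 + r) (by rw [hspan]; exact hxr0)
  obtain ⟨e, he, hle⟩ := limsup_hsSeq_le_emult hres rfl φ hφ hC fun i => by rw [hX]; exact hxm i
  refine ⟨φ, r, e, hC, fun i => by rw [hX]; exact hxm i, hφ, ?_, fun N => ?_, he, hle⟩
  · have : Module.Finite k (R ⧸ maximalIdeal R) := by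
      refine Module.Finite.of_surjective (Algebra.linearMap k _) fun q => ?_
      obtain ⟨a, rfl⟩ := Ideal.Quotient.mk_surjective q
      obtain ⟨c, hc⟩ := hres a
      refine ⟨c, ?_⟩
      rw [Algebra.linearMap_apply, IsScalarTower.algebraMap_apply k R, Ideal.Quotient.algebraMap_eq,
        Ideal.Quotient.eq, ← neg_mem_iff, neg_sub]
      exact hc
    have := finite_quot_pow (k := k) (maximalIdeal R) (1 + r)
    rw [hspan]
    exact finite_quot_of_le hxr0
  · refine (hxr N).trans (le_of_eq ?_)
    rw [Ideal.map_pow, maximalIdeal_mvPowerSeries, Ideal.map_span, ← Set.range_comp, ← hspan]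
    rfl

/-- The target: a minimal reduction with multiplicity symbol over `k` equal to the residue degree
times a number at most `liminf hsSeq`. -/
theorem exists_target_nc {k : Type u} [Field k] (p : ℕ) [Fact p.Prime]
    {R : Type u} [CommRing R] [IsNoetherianRing R] [IsLocalRing R] [CharP R p]
    [IsAdicComplete (maximalIdeal R) R] [PerfectField (ResidueField R)] [Infinite (ResidueField R)]
    {S : Type u} [CommRing S] [IsLocalRing S] [Algebra R S] [IsLocalHom (algebraMap R S)]
    [Module.Finite R S] [Module.Flat R S] [Algebra k R] [Algebra k S] [IsScalarTower k R S]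
    (hres : ∀ a : R, ∃ c, a - algebraMap k R c ∈ maximalIdeal R) :
    ∃ (y : Fin (dimNat R) → S) (L : ℕ), (∀ i, y i ∈ maximalIdeal S) ∧
      Module.Finite k (S ⧸ Ideal.span (Set.range y)) ∧
      Module.Finite k (ResidueField S) ∧
      emult k (List.ofFn y) S = ((L * Module.finrank k (ResidueField S) : ℕ) : ℤ) ∧
      (L : ℝ≥0∞) ≤ liminf (hsSeq S) atTop := by
  classical
  have hfree : Module.Free R S := Module.free_of_flat_of_isLocalRing
  have : IsNoetherianRing S := IsNoetherianRing.of_finite R S
  have : CharP S p := charP_of_injective_algebraMap (FaithfulSMul.algebraMap_injective R S) p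
  have : IsAdicComplete (maximalIdeal S) S := isAdicComplete_maximalIdeal_of_finite R S
  have : Infinite (ResidueField S) := infinite_residueField_of_isLocalHom R S
  have hd : dimNat S = dimNat R := dimNat_eq_of_finite_flat
  obtain ⟨y, r, hy, hyr⟩ := exists_reduction (A := S)
  have hym : ∀ i, y i ∈ maximalIdeal S := fun i => hy (Ideal.subset_span ⟨i, rfl⟩)
  have hyr0 : maximalIdeal S ^ (1 + r) ≤ Ideal.span (Set.range y) := by simpa using hyr 1
  have hkres : Module.Finite k (ResidueField R) := by
    refine Module.Finite.of_surjective (Algebra.linearMap k (ResidueField R)) fun q => ?_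
    obtain ⟨a, rfl⟩ := residue_surjective q
    obtain ⟨c, hc⟩ := hres a
    refine ⟨c, ?_⟩
    rw [Algebra.linearMap_apply, IsScalarTower.algebraMap_apply k R (ResidueField R),
      ResidueField.algebraMap_eq, eq_comm, ← sub_eq_zero, ← map_sub, residue_eq_zero_iff]
    exact hc
  have hl : Module.Finite k (ResidueField S) := by
    have : Module.Finite (ResidueField R) (ResidueField S) := inferInstance
    exact Module.Finite.trans (ResidueField R) (ResidueField S)
  have hfin : Module.Finite k (S ⧸ Ideal.span (Set.range y)) := by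
    have : Module.Finite k (S ⧸ maximalIdeal S) := hl
    have := finite_quot_pow (k := k) (maximalIdeal S) (1 + r)
    exact finite_quot_of_le hyr0
  have : PerfectField (ResidueField S) := Algebra.IsAlgebraic.perfectField (K := ResidueField R)
  obtain ⟨τ, hτ⟩ := exists_coefficientField (R := S) p
  obtain ⟨φ, hC, hX, -⟩ := exists_evalHom τ y hym
  have hspan : (fun i => φ (MvPowerSeries.X i)) = y := funext hX
  have hφ : φ.Finite := finite_of_powerSeriesHom φ
    (fun a => ⟨residue S a, by
      rw [hC, ← residue_eq_zero_iff, map_sub, hτ, sub_self]⟩)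
    (fun i => by rw [hX]; exact hym i) (r := 1 + r) (by rw [hspan]; exact hyr0)
  let algτ : Algebra (ResidueField S) S := τ.toAlgebra
  have hL : ∀ a : S, ∃ c, a - algebraMap (ResidueField S) S c ∈ maximalIdeal S := fun a =>
    ⟨residue S a, by
      rw [RingHom.algebraMap_toAlgebra, ← residue_eq_zero_iff, map_sub, hτ, sub_self]⟩
  obtain ⟨L, hLe, hLle⟩ := emult_le_liminf_hsSeq hL rfl φ hφ (fun c => hC c) (r := r)
    (by rw [hspan]; exact hyr)
  rw [hspan] at hLe
  have hrange : Set.range (fun i => y (Fin.cast hd.symm i)) = Set.range y :=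
    Function.Surjective.range_comp (fun j => ⟨Fin.cast hd j, by simp⟩) y
  refine ⟨fun i => y (Fin.cast hd.symm i), L, fun i => hym _, by rw [hrange]; exact hfin, hl, ?_,
    hLle⟩
  rw [show List.ofFn (fun i => y (Fin.cast hd.symm i)) = List.ofFn y by rw [List.ofFn_congr hd],
    emult_residueDegree (L := ResidueField S) hL, hLe]
  push_cast
  ring

end Vale.Agent.P202.NC
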