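import Vale.Agent.P202.NC.Witness
import Vale.Agent.P202.NC.Multiplicity
import Vale.Agent.P202.NC.Square
import Vale.Agent.P202.NC.Amplify

/-!
# P202, general source ring: Lech's inequality from the weak bound
-/

noncomputable section

namespace Vale.Agent.P202.NC

open IsLocalRing Filter
open scoped ENNReal

universe u

variable {k : Type u} [Field k]

/-- With no elements the symbol is the dimension. -/
theorem emult_nil_eq_finrank {A : Type*} [CommRing A] [Algebra k A] (M : Type u) [AddCommGroup M]
    [Module A M] [Module k M] [IsScalarTower k A M] :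
    emult k ([] : List A) M = (Module.finrank k M : ℤ) := by
  let e : RestrictScalars k A M ≃ₗ[k] M :=
    { RestrictScalars.addEquiv k A M with map_smul' := fun c m => by simp [algebraMap_smul] }
  change (Module.finrank k (RestrictScalars k A M) : ℤ) = _
  rw [e.finrank_eq]

/-- The zero-dimensional case: lengths are multiplicative. -/
theorem rank_mul_le_of_artinian {R S : Type u} [CommRing R] [IsNoetherianRing R] [IsLocalRing R]
    [CommRing S] [IsLocalRing S] [Algebra R S] [IsLocalHom (algebraMap R S)] [Module.Finite R S]
    [Module.Flat R S] [Algebra k R] [Algebra k S] [IsScalarTower k R S]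
    (hone : Module.finrank k (ResidueField R) ≤ 1) [Module.Finite k (ResidueField R)] :
    Module.finrank k R * Module.finrank k (ResidueField S) ≤ Module.finrank k S := by
  have : Module.Free R S := Module.free_of_flat_of_isLocalRing
  rw [← Module.finrank_mul_finrank k R S]
  refine Nat.mul_le_mul_left _ ?_
  rw [← Module.finrank_mul_finrank k (ResidueField R) (ResidueField S)]
  refine (Nat.mul_le_mul hone le_rfl).trans ?_
  rw [one_mul]
  -- a basis of `S` spans the residue field extension
  set b := Module.finBasis R S
  let T : (Fin (Module.finrank R S) → ResidueField R) →ₗ[ResidueField R] ResidueField S :=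
    Fintype.linearCombination (ResidueField R) fun i => residue S (b i)
  have hT : Function.Surjective T := by
    intro q
    obtain ⟨s, rfl⟩ := residue_surjective q
    refine ⟨fun i => residue R (b.repr s i), ?_⟩
    conv_rhs => rw [← b.sum_repr s, map_sum]
    rw [Fintype.linearCombination_apply]
    refine Finset.sum_congr rfl fun i _ => ?_
    rw [Algebra.smul_def, Algebra.smul_def, map_mul]
    rfl
  have h := LinearMap.finrank_le_finrank_of_surjective hT
  rwa [Module.finrank_pi, Fintype.card_fin] at h

/-- Lech's inequality over an abstract coefficient field, given the weak bound. -/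
theorem lech_main_aux (p : ℕ) [Fact p.Prime] [CharP k p] [PerfectRing k p]
    (weak : ∀ n : ℕ, 3 ≤ n → ∀ (E : ℤ) (r : ℕ), Bounded k (n + 1) E r → (r : ℤ) ≤ 3 * n * E)
    (R : Type u) [CommRing R] [IsNoetherianRing R] [IsLocalRing R] [CharP R p]
    [IsAdicComplete (maximalIdeal R) R] [PerfectField (ResidueField R)] [Infinite (ResidueField R)]
    [Algebra k R] (hres : ∀ a : R, ∃ c, a - algebraMap k R c ∈ maximalIdeal R)
    (S : Type u) [CommRing S] [IsLocalRing S] [Algebra R S] [IsLocalHom (algebraMap R S)]
    [Module.Finite R S] [Module.Flat R S] :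
    limsup (hsSeq R) atTop ≤ liminf (hsSeq S) atTop := by
  classical
  let algS : Algebra k S := ((algebraMap R S).comp (algebraMap k R)).toAlgebra
  have : IsScalarTower k R S := IsScalarTower.of_algebraMap_eq fun c => rfl
  have hsurj : Function.Surjective (algebraMap k (ResidueField R)) := fun q => by
    obtain ⟨a, rfl⟩ := residue_surjective q
    obtain ⟨c, hc⟩ := hres a
    refine ⟨c, ?_⟩
    rw [IsScalarTower.algebraMap_apply k R (ResidueField R), ResidueField.algebraMap_eq, eq_comm,
      ← sub_eq_zero, ← map_sub, residue_eq_zero_iff]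
    exact hc
  have : Module.Finite k (ResidueField R) :=
    Module.Finite.of_surjective (Algebra.linearMap k (ResidueField R)) hsurj
  have hone : Module.finrank k (ResidueField R) ≤ 1 := by
    have := LinearMap.finrank_le_finrank_of_surjective
      (f := Algebra.linearMap k (ResidueField R)) hsurj
    rwa [Module.finrank_self] at this
  obtain ⟨φ, r, e, hC, hX, hφ, hxfin, hpow, he, hup⟩ := exists_source_nc (k := k) hres
  obtain ⟨y, L, hym, hyfin, hlfin, hyL, hlow⟩ := exists_target_nc (k := k) p (S := S) hres
  refine hup.trans (le_trans ?_ hlow)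
  rw [Nat.cast_le]
  refine Nat.le_of_mul_le_mul_right ?_ (Module.finrank_pos (R := k) (M := ResidueField S))
  rcases Nat.eq_zero_or_pos (dimNat R) with hd | hd
  · have h1 : (List.ofFn fun i => φ (MvPowerSeries.X i)) = [] :=
      List.eq_nil_of_length_eq_zero (by rw [List.length_ofFn, hd])
    have h2 : List.ofFn y = [] := List.eq_nil_of_length_eq_zero (by rw [List.length_ofFn, hd])
    rw [h1, emult_nil_eq_finrank] at he
    rw [h2, emult_nil_eq_finrank] at hyL
    have he' : Module.finrank k R = e := by exact_mod_cast he
    have hy' : Module.finrank k S = L * Module.finrank k (ResidueField S) := by exact_mod_cast hyL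
    rw [← he', ← hy']
    exact rank_mul_le_of_artinian hone
  let algφ : Algebra (PS k (dimNat R)) R := φ.toAlgebra
  have : IsScalarTower k (PS k (dimNat R)) R :=
    IsScalarTower.of_algebraMap_eq fun c => (hC c).symm
  have : Module.Finite (PS k (dimNat R)) R := hφ
  have : Module.Finite k (S ⧸ Ideal.ofList (List.ofFn y)) := by rw [ofList_ofFn']; exact hyfin
  obtain ⟨f, hf, hB⟩ := exists_bounded (k := k) p (R := R) (d := dimNat R) hX (r := r) hpow
    (S := S) (ys := List.ofFn y) (forall_mem_ofFn' hym) (List.length_ofFn)
  have hle := le_of_bounded weak (fun D E r hD h => Bounded.square hD h) hd hB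
  rw [hyL] at hle
  have he' : Module.finrank (PS k (dimNat R)) R = e := by
    have := emult_eq_finrank_powerSeries (k := k) (d := dimNat R) (R := R)
    rw [RingHom.algebraMap_toAlgebra] at this
    exact_mod_cast this.symm.trans he
  rw [he', Nat.cast_le] at hle
  calc e * Module.finrank k (ResidueField S)
      ≤ e * (f * Module.finrank k (ResidueField R)) := Nat.mul_le_mul_left e hf
    _ ≤ e * (f * 1) := Nat.mul_le_mul_left e (Nat.mul_le_mul_left _ hone)
    _ = f * e := by ring
    _ ≤ _ := hle
where
  forall_mem_ofFn' {A : Type u} {n : ℕ} {x : Fin n → A} {P : A → Prop} (h : ∀ i, P (x i)) :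
      ∀ a ∈ List.ofFn x, P a := by
    intro a ha
    rw [List.mem_ofFn] at ha
    obtain ⟨i, rfl⟩ := ha
    exact h i

/-- Lech's inequality for complete `R` with perfect infinite residue field, given the weak bound. -/
theorem lech_main_of_weak (p : ℕ) [Fact p.Prime]
    (weak : ∀ (K : Type u) [Field K], ∀ n : ℕ, 3 ≤ n → ∀ (E : ℤ) (r : ℕ),
      Bounded K (n + 1) E r → (r : ℤ) ≤ 3 * n * E)
    (R : Type u) [CommRing R] [IsNoetherianRing R] [IsLocalRing R] [CharP R p]
    [IsAdicComplete (maximalIdeal R) R] [PerfectField (ResidueField R)] [Infinite (ResidueField R)]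
    (S : Type u) [CommRing S] [IsLocalRing S] [Algebra R S] [IsLocalHom (algebraMap R S)]
    [Module.Finite R S] [Module.Flat R S] :
    limsup (hsSeq R) atTop ≤ liminf (hsSeq S) atTop := by
  obtain ⟨σ, hσ⟩ := exists_coefficientField (R := R) p
  have : PerfectRing (ResidueField R) p := PerfectField.toPerfectRing p
  let : Algebra (ResidueField R) R := σ.toAlgebra
  exact lech_main_aux p (weak (ResidueField R)) R (fun a => ⟨residue R a, by
    rw [← residue_eq_zero_iff, map_sub, RingHom.algebraMap_toAlgebra, hσ, sub_self]⟩) S

end Vale.Agent.P202.NC
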