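import Vale.Agent.P202.NC.Bounds
import Vale.Agent.P202.RingSide.Complete

/-!
# P202, general source ring: torsion and double duals

Over a domain, a finite module agrees with its double dual after inverting one nonzero element.
-/

noncomputable section

namespace Vale.Agent.P202

universe u

section dual

variable {V : Type*} [CommRing V] [IsDomain V] {M : Type*} [AddCommGroup M] [Module V M]
  [Module.Finite V M]

/-- A finite module over a domain maps to a finite free module with torsion kernel. -/
theorem exists_coords : ∃ (c : V) (n : ℕ) (v : Fin n → M) (θ : Fin n → (M →ₗ[V] V)), c ≠ 0 ∧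
    LinearIndependent V v ∧ ∀ m, ∑ i, θ i m • v i = c • m := by
  classical
  let P : ℕ → Prop := fun n => ∃ v : Fin n → M, LinearIndependent V v
  have hbd : ∀ n, P n → n ≤ Module.finrank V M := fun n ⟨v, hv⟩ => by
    simpa using hv.fintype_card_le_finrank
  have h0 : P 0 := ⟨Fin.elim0, linearIndependent_empty_type⟩
  obtain ⟨n, hn⟩ : ∃ n, n = Nat.findGreatest P (Module.finrank V M) := ⟨_, rfl⟩
  obtain ⟨v, hv⟩ : P n := hn ▸ Nat.findGreatest_spec (Nat.zero_le _) h0
  set W := Submodule.span V (Set.range v)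
  have hmax : ∀ m, ∃ a : V, a ≠ 0 ∧ a • m ∈ W := by
    intro m
    have hnot : ¬ LinearIndependent V (Fin.cons m v : Fin (n + 1) → M) := fun h => by
      have := Nat.le_findGreatest (P := P) (hbd _ ⟨_, h⟩) ⟨_, h⟩
      rw [← hn] at this
      omega
    rw [Fintype.not_linearIndependent_iff] at hnot
    obtain ⟨g, hg, i, hi⟩ := hnot
    rw [Fin.sum_univ_succ] at hg
    simp only [Fin.cons_zero, Fin.cons_succ] at hg
    refine ⟨g 0, fun h => hi ?_, ?_⟩
    · rw [h, zero_smul, zero_add] at hg
      refine Fin.cases h (fun i => ?_) i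
      exact Fintype.linearIndependent_iff.1 hv (fun i => g i.succ) hg i
    · rw [eq_neg_of_add_eq_zero_left hg]
      exact W.neg_mem (Submodule.sum_mem _ fun i _ =>
        W.smul_mem _ (Submodule.subset_span ⟨i, rfl⟩))
  choose a ha haW using hmax
  obtain ⟨s, hs⟩ := (Module.Finite.fg_top : (⊤ : Submodule V M).FG)
  refine ⟨∏ m ∈ s, a m, n, v, ?_⟩
  set c := ∏ m ∈ s, a m
  have hc : c ≠ 0 := Finset.prod_ne_zero_iff.2 fun m _ => ha m
  have hcW : ∀ m, c • m ∈ W := by
    intro m
    have hm : m ∈ Submodule.span V (s : Set M) := hs ▸ Submodule.mem_top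
    induction hm using Submodule.span_induction with
    | mem x hx =>
      obtain ⟨b, hb⟩ := Finset.dvd_prod_of_mem a hx
      rw [show c = b * a x by rw [mul_comm]; exact hb, mul_smul]
      exact W.smul_mem b (haW x)
    | zero => rw [smul_zero]; exact W.zero_mem
    | add x y _ _ hx hy => rw [smul_add]; exact W.add_mem hx hy
    | smul b x _ hx => rw [smul_comm]; exact W.smul_mem b hx
  let μ : M →ₗ[V] W := LinearMap.codRestrict W (c • LinearMap.id) hcW
  refine ⟨fun i => (Finsupp.lapply i).comp (hv.repr.comp μ), hc, hv, fun m => ?_⟩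
  have := hv.linearCombination_repr (μ m)
  rw [Finsupp.linearCombination_apply, Finsupp.sum_fintype _ _ (fun i => zero_smul V (v i))] at this
  exact this

/-- A finite module over a domain agrees with its double dual up to torsion. -/
theorem exists_dual_eval : ∃ c : V, c ≠ 0 ∧
    (∀ m : M, Module.Dual.eval V M m = 0 → c • m = 0) ∧
    ∀ Φ : Module.Dual V (Module.Dual V M), ∃ m, Module.Dual.eval V M m = c • Φ := by
  obtain ⟨c, n, v, θ, hc, -, hθ⟩ := exists_coords (V := V) (M := M)
  refine ⟨c, hc, fun m hm => ?_, fun Φ => ⟨∑ i, Φ (θ i) • v i, ?_⟩⟩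
  · rw [← hθ m]
    refine Finset.sum_eq_zero fun i _ => ?_
    have : θ i m = 0 := LinearMap.congr_fun hm (θ i)
    rw [this, zero_smul]
  · refine LinearMap.ext fun φ => ?_
    have h : (∑ i, φ (v i) • θ i) = c • φ := LinearMap.ext fun m => by
      rw [LinearMap.smul_apply, ← map_smul, ← hθ m, map_sum, LinearMap.coe_sum, Finset.sum_apply]
      simp [mul_comm]
    rw [LinearMap.smul_apply, Module.Dual.eval_apply, ← map_smul, ← h, map_sum, map_sum]
    simp [mul_comm]

end dual

section dims

variable {k : Type*} [Field k]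

theorem sdim_le_pred {R : Type u} [CommRing R] {M : Type u} [AddCommGroup M] [Module R M] {d : ℕ}
    (h : sdim R M < (d : WithBot ℕ∞)) : sdim R M ≤ ((d - 1 : ℕ) : WithBot ℕ∞) := by
  revert h
  generalize sdim R M = a
  intro h
  induction a using WithBot.recBotCoe with
  | bot => simp
  | coe a =>
    induction a using ENat.recTopCoe with
    | top => simp at h
    | coe a =>
      change (((a : ℕ) : ℕ∞) : WithBot ℕ∞) < ((d : ℕ∞) : WithBot ℕ∞) at h
      change (((a : ℕ) : ℕ∞) : WithBot ℕ∞) ≤ (((d - 1 : ℕ) : ℕ∞) : WithBot ℕ∞)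
      rw [WithBot.coe_lt_coe, Nat.cast_lt] at h
      rw [WithBot.coe_le_coe, Nat.cast_le]
      omega

theorem ringKrullDim_mvPowerSeries_le (d : ℕ) :
    ringKrullDim (MvPowerSeries (Fin d) k) ≤ (d : WithBot ℕ∞) := by
  set P := MvPowerSeries (Fin d) k
  let z : List P := List.ofFn fun i : Fin d => MvPowerSeries.X i
  have hI : (⊥ : Ideal P) ⊔ Ideal.ofList z = IsLocalRing.maximalIdeal P := by
    rw [bot_sup_eq, maximalIdeal_mvPowerSeries]
    simp only [Ideal.ofList, z, Set.range, List.mem_ofFn]
    rfl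
  have hfin : Module.Finite k (P ⧸ ((⊥ : Ideal P) ⊔ Ideal.ofList z)) := by
    rw [hI]
    refine Module.Finite.of_surjective (Algebra.linearMap k _) fun q => ?_
    obtain ⟨a, rfl⟩ := Ideal.Quotient.mk_surjective q
    refine ⟨MvPowerSeries.constantCoeff a, ?_⟩
    rw [Algebra.linearMap_apply, IsScalarTower.algebraMap_apply k P,
      Ideal.Quotient.algebraMap_eq, Ideal.Quotient.eq, ← neg_mem_iff, neg_sub]
    rw [IsLocalRing.mem_maximalIdeal, mem_nonunits_iff, MvPowerSeries.isUnit_iff_constantCoeff]
    simp [MvPowerSeries.algebraMap_apply, P]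
  have hmem : ∀ a ∈ z, a ∈ IsLocalRing.maximalIdeal P := fun a ha =>
    hI.le (Ideal.mem_sup_right (Ideal.subset_span ha))
  have := ringKrullDim_quotient_le_length (k := k) (⊥ : Ideal P) z hmem
  rw [ringKrullDim_eq_of_ringEquiv (RingEquiv.quotientBot P)] at this
  simpa [z] using this

end dims

end Vale.Agent.P202
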