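import Vale.Agent.P202.HomAlg.Coef
import Vale.Agent.P202.HomAlg.Homotopy
import Vale.Agent.P202.Koszul.Scaling

/-!
# P202, general source ring: sizes of the homology of Frobenius twists

The homology of the `e`-th twist of a complex with finite-dimensional homology, on a module of
dimension at most `t`, is `O(q ^ t)`; Euler characteristics do not see modules of dimension `< d`.
-/

noncomputable section

namespace Vale.Agent.P202

universe u


namespace FreeCx

section dims

open LinearMap

variable {A : Type*} [CommRing A] (G : FreeCx A) {k : Type*} [Field k] [Algebra k A]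
variable {M₁ M₂ M₃ : Type*} [AddCommGroup M₁] [Module A M₁] [Module k M₁] [IsScalarTower k A M₁]
  [AddCommGroup M₂] [Module A M₂] [Module k M₂] [IsScalarTower k A M₂]
  [AddCommGroup M₃] [Module A M₃] [Module k M₃] [IsScalarTower k A M₃]

theorem homDim_congr (e : M₁ ≃ₗ[A] M₂) (j : ℤ) : G.homDim M₁ k j = G.homDim M₂ k j := by
  have h := G.pairMap_inj k (f := e.toLinearMap) e.injective
  have hr : range (G.coef k e.toLinearMap) = ⊤ :=
    range_eq_top.mpr fun y => ⟨fun g => e.symm (y g), funext fun g => by simp [coef_apply]⟩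
  have := h.betti_eq j
  rw [hr] at this
  exact this.symm

variable {f : M₁ →ₗ[A] M₂} {g : M₂ →ₗ[A] M₃} (hf : Function.Injective f)
  (hg : Function.Surjective g) (hfg : Function.Exact f g)
section
include hf hg hfg

/-- Subadditivity of homology in a short exact sequence of coefficients. -/
theorem homDim_le_add (h1 : G.FiniteHom M₁ k) (h3 : G.FiniteHom M₃ k) (j : ℤ) :
    G.homDim M₂ k j ≤ G.homDim M₁ k j + G.homDim M₃ k j := by
  have e1 := (G.pairMap_inj k hf).betti_eq j
  have e3 := (G.pairMap_surj k hg).betti_eq j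
  rw [← G.range_coef_eq_ker hfg] at e3
  set D := G.diff M₂ k
  have h2 := G.finiteHom_middle hf hg hfg h1 h3
  have f1 : Module.Finite k (D.H (range (G.coef k f)) ⊥ j) :=
    have := h1 j; Module.Finite.equiv ((G.pairMap_inj k hf).equiv j)
  have f3 : Module.Finite k (D.H ⊤ (range (G.coef k f)) j) := by
    rw [G.range_coef_eq_ker hfg]
    have := h3 j
    exact Module.Finite.equiv ((G.pairMap_surj k hg).equiv j).symm
  have f2 : Module.Finite k (D.H ⊤ ⊥ j) := h2 j
  have key := Diff.finrank_mid _ _ (D.exact_mid (Y := ⊥) (X := range (G.coef k f)) bot_le le_top j)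
  have a := LinearMap.finrank_range_le
    (D.inclMap (Y := ⊥) (le_top : range (G.coef k f) ≤ ⊤) j)
  have b := Submodule.finrank_le (range
    (D.projMap (W := ⊤) (bot_le : ⊥ ≤ range (G.coef k f)) j))
  change D.betti ⊤ ⊥ j ≤ _
  unfold Diff.betti at e1 e3 ⊢
  unfold homDim Diff.betti
  omega

end

/-- If `a` is regular and kills the homology, the homology embeds in that of the cokernel. -/
theorem homDim_le_of_kills {a : A} {f : M₂ →ₗ[A] M₂} {g : M₂ →ₗ[A] M₃}
    (hf : Function.Injective f) (hg : Function.Surjective g) (hfg : Function.Exact f g)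
    (hfa : ∀ m, f m = a • m) (hkill : G.Kills M₂ a) (h3 : G.FiniteHom M₃ k) (j : ℤ) :
    G.homDim M₂ k j ≤ G.homDim M₃ k j := by
  have e3 := (G.pairMap_surj k hg).betti_eq j
  rw [← G.range_coef_eq_ker hfg] at e3
  set D := G.diff M₂ k
  set X := range (G.coef k f)
  have f3 : Module.Finite k (D.H ⊤ X j) := by
    show Module.Finite k (D.H ⊤ (range (G.coef k f)) j)
    rw [G.range_coef_eq_ker hfg]
    have := h3 j
    exact Module.Finite.equiv ((G.pairMap_surj k hg).equiv j).symm
  have hzero : D.inclMap (Y := ⊥) (le_top : X ≤ ⊤) j = 0 := by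
    refine LinearMap.ext fun ξ => ?_
    obtain ⟨x, rfl⟩ := Submodule.Quotient.mk_surjective _ ξ
    obtain ⟨hx', hxd, hxc⟩ := D.mem_cycles.1 x.2
    obtain ⟨w, hw⟩ := LinearMap.mem_range.1 hx'
    rw [Diff.inclMap_mk, LinearMap.zero_apply, Diff.mk_eq_zero_iff]
    show (x : G.ι → M₂) ∈ D.bdries ⊤ ⊥ j
    let u : G.ι → M₂ := w
    have hx : (x : G.ι → M₂) = a • u := by
      rw [← hw]
      exact funext fun g => hfa (w g)
    have hinj : ∀ m : M₂, a • m = 0 → m = 0 := fun m hm => by
      have h := hfa m
      rw [hm, ← map_zero f] at h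
      exact hf h
    have hu : u ∈ G.cyclesA M₂ j := by
      rw [mem_cyclesA_iff (k := k), Diff.mem_cycles]
      refine ⟨trivial, fun g hg => hinj _ ?_, ?_⟩
      · rw [← Pi.smul_apply, ← hx]
        exact hxd g hg
      · rw [Submodule.mem_bot] at hxc ⊢
        funext h
        refine hinj _ ?_
        show a • G.dA M₂ u h = 0
        rw [← Pi.smul_apply, ← map_smul, ← hx]
        exact congrFun hxc h
    rw [hx]
    exact mem_bdriesA_iff.1 (hkill.mem_bdries hu)
  have hinj : Function.Injective (D.projMap (W := ⊤) (bot_le : ⊥ ≤ X) j) := by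
    rw [← LinearMap.ker_eq_bot, ← D.exact_mid bot_le le_top j, hzero, LinearMap.range_zero]
  have b := LinearMap.finrank_le_finrank_of_injective hinj
  change D.betti ⊤ ⊥ j ≤ _
  rw [show G.homDim M₃ k j = D.betti ⊤ X j from e3]
  exact b

end dims

section kills

variable {A : Type*} [CommRing A] (G : FreeCx A)

theorem dA_le_card {k : Type*} [Field k] [Algebra k A] (M : Type*) [AddCommGroup M] [Module A M]
    [Module k M] [IsScalarTower k A M] [Module.Finite k M] (j : ℤ) :
    G.homDim M k j ≤ Fintype.card G.ι * Module.finrank k M := by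
  refine (Submodule.finrank_quotient_le _).trans ((Submodule.finrank_le _).trans (le_of_eq ?_))
  rw [Module.finrank_pi_fintype, Finset.sum_const, Finset.card_univ, smul_eq_mul]

/-- A killing element gives killing elements on every module after a ring map. -/
theorem kills_map {B : Type*} [CommRing B] {φ : A →+* B} {z : A} (hz : G.Kills A z) {L : ℕ}
    (hL : G.LengthLE L) (M : Type*) [AddCommGroup M] [Module B M] :
    (G.map φ).Kills M (φ (z ^ (L + 1))) := by
  let := Module.compHom M φ
  exact kills_pow hz hL M

/-- The elements killing the homology form an ideal. -/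
def killsIdeal (M : Type*) [AddCommGroup M] [Module A M] : Ideal A where
  carrier := {a | G.Kills M a}
  add_mem' {a b} ha hb f hf := by
    obtain ⟨v, hv⟩ := ha f hf
    obtain ⟨w, hw⟩ := hb f hf
    exact ⟨v + w, by rw [map_add, hv, hw, add_smul]⟩
  zero_mem' f _ := ⟨0, by simp⟩
  smul_mem' c a ha f hf := by
    obtain ⟨v, hv⟩ := ha f hf
    exact ⟨c • v, by rw [map_smul, hv, smul_smul, smul_eq_mul]⟩

end kills

end FreeCx

section twist

variable (p : ℕ) [Fact p.Prime] {k : Type*} [Field k] {R : Type u} [CommRing R] [IsNoetherianRing R]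
  [IsLocalRing R] [Algebra k R] [CharP R p] [Module.Finite k (IsLocalRing.ResidueField R)]

open IsLocalRing

theorem finite_quot_maximalIdeal_pow (N : ℕ) :
    Module.Finite k (R ⧸ maximalIdeal R ^ N) :=
  haveI : Module.Finite k (R ⧸ maximalIdeal R) := ‹Module.Finite k (ResidueField R)›
  finite_quot_pow _ N

/-- Twists have finite-dimensional homology on finite modules. -/
theorem finiteHom_map_frobenius (G : FreeCx R) (hG : G.FiniteHom R k) (e : ℕ) (M : Type*)
    [AddCommGroup M] [Module R M] [Module k M] [IsScalarTower k R M] [Module.Finite R M] :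
    (G.map (iterateFrobenius R p e)).FiniteHom M k := by
  classical
  set L := Finset.univ.sup G.pos
  have hL : G.LengthLE L := fun g => Finset.le_sup (Finset.mem_univ g)
  obtain ⟨N, hN⟩ := FreeCx.exists_pow_kills hG hL
  set I := (G.map (iterateFrobenius R p e)).killsIdeal M
  have hrad : maximalIdeal R ≤ I.radical := fun a ha => by
    refine ⟨N * ((L + 1) * p ^ e), ?_⟩
    have h := G.kills_map (φ := iterateFrobenius R p e) (hN _ (Ideal.pow_mem_pow ha N)) hL M
    rw [_root_.iterateFrobenius_def, ← pow_mul, ← pow_mul] at h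
    exact h
  obtain ⟨N', hN'⟩ := Ideal.exists_pow_le_of_le_radical_of_fg hrad (IsNoetherian.noetherian _)
  have := finite_quot_maximalIdeal_pow (k := k) (R := R) N'
  have : Module.Finite k (R ⧸ I) := finite_quot_of_le hN'
  exact FreeCx.finiteHom_of_kills I fun a ha => ha

theorem le_natCast_of_add_one_le {a : WithBot ℕ∞} {n : ℕ}
    (h : a + 1 ≤ ((n + 1 : ℕ) : WithBot ℕ∞)) : a ≤ (n : WithBot ℕ∞) := by
  induction a using WithBot.recBotCoe with
  | bot => simp
  | coe a =>
    induction a using ENat.recTopCoe with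
    | top =>
      exfalso
      norm_cast at h
    | coe a =>
      norm_cast at h ⊢
      omega

/-- On a module of dimension at most `t` the twisted homology is `O(q ^ t)`. -/
theorem exists_homDim_bound (G : FreeCx R) (hG : G.FiniteHom R k) : ∀ (t : ℕ) (M : Type u)
    [AddCommGroup M] [Module R M] [Module k M] [IsScalarTower k R M] [Module.Finite R M],
    sdim R M ≤ (t : WithBot ℕ∞) → ∃ C : ℕ, ∀ (e : ℕ) (j : ℤ),
      (G.map (iterateFrobenius R p e)).homDim M k j ≤ C * (p ^ e) ^ t := by
  classical
  intro t
  induction t using Nat.strong_induction_on with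
  | _ t iht =>
  intro M _ _ _ _ hfin
  rename_i iM1 iM2
  revert iM1 iM2
  induction hfin using IsNoetherianRing.induction_on_isQuotientEquivQuotientPrime R with
  | subsingleton N =>
    intro _ _ _
    have : Module.Finite k N := Module.Finite.of_finite
    refine ⟨0, fun e j => ((G.map _).dA_le_card N j).trans ?_⟩
    simp [Module.finrank_zero_of_subsingleton]
  | exact N₁ N₂ N₃ f g hf hg hfg h₁ h₃ =>
    intro _ _ hd
    let := Module.compHom N₁ (algebraMap k R)
    let := Module.compHom N₃ (algebraMap k R)
    have : IsScalarTower k R N₁ := IsScalarTower.of_algebraMap_smul fun _ _ => rfl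
    have : IsScalarTower k R N₃ := IsScalarTower.of_algebraMap_smul fun _ _ => rfl
    obtain ⟨C₁, hC₁⟩ := h₁ ((sdim_mono (f.annihilator_le_of_injective hf)).trans hd)
    obtain ⟨C₃, hC₃⟩ := h₃ ((sdim_mono (g.annihilator_le_of_surjective hg)).trans hd)
    refine ⟨C₁ + C₃, fun e j => ((G.map _).homDim_le_add hf hg hfg
      (finiteHom_map_frobenius p G hG e N₁) (finiteHom_map_frobenius p G hG e N₃) j).trans ?_⟩
    rw [add_mul]
    exact Nat.add_le_add (hC₁ e j) (hC₃ e j)
  | quotient N P f =>
    intro _ _ hd
    have hann : Module.annihilator R N = P.asIdeal := by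
      rw [f.annihilator_eq]; exact Ideal.annihilator_quotient
    rw [sdim, hann] at hd
    suffices h : ∃ C : ℕ, ∀ (e : ℕ) (j : ℤ),
        (G.map (iterateFrobenius R p e)).homDim (R ⧸ P.asIdeal) k j ≤ C * (p ^ e) ^ t by
      obtain ⟨C, hC⟩ := h
      exact ⟨C, fun e j => ((G.map _).homDim_congr f j).trans_le (hC e j)⟩
    by_cases hP : P.asIdeal = maximalIdeal R
    · have : Module.Finite k (R ⧸ P.asIdeal) := by
        rw [hP]; exact ‹Module.Finite k (ResidueField R)›
      exact ⟨Fintype.card G.ι * Module.finrank k (R ⧸ P.asIdeal), fun e j =>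
        ((G.map _).dA_le_card _ j).trans
          (Nat.le_mul_of_pos_right _ (pow_pos (pow_pos (Fact.out : p.Prime).pos e) t))⟩
    set L := Finset.univ.sup G.pos
    have hL : G.LengthLE L := fun g => Finset.le_sup (Finset.mem_univ g)
    obtain ⟨N', hN'⟩ := FreeCx.exists_pow_kills hG hL
    obtain ⟨z₀, hz₀, hz₀P⟩ : ∃ z₀ ∈ maximalIdeal R ^ (N' + 1), z₀ ∉ P.asIdeal := by
      by_contra h
      push Not at h
      exact hP (le_antisymm (IsLocalRing.le_maximalIdeal P.isPrime.ne_top)
        (P.isPrime.le_of_pow_le h))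
    have hz₀' : z₀ ∈ maximalIdeal R := Ideal.pow_le_self (Nat.succ_ne_zero N') hz₀
    set z := z₀ ^ (L + 1)
    have hzP : z ∉ P.asIdeal := fun h => hz₀P (P.isPrime.mem_of_pow_mem _ h)
    have h1 := (sdim_quot_prime_step hzP).trans hd
    obtain ⟨t', rfl⟩ : ∃ t', t = t' + 1 := by
      refine ⟨t - 1, ?_⟩
      by_contra hne
      obtain rfl : t = 0 := by omega
      have hne' : P.asIdeal ⊔ Ideal.span {z} ≠ ⊤ := fun h => by
        have hzm : z ∈ maximalIdeal R := Ideal.pow_mem_of_mem _ hz₀' _ L.succ_pos
        exact (maximalIdeal.isMaximal R).ne_top (top_unique (h.ge.trans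
          (sup_le (IsLocalRing.le_maximalIdeal P.isPrime.ne_top)
            ((Ideal.span_singleton_le_iff_mem _).2 hzm))))
      have : Nontrivial (R ⧸ (P.asIdeal ⊔ Ideal.span {z})) := Ideal.Quotient.nontrivial_iff.2 hne'
      have h2 := (add_le_add (ringKrullDim_nonneg_of_nontrivial
        (R := R ⧸ (P.asIdeal ⊔ Ideal.span {z}))) (le_refl (1 : WithBot ℕ∞))).trans h1
      simp at h2
      exact absurd h2 (not_le.2 zero_lt_one)
    set J := fun i : ℕ => P.asIdeal ⊔ Ideal.span {z ^ i} with hJ
    have hJ1 : sdim R (R ⧸ J 1) ≤ (t' : WithBot ℕ∞) := by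
      rw [sdim, Ideal.annihilator_quotient, hJ]
      rw [← pow_one z] at h1
      exact le_natCast_of_add_one_le h1
    obtain ⟨C, hC⟩ := iht t' (Nat.lt_succ_self _) (R ⧸ J 1) hJ1
    refine ⟨C, fun e j => ?_⟩
    set H := G.map (iterateFrobenius R p e)
    have fin : ∀ i, H.FiniteHom (R ⧸ J i) k := fun i => finiteHom_map_frobenius p G hG e _
    -- the homology of `R / J (p ^ e)`
    have hstep : ∀ i, H.homDim (R ⧸ J i) k j ≤ i * (C * (p ^ e) ^ t') := by
      intro i
      induction i with
      | zero =>
        have : Subsingleton (R ⧸ J 0) := Ideal.Quotient.subsingleton_iff.2 (by simp [hJ])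
        have : Module.Finite k (R ⧸ J 0) := Module.Finite.of_finite
        refine (H.dA_le_card _ j).trans ?_
        simp [Module.finrank_zero_of_subsingleton]
      | succ i ih =>
        have hle : J (i + 1) ≤ J 1 := sup_le_sup_left
          (Ideal.span_singleton_le_span_singleton.2 (by simp)) _
        have hmul : J i ≤ Submodule.comap (LinearMap.lsmul R R z) (J (i + 1)) := fun a ha => by
          obtain ⟨b, hb, c, hc, rfl⟩ := Submodule.mem_sup.1 ha
          obtain ⟨c, rfl⟩ := Ideal.mem_span_singleton'.1 hc
          show z * (b + c * z ^ i) ∈ J (i + 1)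
          rw [mul_add, show z * (c * z ^ i) = c * z ^ (i + 1) by ring]
          exact Submodule.add_mem_sup (P.asIdeal.mul_mem_left z hb)
            (Ideal.mem_span_singleton'.2 ⟨c, rfl⟩)
        let fi : (R ⧸ J i) →ₗ[R] (R ⧸ J (i + 1)) := Submodule.mapQ _ _ (LinearMap.lsmul R R z) hmul
        let gi : (R ⧸ J (i + 1)) →ₗ[R] (R ⧸ J 1) := Submodule.factor hle
        have hfi : Function.Injective fi := by
          rw [injective_iff_map_eq_zero]
          intro a ha
          obtain ⟨a, rfl⟩ := Submodule.Quotient.mk_surjective _ a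
          have ha' : z * a ∈ J (i + 1) := (Submodule.Quotient.mk_eq_zero _).1 ha
          obtain ⟨b, hb, c, hc, hbc⟩ := Submodule.mem_sup.1 ha'
          obtain ⟨c, rfl⟩ := Ideal.mem_span_singleton'.1 hc
          rw [Submodule.Quotient.mk_eq_zero]
          refine Submodule.mem_sup.2 ⟨a - c * z ^ i, ?_, c * z ^ i,
            Ideal.mem_span_singleton'.2 ⟨c, rfl⟩, sub_add_cancel _ _⟩
          refine (P.isPrime.mem_or_mem ?_).resolve_left hzP
          rw [show z * (a - c * z ^ i) = b by linear_combination hbc.symm]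
          exact hb
        have hgi : Function.Surjective gi := Submodule.factor_surjective hle
        have hex : Function.Exact fi gi := fun a => by
          obtain ⟨a, rfl⟩ := Submodule.Quotient.mk_surjective _ a
          constructor
          · intro ha
            have ha' : a ∈ J 1 := (Submodule.Quotient.mk_eq_zero _).1 ha
            obtain ⟨b, hb, c, hc, rfl⟩ := Submodule.mem_sup.1 ha'
            rw [pow_one] at hc
            obtain ⟨c, rfl⟩ := Ideal.mem_span_singleton'.1 hc
            refine ⟨Submodule.Quotient.mk c, ?_⟩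
            show Submodule.Quotient.mk (z * c) = Submodule.Quotient.mk (b + c * z)
            rw [Submodule.Quotient.eq, show z * c - (b + c * z) = -b by ring]
            exact neg_mem (Ideal.mem_sup_left hb)
          · rintro ⟨b, hb⟩
            obtain ⟨b, rfl⟩ := Submodule.Quotient.mk_surjective _ b
            rw [← hb]
            show Submodule.Quotient.mk (z * b) = 0
            rw [Submodule.Quotient.mk_eq_zero]
            exact Ideal.mem_sup_right (Ideal.mem_span_singleton'.2 ⟨b, by ring⟩)
        refine (H.homDim_le_add hfi hgi hex (fin i) (fin 1) j).trans ?_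
        rw [add_mul, one_mul]
        exact Nat.add_le_add ih (hC e j)
    -- multiplication by `z ^ q` on `R / P`
    set a := z ^ p ^ e
    let f0 : (R ⧸ P.asIdeal) →ₗ[R] (R ⧸ P.asIdeal) := LinearMap.lsmul R _ a
    let g0 : (R ⧸ P.asIdeal) →ₗ[R] (R ⧸ J (p ^ e)) :=
      Submodule.factor (le_sup_left : P.asIdeal ≤ J (p ^ e))
    have hf0 : Function.Injective f0 := by
      rw [injective_iff_map_eq_zero]
      intro m hm
      obtain ⟨m, rfl⟩ := Submodule.Quotient.mk_surjective _ m
      have hm' : a * m ∈ P.asIdeal := (Submodule.Quotient.mk_eq_zero _).1 hm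
      rw [Submodule.Quotient.mk_eq_zero]
      exact (P.isPrime.mem_or_mem hm').resolve_left
        fun h => hzP (P.isPrime.mem_of_pow_mem _ h)
    have hg0 : Function.Surjective g0 := Submodule.factor_surjective _
    have hex0 : Function.Exact f0 g0 := fun m => by
      obtain ⟨m, rfl⟩ := Submodule.Quotient.mk_surjective _ m
      constructor
      · intro hm
        have hm' : m ∈ J (p ^ e) := (Submodule.Quotient.mk_eq_zero _).1 hm
        obtain ⟨b, hb, c, hc, rfl⟩ := Submodule.mem_sup.1 hm'
        obtain ⟨c, rfl⟩ := Ideal.mem_span_singleton'.1 hc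
        refine ⟨Submodule.Quotient.mk c, ?_⟩
        show Submodule.Quotient.mk (a * c) = Submodule.Quotient.mk (b + c * a)
        rw [Submodule.Quotient.eq, show a * c - (b + c * a) = -b by ring]
        exact neg_mem hb
      · rintro ⟨b, hb⟩
        obtain ⟨b, rfl⟩ := Submodule.Quotient.mk_surjective _ b
        rw [← hb]
        show Submodule.Quotient.mk (a * b) = 0
        rw [Submodule.Quotient.mk_eq_zero]
        exact Ideal.mem_sup_right (Ideal.mem_span_singleton'.2 ⟨b, mul_comm _ _⟩)
    have hk : H.Kills (R ⧸ P.asIdeal) a := by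
      have := G.kills_map (φ := iterateFrobenius R p e) (hN' z₀ (Ideal.pow_le_pow_right (Nat.le_succ N') hz₀)) hL (R ⧸ P.asIdeal)
      rwa [_root_.iterateFrobenius_def] at this
    refine (H.homDim_le_of_kills hf0 hg0 hex0 (fun m => rfl) hk
      (fin _) j).trans ((hstep (p ^ e)).trans (le_of_eq ?_))
    ring

end twist

section torsion

variable {k : Type*} [Field k] {R : Type u} [CommRing R] {V : Type*} [CommRing V] [IsDomain V]
  [Algebra V R] [Module.Finite V R]

omit [IsDomain V] in
/-- A finite extension does not raise the dimension of quotients. -/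
theorem ringKrullDim_quotient_le_of_comap {I : Ideal R} {J : Ideal V}
    (hle : J ≤ I.comap (algebraMap V R)) : ringKrullDim (R ⧸ I) ≤ ringKrullDim (V ⧸ J) := by
  rw [ringKrullDim_quotient, ringKrullDim_quotient]
  refine Order.krullDim_le_of_strictMono
    (fun q => ⟨⟨q.1.asIdeal.comap (algebraMap V R), inferInstance⟩, ?_⟩) ?_
  · rw [PrimeSpectrum.mem_zeroLocus]
    exact hle.trans (Ideal.comap_mono ((PrimeSpectrum.mem_zeroLocus _ _).1 q.2))
  · intro q q' hqq'
    have hlt : q.1.asIdeal < q'.1.asIdeal := hqq'
    obtain ⟨a, ha', ha⟩ := SetLike.exists_of_lt hlt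
    exact Ideal.comap_lt_comap_of_integral_mem_sdiff hlt.le ⟨ha', ha⟩
      (Algebra.IsIntegral.isIntegral a)

omit [IsDomain V] in
/-- Every module over a finite `V`-algebra has dimension at most that of `V`. -/
theorem sdim_le_of_finite {d : ℕ} (hV : ringKrullDim V ≤ (d : WithBot ℕ∞)) (M : Type u)
    [AddCommGroup M] [Module R M] : sdim R M ≤ (d : WithBot ℕ∞) :=
  ((ringKrullDim_quotient_le_of_comap (V := V) (J := ⊥) bot_le).trans
    (ringKrullDim_eq_of_ringEquiv (RingEquiv.quotientBot V)).le).trans hV

/-- A module killed by a nonzero element of `V` has smaller dimension than `V`. -/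
theorem sdim_lt_of_killed {d : ℕ} (hV : ringKrullDim V ≤ (d : WithBot ℕ∞)) (M : Type u)
    [AddCommGroup M] [Module R M] {c : V} (hc : c ≠ 0)
    (hM : ∀ m : M, algebraMap V R c • m = 0) : sdim R M < (d : WithBot ℕ∞) := by
  set I := Module.annihilator R M
  have hle : Ideal.span {c} ≤ I.comap (algebraMap V R) :=
    (Ideal.span_singleton_le_iff_mem _).2 (Module.mem_annihilator.2 hM)
  have h1 := ringKrullDim_quotient_le_of_comap (V := V) hle
  have h2 := (ringKrullDim_quotient_succ_le_of_nonZeroDivisor
    (mem_nonZeroDivisors_of_ne_zero hc)).trans hV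
  exact lt_of_le_of_lt h1 (lt_of_add_one_lt (lt_of_le_of_lt h2 (by exact_mod_cast d.lt_succ_self)))

variable [IsNoetherianRing R] {S : Type u} [CommRing S] [Algebra R S] [Algebra k S]
  [Module.Finite R S] [Module.Flat R S] {y : List S}

/-- The base-changed multiplicity is invariant under maps with torsion kernel and cokernel. -/
theorem emult_baseChange_eq_of_torsion [Module.Finite k (S ⧸ Ideal.ofList y)] {d : ℕ}
    (hV : ringKrullDim V ≤ (d : WithBot ℕ∞)) (hlen : y.length = d) {M N : Type u} [AddCommGroup M]
    [Module R M] [Module.Finite R M] [AddCommGroup N] [Module R N] [Module.Finite R N]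
    (f : M →ₗ[R] N) {c : V} (hc : c ≠ 0) (hker : ∀ m ∈ LinearMap.ker f, algebraMap V R c • m = 0)
    (hcoker : ∀ n : N, algebraMap V R c • n ∈ LinearMap.range f) :
    emult k y (TensorProduct R S M) = emult k y (TensorProduct R S N) := by
  have : IsNoetherianRing S := IsNoetherianRing.of_finite R S
  have h1 : sdim R (LinearMap.ker f) < (y.length : WithBot ℕ∞) :=
    hlen ▸ sdim_lt_of_killed hV _ hc fun m => Subtype.ext (hker m m.2)
  have h2 : sdim R (N ⧸ LinearMap.range f) < (y.length : WithBot ℕ∞) :=
    hlen ▸ sdim_lt_of_killed hV _ hc fun n => by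
      obtain ⟨n, rfl⟩ := Submodule.Quotient.mk_surjective _ n
      rw [← Submodule.Quotient.mk_smul, Submodule.Quotient.mk_eq_zero]
      exact hcoker n
  rw [emult_baseChange_exact (k := k) (y := y) (LinearMap.ker f).subtype f.rangeRestrict
      (Submodule.injective_subtype _) f.surjective_rangeRestrict
      (by rw [LinearMap.exact_iff, LinearMap.ker_rangeRestrict, Submodule.range_subtype]),
    emult_baseChange_exact (k := k) (y := y) (LinearMap.range f).subtype (LinearMap.range f).mkQ
      (Submodule.injective_subtype _) (Submodule.mkQ_surjective _)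
      (LinearMap.exact_subtype_mkQ _),
    emult_baseChange_eq_zero h1, emult_baseChange_eq_zero h2, zero_add, add_zero]

end torsion

end Vale.Agent.P202
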