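import Vale.Agent.P202.HomAlg.Pair

/-!
# P202, general source ring: restricting and shifting differential modules
-/

noncomputable section

namespace Vale.Agent.P202.Diff

variable {k M : Type*}

section

variable [CommRing k] [AddCommGroup M] [Module k M] (D : Diff k M)

/-- The differential on a stable submodule. -/
def restrictTo (X : Submodule k M) (hX : D.Stable X) : Diff k X where
  d := D.d.restrict hX
  deg j := (D.deg j).comap X.subtype
  d_d x := Subtype.ext (D.d_d x)
  d_deg j x hx := D.d_deg j x hx

theorem pairMap_restrictTo (X Y : Submodule k M) (hX : D.Stable X) (hYX : Y ≤ X) :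
    PairMap (D.restrictTo X hX) D X.subtype ⊤ (Y.comap X.subtype) X Y where
  comm _ := rfl
  deg _ _ h := h
  maps x _ := x.2
  surj _ x' hx' hd := ⟨⟨x', hx'⟩, trivial, hd, rfl⟩
  ker _ _ := Iff.rfl
  le := le_top
  le' := hYX
  stable _ _ := trivial

/-- The same differential with positions moved up by `q`. -/
def shiftBy (q : ℤ) : Diff k M where
  d := D.d
  deg j := D.deg (j - q)
  d_d := D.d_d
  d_deg j x hx := by
    rw [sub_right_comm]
    exact D.d_deg (j - q) x hx

/-- Homology after shifting. -/
def shiftByEquiv (q : ℤ) (X Y : Submodule k M) (j : ℤ) :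
    (D.shiftBy q).H X Y j ≃ₗ[k] D.H X Y (j - q) :=
  Submodule.quotEquivOfEq _ _ (by
    simp only [bdries, shiftBy, show j + 1 - q = j - q + 1 by ring]
    rfl)

theorem betti_shiftBy (q : ℤ) (X Y : Submodule k M) (j : ℤ) :
    (D.shiftBy q).betti X Y j = D.betti X Y (j - q) :=
  (D.shiftByEquiv q X Y j).finrank_eq

theorem chi_shiftBy (q : ℤ) (X Y : Submodule k M) :
    (D.shiftBy q).chi X Y = (q.negOnePow : ℤ) * D.chi X Y := by
  rw [chi, chi, mul_finsum _ , ← finsum_comp_equiv (Equiv.addRight q)]
  refine finsum_congr fun j => ?_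
  rw [betti_shiftBy, Equiv.coe_addRight, add_sub_cancel_right, Int.negOnePow_add]
  push_cast
  ring

theorem fin'_shiftBy (q : ℤ) {X Y : Submodule k M} (h : D.Fin' X Y) :
    (D.shiftBy q).Fin' X Y := by
  obtain ⟨N, hN⟩ := h.bounded
  refine ⟨fun j => ?_, N + q.natAbs, fun j hj => ?_⟩
  · have := h.finite (j - q)
    exact Module.Finite.equiv (D.shiftByEquiv q X Y j).symm
  · have := hN (j - q) (by omega)
    exact (D.shiftByEquiv q X Y j).toEquiv.subsingleton

/-- A pair without homology. -/
theorem fin'_of_forall_subsingleton {X Y : Submodule k M} (h : ∀ j, Subsingleton (D.H X Y j)) :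
    D.Fin' X Y :=
  ⟨fun j => by have := h j; infer_instance, 0, fun j _ => h j⟩

end

section

variable [Field k] [AddCommGroup M] [Module k M] (D : Diff k M)
variable {Y X W : Submodule k M}

/-- Subadditivity of the Betti numbers. -/
theorem betti_le_add (hYX : Y ≤ X) (hXW : X ≤ W) (h1 : D.Fin' X Y) (h2 : D.Fin' W X) (j : ℤ) :
    D.betti W Y j ≤ D.betti X Y j + D.betti W X j := by
  have := h1.finite j
  have := h2.finite j
  have := (D.fin'_mid hYX hXW h1 h2).finite j
  rw [betti, finrank_mid _ _ (D.exact_mid hYX hXW j)]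
  exact Nat.add_le_add (LinearMap.finrank_range_le _) (Submodule.finrank_le _)

theorem betti_eq_zero_of_subsingleton {j : ℤ} (h : Subsingleton (D.H X Y j)) :
    D.betti X Y j = 0 :=
  Module.finrank_zero_of_subsingleton

theorem chi_eq_zero_of_subsingleton (h : ∀ j, Subsingleton (D.H X Y j)) : D.chi X Y = 0 := by
  simp [chi, fun j => D.betti_eq_zero_of_subsingleton (h j)]

end

end Vale.Agent.P202.Diff
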