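import Vale.Agent.P202.NC.Coh
import Vale.Agent.P202.NC.DiffTools
import Vale.Agent.P202.HomAlg.Coef

/-!
# P202, general source ring: the filtration of a twisted complex by the resolution degree

The twisted complex is filtered by canonical truncation in the index `q = m - degree`; the graded
pieces are the original complex on the cohomology modules of the transposed resolution, moved up
by `q`, and pieces without homology.
-/

noncomputable section

namespace Vale.Agent.P202.NC

open Matrix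

universe u

variable {A : Type u} [CommRing A] {N : Type u} [AddCommGroup N] [Module A N]
  {R : Type u} [CommRing R] [Algebra A R] [Module R N] [IsScalarTower A R N]

/-- A complex over `R` lifted to the resolution: a square-zero matrix with prescribed components
of level drop zero and one. -/
structure Twist (Φ : Reso A N) (m : ℕ) (G : FreeCx R) where
  M : Matrix (G.ι × Φ.F.ι) (G.ι × Φ.F.ι) A
  Lm : G.ι → G.ι → Matrix Φ.F.ι Φ.F.ι A
  len : Φ.F.LengthLE m
  sq : M * M = 0
  supp : ∀ i a j b, M (i, a) (j, b) ≠ 0 →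
    G.pos j ≤ G.pos i ∧ Φ.F.pos a + G.pos j + 1 = Φ.F.pos b + G.pos i
  block : ∀ i a j b, G.pos i = G.pos j → M (i, a) (j, b) = if i = j then Φ.F.mat a b else 0
  first : ∀ i a j b, G.pos i = G.pos j + 1 → M (i, a) (j, b) = Lm i j a b * (-1) ^ Φ.F.pos b
  lift : ∀ i j, Φ.IsLift (Algebra.lsmul A A N (G.mat j i)) (Lm i j)
  lift_zero : ∀ i j, G.pos i ≠ G.pos j + 1 → Lm i j = 0

namespace Twist

variable {Φ : Reso A N} {m : ℕ} {G : FreeCx R} (T : Twist Φ m G)

/-- The transposed twisted complex. -/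
@[reducible] def cx : FreeCx A where
  ι := G.ι × Φ.F.ι
  pos x := G.pos x.1 + (m - Φ.F.pos x.2)
  mat := T.Mᵀ
  mat_pos := by
    rintro ⟨j, b⟩ ⟨i, a⟩ hne
    have h := T.supp i a j b hne
    have ha := T.len a
    have hb := T.len b
    simp only
    omega
  sq := by rw [← Matrix.transpose_mul, T.sq, Matrix.transpose_zero]

/-- The component of index `q` in row `i`. -/
def cmp (m q : ℕ) (i : G.ι) : (G.ι × Φ.F.ι → A) →ₗ[A] (Φ.F.ι → A) where
  toFun u a := if Φ.F.pos a + q = m then u (i, a) else 0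
  map_add' u u' := by ext a; by_cases h : Φ.F.pos a + q = m <;> simp [h]
  map_smul' c u := by ext a; by_cases h : Φ.F.pos a + q = m <;> simp [h]

omit [Algebra A R] [Module R N] [IsScalarTower A R N] in
theorem cmp_mem_supp (q : ℕ) (i : G.ι) (u : G.ι × Φ.F.ι → A) :
    cmp m q i u ∈ Φ.supp m q := fun _ ha => if_neg ha

/-- No components of index below `q`. -/
def van (Φ : Reso A N) (G : FreeCx R) (m q : ℕ) : Submodule A (G.ι × Φ.F.ι → A) where
  carrier := {u | ∀ i a, m < Φ.F.pos a + q → u (i, a) = 0}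
  add_mem' {u u'} hu hu' i a h := by simp [hu i a h, hu' i a h]
  zero_mem' i a _ := rfl
  smul_mem' c u hu i a h := by simp [hu i a h]

omit [Algebra A R] [Module R N] [IsScalarTower A R N] in
theorem van_succ_le (q : ℕ) : van Φ G m (q + 1) ≤ van Φ G m q := fun u hu i a h =>
  hu i a (by omega)

omit [Algebra A R] [Module R N] [IsScalarTower A R N] in
theorem cmp_eq_zero {q : ℕ} {u : G.ι × Φ.F.ι → A} (hu : u ∈ van Φ G m (q + 1)) (i : G.ι) :
    cmp m q i u = 0 := funext fun a => by
  show (if _ then _ else _) = (0 : A)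
  split_ifs with h
  · exact hu i a (by omega)
  · rfl

/-- The differential in the indices at most `q`. -/
theorem dA_apply_low {q : ℕ} {u : G.ι × Φ.F.ι → A} (hu : u ∈ van Φ G m q) (j : G.ι) (b : Φ.F.ι)
    (hb : m ≤ Φ.F.pos b + q) :
    T.cx.dA A u (j, b) = ∑ a, Φ.F.mat a b * u (j, a) +
      (-1) ^ Φ.F.pos b * ∑ i, ∑ a, T.Lm i j a b * u (i, a) := by
  classical
  rw [FreeCx.dA_apply, Fintype.sum_prod_type, Finset.mul_sum]
  rw [show ∑ a, Φ.F.mat a b * u (j, a) =
    ∑ i, ∑ a, (if i = j then Φ.F.mat a b * u (i, a) else 0) by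
      rw [Finset.sum_comm]
      simp, ← Finset.sum_add_distrib]
  refine Finset.sum_congr rfl fun i _ => ?_
  rw [Finset.mul_sum, ← Finset.sum_add_distrib]
  refine Finset.sum_congr rfl fun a _ => ?_
  show T.M (i, a) (j, b) • u (i, a) = _
  rw [smul_eq_mul]
  by_cases h0 : G.pos i = G.pos j
  · rw [T.block i a j b h0, T.lift_zero i j (by omega)]
    split_ifs <;> simp
  by_cases h1 : G.pos i = G.pos j + 1
  · rw [T.first i a j b h1, if_neg (fun e => h0 (congrArg G.pos e)), zero_add]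
    ring
  rw [T.lift_zero i j h1, if_neg (fun e => h0 (congrArg G.pos e))]
  by_cases hm : T.M (i, a) (j, b) = 0
  · simp [hm]
  · have := T.supp i a j b hm
    rw [hu i a (by omega)]
    simp

theorem dA_mem_van {q : ℕ} {u : G.ι × Φ.F.ι → A} (hu : u ∈ van Φ G m q)
    (hz : ∀ i, Φ.F.matᵀ *ᵥ cmp m q i u = 0) : T.cx.dA A u ∈ van Φ G m q := by
  intro j b hb
  rw [T.dA_apply_low hu j b hb.le]
  have e1 : ∑ a, Φ.F.mat a b * u (j, a) = (Φ.F.matᵀ *ᵥ cmp m q j u) b := by
    refine Finset.sum_congr rfl fun a _ => ?_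
    show _ = Φ.F.mat a b * (if Φ.F.pos a + q = m then u (j, a) else 0)
    by_cases hm : Φ.F.mat a b = 0
    · simp [hm]
    · have := Φ.F.mat_pos a b hm
      split_ifs with h
      · rfl
      · rw [hu j a (by omega)]
  rw [e1, hz j, Pi.zero_apply, zero_add, Finset.sum_eq_zero, mul_zero]
  intro i _
  refine Finset.sum_eq_zero fun a _ => ?_
  by_cases hm : T.Lm i j a b = 0
  · simp [hm]
  · have := (T.lift i j).deg a b hm
    rw [hu i a (by omega), mul_zero]

/-- The component of index `q` of the differential. -/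
theorem cmp_dA {q : ℕ} {u : G.ι × Φ.F.ι → A} (hu : u ∈ van Φ G m q) (j : G.ι) :
    cmp m q j (T.cx.dA A u) = Φ.F.matᵀ *ᵥ cmp m (q + 1) j u +
      (-1 : A) ^ (m + q) • ∑ i, (T.Lm i j)ᵀ *ᵥ cmp m q i u := by
  funext b
  rw [Pi.add_apply, Pi.smul_apply, Finset.sum_apply, smul_eq_mul]
  show (if Φ.F.pos b + q = m then _ else _) = _
  by_cases hb : Φ.F.pos b + q = m
  · rw [if_pos hb, T.dA_apply_low hu j b hb.ge]
    congr 1
    · refine Finset.sum_congr rfl fun a _ => ?_
      show _ = Φ.F.mat a b * (if Φ.F.pos a + (q + 1) = m then u (j, a) else 0)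
      by_cases hm : Φ.F.mat a b = 0
      · simp [hm]
      · have := Φ.F.mat_pos a b hm
        rw [if_pos (by omega)]
    · rw [show m + q = Φ.F.pos b + 2 * q by omega, pow_add, pow_mul]
      simp only [neg_one_sq, one_pow, mul_one]
      congr 1
      refine Finset.sum_congr rfl fun i _ => Finset.sum_congr rfl fun a _ => ?_
      show _ = T.Lm i j a b * (if Φ.F.pos a + q = m then u (i, a) else 0)
      by_cases hm : T.Lm i j a b = 0
      · simp [hm]
      · have := (T.lift i j).deg a b hm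
        rw [if_pos (by omega)]
  · rw [if_neg hb]
    have e1 : (Φ.F.matᵀ *ᵥ cmp m (q + 1) j u) b = 0 := Finset.sum_eq_zero fun a _ => by
      show Φ.F.mat a b * (if Φ.F.pos a + (q + 1) = m then u (j, a) else 0) = 0
      by_cases hm : Φ.F.mat a b = 0
      · simp [hm]
      · have := Φ.F.mat_pos a b hm
        rw [if_neg (by omega), mul_zero]
    have e2 : ∀ i, ((T.Lm i j)ᵀ *ᵥ cmp m q i u) b = 0 := fun i =>
      Φ.transpose_mulVec_mem_supp (δ := 0) (fun h g hne => (T.lift i j).deg h g hne)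
        (cmp_mem_supp q i u) b hb
    simp [e1, e2]

variable (k : Type u) [CommRing k] [Algebra k A]

/-- Cocycle in index `q`, nothing below. -/
def filX (Φ : Reso A N) (G : FreeCx R) (m q : ℕ) : Submodule k (G.ι × Φ.F.ι → A) :=
  (van Φ G m q ⊓ ⨅ i, (Φ.Z m q).comap (cmp m q i)).restrictScalars k

/-- Coboundary in index `q`, nothing below. -/
def filY (Φ : Reso A N) (G : FreeCx R) (m q : ℕ) : Submodule k (G.ι × Φ.F.ι → A) :=
  (van Φ G m q ⊓ ⨅ i, (Φ.B m q).comap (cmp m q i)).restrictScalars k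

omit [Algebra A R] [Module R N] [IsScalarTower A R N] in
theorem mem_filX {q : ℕ} {u : G.ι × Φ.F.ι → A} :
    u ∈ filX k Φ G m q ↔ u ∈ van Φ G m q ∧ ∀ i, cmp m q i u ∈ Φ.Z m q := by
  simp [filX]

omit [Algebra A R] [Module R N] [IsScalarTower A R N] in
theorem mem_filY {q : ℕ} {u : G.ι × Φ.F.ι → A} :
    u ∈ filY k Φ G m q ↔ u ∈ van Φ G m q ∧ ∀ i, cmp m q i u ∈ Φ.B m q := by
  simp [filY]

omit [Algebra A R] [Module R N] [IsScalarTower A R N] in
theorem filY_le (q : ℕ) : filY k Φ G m q ≤ filX k Φ G m q := fun u hu => by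
  rw [mem_filX]
  rw [mem_filY] at hu
  exact ⟨hu.1, fun i => Φ.B_le_Z m q (hu.2 i)⟩

omit [Algebra A R] [Module R N] [IsScalarTower A R N] in
theorem filX_succ_le (q : ℕ) : filX k Φ G m (q + 1) ≤ filY k Φ G m q := fun u hu => by
  rw [mem_filX] at hu
  rw [mem_filY]
  exact ⟨van_succ_le q hu.1, fun i => by rw [cmp_eq_zero hu.1]; exact zero_mem _⟩

theorem mem_ker_of_mem_Z {q : ℕ} {w : Φ.F.ι → A} (hw : w ∈ Φ.Z m q) : Φ.F.matᵀ *ᵥ w = 0 := by
  have h := hw.2
  rwa [SetLike.mem_coe, LinearMap.mem_ker, Matrix.mulVecLin_apply] at h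

theorem stable_filX (q : ℕ) : (T.cx.diff A k).Stable (filX k Φ G m q) := by
  intro u hu
  rw [mem_filX] at hu ⊢
  refine ⟨T.dA_mem_van hu.1 fun i => mem_ker_of_mem_Z (hu.2 i), fun j => ?_⟩
  rw [FreeCx.diff_d_apply, T.cmp_dA hu.1]
  refine add_mem (Φ.B_le_Z m q ?_) (Submodule.smul_mem _ _ (sum_mem fun i _ =>
    (T.lift i j).transpose_mem_Z (hu.2 i)))
  exact ⟨_, cmp_mem_supp (q + 1) j u, rfl⟩

/-- Removing a coboundary component. -/
theorem sub_mem_filX_succ {q : ℕ} {u w : G.ι × Φ.F.ι → A} (hu : u ∈ van Φ G m q)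
    (hud : T.cx.dA A u ∈ van Φ G m (q + 1)) (hw : w ∈ van Φ G m (q + 1))
    (hwu : ∀ i, Φ.F.matᵀ *ᵥ cmp m (q + 1) i w = cmp m q i u) :
    u - T.cx.dA A w ∈ filX k Φ G m (q + 1) := by
  have hw0 : ∀ i, cmp m q i w = 0 := cmp_eq_zero hw
  have hdw : T.cx.dA A w ∈ van Φ G m q := T.dA_mem_van (van_succ_le q hw) fun i => by
    rw [hw0]; simp
  have hwc : ∀ i, cmp m q i (T.cx.dA A w) = cmp m q i u := by
    intro i
    rw [T.cmp_dA (van_succ_le q hw), hwu]
    simp [hw0]
  have hyvan : u - T.cx.dA A w ∈ van Φ G m (q + 1) := by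
    intro i a h
    by_cases he : Φ.F.pos a + q = m
    · have := congrFun (hwc i) a
      change (if _ then _ else _) = (if _ then _ else _) at this
      rw [if_pos he, if_pos he] at this
      simp [this]
    · simp [hu i a (by omega), hdw i a (by omega)]
  rw [mem_filX]
  refine ⟨hyvan, fun i => ⟨cmp_mem_supp _ i _, ?_⟩⟩
  rw [SetLike.mem_coe, LinearMap.mem_ker, Matrix.mulVecLin_apply]
  have hd : T.cx.dA A (u - T.cx.dA A w) = T.cx.dA A u := by
    rw [map_sub, FreeCx.dA_dA, sub_zero]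
  have h1 := T.cmp_dA (van_succ_le q hyvan) i
  rw [hd, cmp_eq_zero hud] at h1
  simp only [cmp_eq_zero hyvan, Matrix.mulVec_zero, Finset.sum_const_zero, smul_zero,
    add_zero] at h1
  exact h1.symm

theorem subsingleton_filY (q : ℕ) (j : ℤ) :
    Subsingleton ((T.cx.diff A k).H (filY k Φ G m q) (filX k Φ G m (q + 1)) j) := by
  classical
  refine Submodule.Quotient.subsingleton_iff.2 (eq_top_iff.2 fun x _ => ?_)
  obtain ⟨u, hu⟩ := x
  rw [Submodule.mem_comap, Submodule.subtype_apply]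
  obtain ⟨huY, hud, hudX⟩ := (Diff.mem_cycles _).1 hu
  rw [mem_filY] at huY
  choose v hv hv' using huY.2
  let w : G.ι × Φ.F.ι → A := fun x => if (G.pos x.1 : ℤ) + q = j then v x.1 x.2 else 0
  have hwvan : w ∈ van Φ G m (q + 1) := fun i a h => by
    show (if _ then _ else _) = (0 : A)
    split_ifs
    · exact hv i a (by omega)
    · rfl
  have hw0 : ∀ i, cmp m q i w = 0 := cmp_eq_zero hwvan
  have hw1 : ∀ i, Φ.F.matᵀ *ᵥ cmp m (q + 1) i w = cmp m q i u := by
    intro i
    by_cases hi : (G.pos i : ℤ) + q = j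
    · have hv'' : Φ.F.matᵀ *ᵥ v i = cmp m q i u := hv' i
      rw [← hv'']
      congr 1
      funext a
      show (if Φ.F.pos a + (q + 1) = m then w (i, a) else 0) = v i a
      split_ifs with h
      · exact if_pos hi
      · exact (hv i a h).symm
    · have e1 : cmp m (q + 1) i w = 0 := funext fun a => by
        show (if Φ.F.pos a + (q + 1) = m then w (i, a) else 0) = 0
        simp [w, hi]
      have e2 : cmp m q i u = 0 := funext fun a => by
        show (if Φ.F.pos a + q = m then u (i, a) else 0) = 0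
        split_ifs with h
        · refine hud (i, a) ?_
          show ((G.pos i + (m - Φ.F.pos a) : ℕ) : ℤ) ≠ j
          omega
        · rfl
      rw [e1, e2, Matrix.mulVec_zero]
  have hwd : w ∈ (T.cx.diff A k).deg (j + 1) := by
    rintro ⟨i, a⟩ hne
    show (if (G.pos i : ℤ) + q = j then v i a else 0) = (0 : A)
    split_ifs with hi
    · by_contra hc
      have h2 : Φ.F.pos a + (q + 1) = m := by_contra fun h => hc (hv i a h)
      change ((G.pos i + (m - Φ.F.pos a) : ℕ) : ℤ) ≠ j + 1 at hne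
      omega
    · rfl
  refine (Diff.mem_bdries _).2 ⟨w, ⟨?_, hwd⟩, u - T.cx.dA A w, ⟨?_, ?_⟩, ?_⟩
  · rw [mem_filY]
    exact ⟨van_succ_le q hwvan, fun i => by rw [hw0]; exact zero_mem _⟩
  · exact T.sub_mem_filX_succ k huY.1 ((mem_filX k).1 hudX).1 hwvan hw1
  · have := (T.cx.diff A k).d_deg _ _ hwd
    rw [add_sub_cancel_right] at this
    exact Submodule.sub_mem _ hud this
  · rw [FreeCx.diff_d_apply]
    abel

variable [Algebra k R] [IsScalarTower k A R]

/-- The class in index `q`, with the sign twist. -/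
def clsMap (q : ℕ) : filX k Φ G m q →ₗ[k] (G.ι → Coh R Φ m q) where
  toFun u i := (-1 : A) ^ ((m + q) * G.pos i) •
    Coh.mk ⟨cmp m q i u.1, ((mem_filX k).1 u.2).2 i⟩
  map_add' u v := funext fun i => by
    rw [Pi.add_apply, ← smul_add, ← map_add]
    congr 2
    exact Subtype.ext (map_add (cmp m q i) _ _)
  map_smul' c u := funext fun i => by
    rw [RingHom.id_apply, Pi.smul_apply, smul_comm c]
    congr 1
    rw [← LinearMap.map_smul_of_tower]
    congr 1
    exact Subtype.ext ((cmp m q i).map_smul_of_tower c u.1)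

theorem neg_one_mul_self (n : ℕ) : ((-1 : A) ^ n) * (-1) ^ n = 1 := by
  rw [← pow_add, ← two_mul, pow_mul]
  simp

theorem pairMap_cls (q : ℕ) :
    Diff.PairMap ((T.cx.diff A k).restrictTo _ (T.stable_filX k q))
      ((G.diff (Coh R Φ m q) k).shiftBy q) (clsMap k q) ⊤
      ((filY k Φ G m q).comap (filX k Φ G m q).subtype) ⊤ ⊥ where
  comm u := by
    obtain ⟨u, hu⟩ := u
    have hu' := (mem_filX k).1 hu
    funext j
    show (-1 : A) ^ ((m + q) * G.pos j) • Coh.mk (R := R) (Φ := Φ) (m := m) (p := q)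
        ⟨cmp m q j (T.cx.dA A u), ((mem_filX k).1 (T.stable_filX k q u hu)).2 j⟩ =
      ∑ i, G.mat j i • ((-1 : A) ^ ((m + q) * G.pos i) • Coh.mk (R := R) (Φ := Φ) (m := m) (p := q)
        ⟨cmp m q i u, hu'.2 i⟩)
    have hB : Φ.F.matᵀ *ᵥ cmp m (q + 1) j u ∈ Φ.B m q := ⟨_, cmp_mem_supp (q + 1) j u, rfl⟩
    have he : (⟨cmp m q j (T.cx.dA A u),
        ((mem_filX k).1 (T.stable_filX k q u hu)).2 j⟩ : Φ.Z m q) =
        ⟨_, Φ.B_le_Z m q hB⟩ + (-1 : A) ^ (m + q) •
          ∑ i, ⟨(T.Lm i j)ᵀ *ᵥ cmp m q i u, (T.lift i j).transpose_mem_Z (hu'.2 i)⟩ := by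
      refine Subtype.ext ?_
      simp only [Submodule.coe_add, Submodule.coe_smul, Submodule.coe_sum]
      exact T.cmp_dA hu'.1 j
    erw [he]
    rw [map_add, map_smul, map_sum, Coh.mk_eq_zero.2 hB, zero_add, smul_smul, Finset.smul_sum]
    refine Finset.sum_congr rfl fun i _ => ?_
    show _ = G.mat j i • ((-1 : A) ^ ((m + q) * G.pos i) • Coh.mk _)
    rw [smul_comm, Coh.smul_mk (T.lift i j)]
    by_cases hp : G.pos i = G.pos j + 1
    · rw [hp, ← pow_add, mul_add, mul_one]
    · have : Coh.mk (R := R) (⟨(T.Lm i j)ᵀ *ᵥ cmp m q i u,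
          (T.lift i j).transpose_mem_Z (hu'.2 i)⟩ : Φ.Z m q) = 0 := by
        rw [Coh.mk_eq_zero]
        simp [T.lift_zero i j hp]
      rw [this, smul_zero, smul_zero]
  deg j u hu i hi := by
    show (-1 : A) ^ ((m + q) * G.pos i) • Coh.mk (R := R) (Φ := Φ) (m := m) (p := q)
      ⟨cmp m q i u.1, ((mem_filX k).1 u.2).2 i⟩ = 0
    convert smul_zero ((-1 : A) ^ ((m + q) * G.pos i))
    rw [Coh.mk_eq_zero]
    convert Submodule.zero_mem (Φ.B m q)
    funext a
    show (if Φ.F.pos a + q = m then _ else _) = (0 : A)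
    split_ifs with h
    · refine hu (i, a) ?_
      show ((G.pos i + (m - Φ.F.pos a) : ℕ) : ℤ) ≠ j
      omega
    · rfl
  maps _ _ := trivial
  surj j x _ hx := by
    classical
    choose w hw using fun i => Coh.mk_surjective (R := R) ((-1 : A) ^ ((m + q) * G.pos i) • x i)
    let u : G.ι × Φ.F.ι → A := fun p => if (G.pos p.1 : ℤ) + q = j then (w p.1).1 p.2 else 0
    have hc : ∀ i, cmp m q i u = if (G.pos i : ℤ) + q = j then (w i).1 else 0 := fun i =>
      funext fun a => by
        show (if Φ.F.pos a + q = m then u (i, a) else 0) = _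
        by_cases hi : (G.pos i : ℤ) + q = j
        · simp only [u, hi, if_true]
          split_ifs with h
          · rfl
          · exact ((w i).2.1 a h).symm
        · simp [u, hi]
    have hu : u ∈ filX k Φ G m q := (mem_filX k).2 ⟨fun i a h => by
        show (if _ then _ else _) = (0 : A)
        split_ifs
        · exact (w i).2.1 a (by omega)
        · rfl, fun i => by
        rw [hc]
        split_ifs
        · exact (w i).2
        · exact zero_mem _⟩
    refine ⟨⟨u, hu⟩, trivial, ?_, funext fun i => ?_⟩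
    · rintro ⟨i, a⟩ hne
      change ((G.pos i + (m - Φ.F.pos a) : ℕ) : ℤ) ≠ j at hne
      show (if (G.pos i : ℤ) + q = j then (w i).1 a else 0) = (0 : A)
      split_ifs with hi
      · refine (w i).2.1 a fun h => hne ?_
        omega
      · rfl
    · show (-1 : A) ^ _ • Coh.mk _ = x i
      by_cases hi : (G.pos i : ℤ) + q = j
      · rw [show (⟨cmp m q i u, ((mem_filX k).1 hu).2 i⟩ : Φ.Z m q) = w i from
          Subtype.ext ((hc i).trans (if_pos hi)), hw, smul_smul, neg_one_mul_self, one_smul]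
      · rw [hx i (by omega), show (⟨cmp m q i u, ((mem_filX k).1 hu).2 i⟩ : Φ.Z m q) = 0 from
          Subtype.ext ((hc i).trans (if_neg hi)), map_zero, smul_zero]
  ker u _ := by
    obtain ⟨u, hu⟩ := u
    have hu' := (mem_filX k).1 hu
    rw [Submodule.mem_bot, Submodule.mem_comap, Submodule.subtype_apply, mem_filY, funext_iff]
    have key : ∀ (n : ℕ) (y : Coh R Φ m q), (-1 : A) ^ n • y = 0 ↔ y = 0 := fun n y =>
      ⟨fun h => by simpa [smul_smul, neg_one_mul_self] using congrArg ((-1 : A) ^ n • ·) h,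
        fun h => by rw [h, smul_zero]⟩
    exact ⟨fun h => ⟨hu'.1, fun i => Coh.mk_eq_zero.1 ((key _ _).1 (h i))⟩,
      fun h i => (key _ _).2 (Coh.mk_eq_zero.2 (h.2 i))⟩
  le := le_top
  le' := bot_le
  stable _ _ := trivial

omit [Algebra k R] [IsScalarTower k A R] in
include T in
theorem filX_zero : filX k Φ G m 0 = ⊤ := by
  refine eq_top_iff.2 fun u _ => (mem_filX k).2 ⟨fun i a h => absurd h ?_, fun i =>
    ⟨cmp_mem_supp 0 i u, ?_⟩⟩
  · exact not_lt.2 (T.len a)
  · rw [SetLike.mem_coe, LinearMap.mem_ker, Matrix.mulVecLin_apply]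
    funext b
    refine Finset.sum_eq_zero fun a _ => ?_
    show Φ.F.mat a b * (if Φ.F.pos a + 0 = m then u (i, a) else 0) = 0
    by_cases hm : Φ.F.mat a b = 0
    · simp [hm]
    · have := Φ.F.mat_pos a b hm
      have := T.len b
      rw [if_neg (by omega), mul_zero]

omit [Algebra A R] [Module R N] [IsScalarTower A R N] [Algebra k R] [IsScalarTower k A R] in
theorem filX_top : filX k Φ G m (m + 1) = ⊥ := by
  refine eq_bot_iff.2 fun u hu => ?_
  rw [Submodule.mem_bot]
  exact funext fun x => ((mem_filX k).1 hu).1 x.1 x.2 (by omega)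

section Kills

/-- An element killing the graded pieces kills the total complex, raised to their number. -/
theorem kills (w : A) (hw : ∀ q ≤ m, G.Kills (Coh R Φ m q) (algebraMap A R w)) :
    T.cx.Kills A (w ^ (m + 1)) := by
  classical
  have one_step : ∀ q ≤ m, ∀ u ∈ filX A Φ G m q, T.cx.dA A u = 0 →
      ∃ v, w • u - T.cx.dA A v ∈ filX A Φ G m (q + 1) := by
    intro q hq u hu hdu
    have hcomm := (T.pairMap_cls A q).comm ⟨u, hu⟩
    have hz : G.dA (Coh R Φ m q) (clsMap A q ⟨u, hu⟩) = 0 := by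
      refine hcomm.symm.trans ?_
      rw [show ((T.cx.diff A A).restrictTo _ (T.stable_filX A q)).d ⟨u, hu⟩ = 0 from
        Subtype.ext hdu, map_zero]
    obtain ⟨y, hy⟩ := hw q hq _ hz
    choose z hz' using fun i =>
      Coh.mk_surjective (R := R) ((-1 : A) ^ ((m + q) * G.pos i) • y i)
    let u' : G.ι × Φ.F.ι → A := fun x => (z x.1).1 x.2
    have hc : ∀ i, cmp m q i u' = (z i).1 := fun i => funext fun a => by
      show (if Φ.F.pos a + q = m then u' (i, a) else 0) = _
      split_ifs with h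
      · rfl
      · exact ((z i).2.1 a h).symm
    have hu' : u' ∈ filX A Φ G m q := (mem_filX A).2
      ⟨fun i a h => (z i).2.1 a (by omega), fun i => by rw [hc]; exact (z i).2⟩
    have hcls : clsMap A q ⟨u', hu'⟩ = y := funext fun i => by
      show (-1 : A) ^ ((m + q) * G.pos i) • Coh.mk _ = y i
      rw [show (⟨cmp m q i u', ((mem_filX A).1 hu').2 i⟩ : Φ.Z m q) = z i from Subtype.ext (hc i),
        hz', smul_smul, neg_one_mul_self, one_smul]
    set x : filX A Φ G m q := w • ⟨u, hu⟩ -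
      ((T.cx.diff A A).restrictTo _ (T.stable_filX A q)).d ⟨u', hu'⟩ with hx
    have hxcls : clsMap A q x = 0 := by
      rw [hx, map_sub, map_smul, (T.pairMap_cls A q).comm, hcls, sub_eq_zero]
      refine Eq.trans ?_ hy.symm
      funext i
      exact (algebraMap_smul R w (clsMap (R := R) A q ⟨u, hu⟩ i)).symm
    have hxY : x.1 ∈ filY A Φ G m q :=
      ((T.pairMap_cls A q).ker x trivial).1 ((Submodule.mem_bot A).2 hxcls)
    rw [mem_filY] at hxY
    choose v hv hv' using hxY.2
    let w' : G.ι × Φ.F.ι → A := fun p => v p.1 p.2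
    have hw' : ∀ i, cmp m (q + 1) i w' = v i := fun i => funext fun a => by
      show (if Φ.F.pos a + (q + 1) = m then w' (i, a) else 0) = _
      split_ifs with h
      · rfl
      · exact (hv i a h).symm
    refine ⟨u' + w', ?_⟩
    have h := T.sub_mem_filX_succ A (u := x.1) (w := w') hxY.1
      (by
        show T.cx.dA A (w • u - T.cx.dA A u') ∈ _
        rw [map_sub, map_smul, hdu, FreeCx.dA_dA, smul_zero, sub_zero]
        exact zero_mem _)
      (fun i a ha => hv i a (by omega)) (fun i => by rw [hw']; exact hv' i)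
    convert h using 1
    show w • u - T.cx.dA A (u' + w') = w • u - T.cx.dA A u' - T.cx.dA A w'
    rw [map_add]
    abel
  intro f hf
  suffices key : ∀ n ≤ m + 1, ∃ v, w ^ n • f - T.cx.dA A v ∈ filX A Φ G m n by
    obtain ⟨v, hv⟩ := key (m + 1) le_rfl
    rw [filX_top, Submodule.mem_bot, sub_eq_zero] at hv
    exact ⟨v, hv.symm⟩
  intro n
  induction n with
  | zero => exact fun _ => ⟨0, by rw [filX_zero T]; trivial⟩
  | succ n ih =>
    intro hn
    obtain ⟨v, hv⟩ := ih (by omega)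
    obtain ⟨v', hv'⟩ := one_step n (by omega) _ hv
      (by rw [map_sub, map_smul, hf, FreeCx.dA_dA, smul_zero, sub_zero])
    refine ⟨w • v + v', ?_⟩
    convert hv' using 1
    rw [map_add, map_smul, smul_sub, smul_smul, pow_succ', sub_sub]

end Kills

end Twist

section Count

variable {Φ : Reso A N} {m : ℕ} {G : FreeCx R} (T : Twist Φ m G)
  {k : Type u} [Field k] [Algebra k A] [Algebra k R] [IsScalarTower k A R]

/-- Homology of the twisted complex from the original complex on the cohomology modules. -/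
theorem Twist.homology (hG : ∀ q ≤ m, G.FiniteHom (Coh R Φ m q) k) :
    T.cx.FiniteHom A k ∧
      (∀ j : ℤ, T.cx.homDim A k j ≤
        ∑ q ∈ Finset.range (m + 1), G.homDim (Coh R Φ m q) k (j - q)) ∧
      T.cx.chi A k = ∑ q ∈ Finset.range (m + 1), (-1) ^ q * G.chi (Coh R Φ m q) k := by
  set D := T.cx.diff A k with hD
  have piece : ∀ q ≤ m, D.Fin' (Twist.filX k Φ G m q) (Twist.filY k Φ G m q) ∧
      (∀ j : ℤ, D.betti (Twist.filX k Φ G m q) (Twist.filY k Φ G m q) j =
        G.homDim (Coh R Φ m q) k (j - q)) ∧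
      D.chi (Twist.filX k Φ G m q) (Twist.filY k Φ G m q) =
        (-1) ^ q * G.chi (Coh R Φ m q) k := by
    intro q hq
    have h1 := D.pairMap_restrictTo _ _ (T.stable_filX k q) (Twist.filY_le k q)
    have h2 := T.pairMap_cls k q
    have hf := (G.fin'_iff_finiteHom k (Coh R Φ m q)).2 (hG q hq)
    refine ⟨h1.fin'_iff.2 (h2.fin'_iff.1 (Diff.fin'_shiftBy _ q hf)), fun j => ?_, ?_⟩
    · rw [h1.betti_eq, ← h2.betti_eq, Diff.betti_shiftBy]
      rfl
    · rw [h1.chi_eq, ← h2.chi_eq, Diff.chi_shiftBy, Int.coe_negOnePow_natCast]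
      rfl
  suffices key : ∀ n ≤ m + 1, D.Fin' (Twist.filX k Φ G m 0) (Twist.filX k Φ G m n) ∧
      (∀ j : ℤ, D.betti (Twist.filX k Φ G m 0) (Twist.filX k Φ G m n) j ≤
        ∑ q ∈ Finset.range n, G.homDim (Coh R Φ m q) k (j - q)) ∧
      D.chi (Twist.filX k Φ G m 0) (Twist.filX k Φ G m n) =
        ∑ q ∈ Finset.range n, (-1) ^ q * G.chi (Coh R Φ m q) k ∧
      Twist.filX k Φ G m n ≤ Twist.filX k Φ G m 0 by
    obtain ⟨h1, h2, h3, -⟩ := key (m + 1) le_rfl
    rw [Twist.filX_zero T k, Twist.filX_top k] at h1 h2 h3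
    exact ⟨(T.cx.fin'_iff_finiteHom k A).1 h1, h2, h3⟩
  intro n
  induction n with
  | zero =>
    intro _
    have hs : ∀ j, Subsingleton (D.H (Twist.filX k Φ G m 0) (Twist.filX k Φ G m 0) j) := by
      intro j
      refine Submodule.Quotient.subsingleton_iff.2 (eq_top_iff.2 fun x _ => ?_)
      obtain ⟨h1, h2, -⟩ := (Diff.mem_cycles _).1 x.2
      exact (Diff.mem_bdries _).2 ⟨0, ⟨zero_mem _, zero_mem _⟩, x.1, ⟨h1, h2⟩, by simp⟩
    refine ⟨D.fin'_of_forall_subsingleton hs, fun j => ?_, ?_, le_rfl⟩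
    · rw [D.betti_eq_zero_of_subsingleton (hs j)]
      exact Nat.zero_le _
    · rw [D.chi_eq_zero_of_subsingleton hs, Finset.sum_range_zero]
  | succ n ih =>
    intro hn
    obtain ⟨f1, b1, c1, l1⟩ := ih (by omega)
    obtain ⟨f2, b2, c2⟩ := piece n (by omega)
    have s3 := T.subsingleton_filY k n
    have l2 := Twist.filY_le (Φ := Φ) (G := G) (m := m) k n
    have l3 := Twist.filX_succ_le (Φ := Φ) (G := G) (m := m) k n
    have f3 := D.fin'_of_forall_subsingleton s3
    have f23 := D.fin'_mid l3 l2 f3 f2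
    refine ⟨D.fin'_mid (l3.trans l2) l1 f23 f1, fun j => ?_, ?_, (l3.trans l2).trans l1⟩
    · refine (D.betti_le_add (l3.trans l2) l1 f23 f1 j).trans ?_
      rw [Finset.sum_range_succ, add_comm (D.betti _ _ j)]
      refine Nat.add_le_add (b1 j) ?_
      refine (D.betti_le_add l3 l2 f3 f2 j).trans ?_
      rw [D.betti_eq_zero_of_subsingleton (s3 j), zero_add, b2]
    · rw [D.chi_add (l3.trans l2) l1 f23 f1, D.chi_add l3 l2 f3 f2,
        D.chi_eq_zero_of_subsingleton s3, c1, c2, Finset.sum_range_succ]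
      ring

end Count

end Vale.Agent.P202.NC
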