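import Vale.Agent.P202.NC.Reso

/-!
# P202, general source ring: lifting a complex of endomorphisms to a perturbed resolution

A square-zero matrix of endomorphisms of `N`, lowering a level by one, with lifts in a high power
of an ideal, lifts to a square-zero matrix on the free resolution: the term dropping the level by
`s` lies in the `s K`-th power. The uniform loss is an Artin-Rees number of the resolution.
-/

noncomputable section

namespace Vale.Agent.P202.NC

open Matrix Polynomial

universe u

variable {A : Type u} [CommRing A] {N : Type u} [AddCommGroup N] [Module A N] (Φ : Reso A N)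

namespace Reso

theorem mem_smul_top_of_entries {ι ι' : Type*} [Fintype ι] [Fintype ι'] {J : Ideal A}
    {X : Matrix ι ι' A} (hX : ∀ h g, X h g ∈ J) : X ∈ J • (⊤ : Submodule A (Matrix ι ι' A)) := by
  classical
  rw [Matrix.matrix_eq_sum_single X]
  refine Submodule.sum_mem _ fun h _ => Submodule.sum_mem _ fun g _ => ?_
  rw [show Matrix.single h g (X h g) = X h g • Matrix.single h g (1 : A) by simp]
  exact Submodule.smul_mem_smul (hX h g) Submodule.mem_top

theorem entries_of_mem_smul {ι ι' : Type*} {J : Ideal A} {S : Submodule A (Matrix ι ι' A)}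
    {X : Matrix ι ι' A} (hX : X ∈ J • S) (h : ι) (g : ι') : X h g ∈ J := by
  refine Submodule.smul_induction_on hX (fun a ha Y _ => ?_) (fun Y Z hY hZ => ?_)
  · exact J.mul_mem_right _ ha
  · exact J.add_mem hY hZ

/-- Matrices raising the position by `δ`. -/
def degMat (δ : ℕ) : Submodule A (Matrix Φ.F.ι Φ.F.ι A) where
  carrier := {ψ | ∀ h g, ψ h g ≠ 0 → Φ.F.pos h = Φ.F.pos g + δ}
  add_mem' {ψ ψ'} hψ hψ' h g hne := by
    by_cases e : ψ h g = 0
    · exact hψ' h g (by simpa [e] using hne)
    · exact hψ h g e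
  zero_mem' h g hne := absurd rfl hne
  smul_mem' a ψ hψ h g hne := hψ h g fun e => hne (by simp [e])

/-- The anticommutator with the differential. -/
def anti : Matrix Φ.F.ι Φ.F.ι A →ₗ[A] Matrix Φ.F.ι Φ.F.ι A where
  toFun ψ := Φ.F.mat * ψ + ψ * Φ.F.mat
  map_add' ψ ψ' := by rw [Matrix.mul_add, Matrix.add_mul]; abel
  map_smul' a ψ := by rw [Matrix.mul_smul, Matrix.smul_mul, smul_add]; rfl

/-- Null-homotopies with a uniform loss in the powers of an ideal. -/
theorem exists_artinRees [IsNoetherianRing A] (I : Ideal A) (L : ℕ) :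
    ∃ c, ∀ t ≤ L, ∀ n, c ≤ n → ∀ φ : Matrix Φ.F.ι Φ.F.ι A,
      (∀ h g, φ h g ≠ 0 → Φ.F.pos h = Φ.F.pos g + t) → Φ.F.mat * φ = φ * Φ.F.mat →
      (∀ g, Φ.ε (fun h => φ h g) = 0) → (∀ h g, φ h g ∈ I ^ n) →
      ∃ ψ : Matrix Φ.F.ι Φ.F.ι A, (∀ h g, ψ h g ≠ 0 → Φ.F.pos h = Φ.F.pos g + (t + 1)) ∧
        (∀ h g, ψ h g ∈ I ^ (n - c)) ∧ φ = Φ.F.mat * ψ + ψ * Φ.F.mat := by
  have hk := fun t => Ideal.exists_pow_inf_eq_pow_smul I ((Φ.degMat (t + 1)).map Φ.anti)
  choose c hc using hk
  refine ⟨(Finset.range (L + 1)).sup c, fun t ht n hn φ hdeg hcomm hε hmem => ?_⟩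
  have hct : c t ≤ (Finset.range (L + 1)).sup c :=
    Finset.le_sup (Finset.mem_range.2 (Nat.lt_succ_of_le ht))
  obtain ⟨ψ₀, h0, e0⟩ := Φ.exists_anticomm t φ hdeg hcomm hε
  have h1 : φ ∈ I ^ n • ⊤ ⊓ (Φ.degMat (t + 1)).map Φ.anti :=
    ⟨mem_smul_top_of_entries hmem, ψ₀, h0, e0.symm⟩
  rw [hc t n (by omega)] at h1
  have h2 : φ ∈ (I ^ (n - c t) • Φ.degMat (t + 1)).map Φ.anti := by
    rw [Submodule.map_smul'']
    exact Submodule.smul_mono le_rfl inf_le_right h1
  obtain ⟨ψ, hψ, e⟩ := h2
  exact ⟨ψ, (Submodule.smul_le_right hψ : ψ ∈ Φ.degMat (t + 1)), fun h g =>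
    Ideal.pow_le_pow_right (by omega) (entries_of_mem_smul hψ h g), e.symm⟩

end Reso

section Nested

variable {ι : Type} (lev : ι → ℕ)

/-- Block matrices lowering the level by `s` and the total degree by `t`. -/
def Graded (t s : ℕ) (X : Matrix ι ι (Matrix Φ.F.ι Φ.F.ι A)) : Prop :=
  ∀ i j h g, X i j h g ≠ 0 → lev i = lev j + s ∧ Φ.F.pos h + t = Φ.F.pos g + s

variable {Φ lev}

theorem Graded.sum {κ : Type*} {S : Finset κ} {t s : ℕ}
    {X : κ → Matrix ι ι (Matrix Φ.F.ι Φ.F.ι A)} (hX : ∀ a ∈ S, Graded Φ lev t s (X a)) :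
    Graded Φ lev t s (∑ a ∈ S, X a) := by
  intro i j h g hne
  simp only [Matrix.sum_apply] at hne
  obtain ⟨a, ha, hne⟩ := Finset.exists_ne_zero_of_sum_ne_zero hne
  exact hX a ha i j h g hne

variable [Fintype ι]

theorem Graded.mul {t s t' s' : ℕ} {X Y : Matrix ι ι (Matrix Φ.F.ι Φ.F.ι A)}
    (hX : Graded Φ lev t s X) (hY : Graded Φ lev t' s' Y) :
    Graded Φ lev (t + t') (s + s') (X * Y) := by
  intro i j h g hne
  rw [Matrix.mul_apply, Matrix.sum_apply] at hne
  obtain ⟨l, -, hl⟩ := Finset.exists_ne_zero_of_sum_ne_zero hne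
  rw [Matrix.mul_apply] at hl
  obtain ⟨a, -, ha⟩ := Finset.exists_ne_zero_of_sum_ne_zero hl
  have h1 := hX i l h a (left_ne_zero_of_mul ha)
  have h2 := hY l j a g (right_ne_zero_of_mul ha)
  omega

theorem mul_entries_mem {I : Ideal A} {n n' : ℕ} {X Y : Matrix ι ι (Matrix Φ.F.ι Φ.F.ι A)}
    (hX : ∀ i j h g, X i j h g ∈ I ^ n) (hY : ∀ i j h g, Y i j h g ∈ I ^ n') (i j : ι)
    (h g : Φ.F.ι) : (X * Y) i j h g ∈ I ^ (n + n') := by
  rw [Matrix.mul_apply, Matrix.sum_apply]
  refine Ideal.sum_mem _ fun l _ => ?_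
  rw [Matrix.mul_apply, pow_add]
  exact Ideal.sum_mem _ fun a _ => Ideal.mul_mem_mul (hX i l h a) (hY l j a g)

end Nested

/-- The perturbed differential. -/
theorem exists_perturb [IsNoetherianRing A] (I : Ideal A) (L : ℕ) :
    ∃ c, ∀ {ι : Type} [Fintype ι] [DecidableEq ι] (lev : ι → ℕ), (∀ i, lev i ≤ L) →
      ∀ v : Matrix ι ι (N →ₗ[A] N), (∀ i j, v i j ≠ 0 → lev i = lev j + 1) → v * v = 0 →
      ∀ K, (∀ i j, ∃ Lm, Φ.IsLift (v i j) Lm ∧ ∀ h g, Lm h g ∈ I ^ (K + c)) →
      ∃ M : Matrix (ι × Φ.F.ι) (ι × Φ.F.ι) A, M * M = 0 ∧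
        (∀ i a j b, M (i, a) (j, b) ≠ 0 →
          lev j ≤ lev i ∧ Φ.F.pos a + lev j + 1 = Φ.F.pos b + lev i) ∧
        (∀ i a j b, M (i, a) (j, b) ∈ I ^ (K * (lev i - lev j))) ∧
        (∀ i a j b, lev i = lev j → M (i, a) (j, b) = if i = j then Φ.F.mat a b else 0) ∧
        ∀ i j, lev i = lev j + 1 → ∃ Lm, Φ.IsLift (v i j) Lm ∧
          ∀ a b, M (i, a) (j, b) = Lm a b * (-1) ^ Φ.F.pos b := by
  classical
  obtain ⟨c, hc⟩ := Φ.exists_artinRees I L
  refine ⟨c, fun {ι} _ _ lev hlev v hv hvv K hlift => ?_⟩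
  set d := Φ.F.mat with hd
  let S : Matrix Φ.F.ι Φ.F.ι A := Matrix.diagonal fun b => (-1) ^ Φ.F.pos b
  -- lifts, trivial off the first level drop
  have hlift' : ∀ i j, ∃ Lm, Φ.IsLift (v i j) Lm ∧ (∀ h g, Lm h g ∈ I ^ (K + c)) ∧
      (lev i ≠ lev j + 1 → Lm = 0) := by
    intro i j
    by_cases e : lev i = lev j + 1
    · obtain ⟨Lm, h1, h2⟩ := hlift i j
      exact ⟨Lm, h1, h2, fun e' => absurd e e'⟩
    · refine ⟨0, ?_, fun h g => zero_mem _, fun _ => rfl⟩
      rw [show v i j = 0 from by_contra fun hne => e (hv i j hne)]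
      exact Reso.IsLift.zero
  choose Lm hLm hLmI hLm0 using hlift'
  let D0 : Matrix ι ι (Matrix Φ.F.ι Φ.F.ι A) := Matrix.diagonal fun _ => d
  let H1 : Matrix ι ι (Matrix Φ.F.ι Φ.F.ι A) := Matrix.of fun i j => Lm i j * S
  have hsgn : ∀ {Z : Matrix Φ.F.ι Φ.F.ι A}, (∀ h g, Z h g ≠ 0 → Φ.F.pos h = Φ.F.pos g) →
      S * Z = Z * S := by
    intro Z hZ
    ext h g
    simp only [S, Matrix.diagonal_mul, Matrix.mul_diagonal]
    by_cases e : Z h g = 0
    · simp [e]
    · rw [hZ h g e, mul_comm]
  have hSS : S * S = 1 := by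
    simp [S, Matrix.diagonal_mul_diagonal, ← pow_add, ← two_mul, pow_mul]
  have hdS : d * S + S * d = 0 := by
    ext h g
    simp only [S, Matrix.add_apply, Matrix.diagonal_mul, Matrix.mul_diagonal, Matrix.zero_apply]
    by_cases e : d h g = 0
    · simp [e]
    · rw [Φ.F.mat_pos h g e, pow_succ]
      ring
  have g0 : Graded Φ lev 1 0 D0 := by
    intro i j h g hne
    by_cases e : i = j
    · subst e
      simp only [D0, Matrix.diagonal_apply_eq] at hne
      have := Φ.F.mat_pos h g hne
      omega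
    · simp [D0, Matrix.diagonal_apply_ne _ e] at hne
  have g1 : Graded Φ lev 1 1 H1 := by
    intro i j h g hne
    simp only [H1, S, Matrix.of_apply, Matrix.mul_diagonal] at hne
    have hne' := left_ne_zero_of_mul hne
    refine ⟨by_contra fun e => hne' (by rw [hLm0 i j e]; rfl), ?_⟩
    rw [(hLm i j).deg h g hne']
  have hanti : D0 * H1 + H1 * D0 = 0 := by
    refine Matrix.ext fun i j => ?_
    simp only [D0, H1, Matrix.add_apply, Matrix.diagonal_mul, Matrix.mul_diagonal, Matrix.of_apply,
      Matrix.zero_apply]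
    rw [← Matrix.mul_assoc, hd, (hLm i j).comm, Matrix.mul_assoc, Matrix.mul_assoc,
      ← Matrix.mul_add, ← hd, hdS, Matrix.mul_zero]
  have hD0 : D0 * D0 = 0 := by
    simp [D0, Matrix.diagonal_mul_diagonal, hd, Φ.F.sq]
  suffices hP : ∀ n, n ≤ L → ∃ P : (Matrix ι ι (Matrix Φ.F.ι Φ.F.ι A))[X], (∀ s, Graded Φ lev 1 s (P.coeff s)) ∧
      (∀ s, 1 ≤ s → ∀ i j h g, P.coeff s i j h g ∈ I ^ (s * K + c)) ∧
      (∀ s, n + 1 < s → P.coeff s = 0) ∧ P.coeff 0 = D0 ∧ P.coeff 1 = H1 ∧
      ∀ s, s ≤ n + 1 → (P * P).coeff s = 0 by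
    obtain ⟨P, hg, hm, -, h0, h1, hsq⟩ := hP L le_rfl
    have hPP : P * P = 0 := by
      refine Polynomial.ext fun s => ?_
      rw [Polynomial.coeff_zero]
      by_cases hs : s ≤ L + 1
      · exact hsq s hs
      have hgr : Graded Φ lev 2 s ((P * P).coeff s) := by
        rw [Polynomial.coeff_mul]
        refine Graded.sum fun x hx => ?_
        rw [← Finset.HasAntidiagonal.mem_antidiagonal.1 hx]
        exact (hg x.1).mul (hg x.2)
      refine Matrix.ext fun i j => Matrix.ext fun h g => ?_
      by_contra hne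
      have := hgr i j h g hne
      have := hlev i
      omega
    let e : (Matrix ι ι (Matrix Φ.F.ι Φ.F.ι A))[X] →+* Matrix ι ι (Matrix Φ.F.ι Φ.F.ι A) :=
      Polynomial.eval₂RingHom' (RingHom.id _) 1 fun a => Commute.one_right a
    have hee : e P * e P = 0 := by rw [← map_mul, hPP, map_zero]
    have hentry : ∀ i j a b, e P i j a b = P.coeff (lev i - lev j) i j a b := by
      intro i j a b
      show Polynomial.eval₂ (RingHom.id (Matrix ι ι (Matrix Φ.F.ι Φ.F.ι A))) 1 P i j a b = _
      rw [Polynomial.eval₂_eq_sum_range]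
      simp only [RingHom.id_apply, one_pow, mul_one, Matrix.sum_apply]
      refine Finset.sum_eq_single _ (fun s _ hs => ?_) (fun hs => ?_)
      · by_contra hne
        have := (hg s i j a b hne).1
        omega
      · rw [Polynomial.coeff_eq_zero_of_natDegree_lt (by
          rw [Finset.mem_range] at hs; omega)]
        rfl
    refine ⟨Matrix.comp ι ι Φ.F.ι Φ.F.ι A (e P), ?_, ?_, ?_, ?_, ?_⟩
    · have h := congrArg (Matrix.compRingEquiv ι Φ.F.ι A) hee
      rwa [map_mul, map_zero] at h
    · intro i a j b hne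
      simp only [Matrix.comp_apply, hentry] at hne
      have := hg _ i j a b hne
      omega
    · intro i a j b
      simp only [Matrix.comp_apply, hentry]
      rcases Nat.eq_zero_or_pos (lev i - lev j) with e0 | e0
      · simp [e0]
      · refine Ideal.pow_le_pow_right ?_ (hm _ e0 i j a b)
        rw [mul_comm]
        omega
    · intro i a j b e
      simp only [Matrix.comp_apply, hentry, e, Nat.sub_self, h0, D0, Matrix.diagonal_apply]
      split_ifs <;> simp [hd]
    · intro i j e
      refine ⟨Lm i j, hLm i j, fun a b => ?_⟩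
      simp [Matrix.comp_apply, hentry, e, h1, H1, S]
  intro n
  induction n with
  | zero =>
    intro _
    refine ⟨Polynomial.C D0 + Polynomial.C H1 * Polynomial.X, fun s => ?_, fun s hs => ?_,
      fun s hs => ?_, by simp, by simp, fun s hs => ?_⟩
    · rcases s with - | - | s
      · simpa using g0
      · simpa using g1
      · intro i j h g hne
        simp at hne
    · intro i j h g
      rcases s with - | - | s
      · omega
      · simp only [H1, S, Polynomial.coeff_add, Polynomial.coeff_C_mul_X, Polynomial.coeff_C,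
          one_ne_zero, zero_add, if_false, if_true, one_mul, Matrix.of_apply, Matrix.mul_diagonal]
        exact Ideal.mul_mem_right _ _ (hLmI i j h g)
      · simp
    · rcases s with - | - | s
      · omega
      · omega
      · simp
    · interval_cases s
      · simp [Polynomial.coeff_mul, hD0]
      · simp [Polynomial.coeff_mul, Finset.Nat.antidiagonal_succ, hanti]
  | succ n ih =>
    intro hn
    obtain ⟨P, hg, hm, hdeg, h0, h1, hsq⟩ := ih (by omega)
    set O := (P * P).coeff (n + 2) with hO
    have hterm : ∀ x ∈ Finset.HasAntidiagonal.antidiagonal (n + 2), x.1 = 0 ∨ x.2 = 0 →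
        P.coeff x.1 * P.coeff x.2 = 0 := by
      intro x hx h
      have hx' := Finset.HasAntidiagonal.mem_antidiagonal.1 hx
      rcases h with h | h
      · rw [hdeg x.2 (by omega), mul_zero]
      · rw [hdeg x.1 (by omega), zero_mul]
    have hOg : Graded Φ lev 2 (n + 2) O := by
      rw [hO, Polynomial.coeff_mul]
      refine Graded.sum fun x hx => ?_
      rw [← Finset.HasAntidiagonal.mem_antidiagonal.1 hx]
      exact (hg x.1).mul (hg x.2)
    have hOm : ∀ i j h g, O i j h g ∈ I ^ ((n + 2) * K + c + c) := by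
      intro i j h g
      rw [hO, Polynomial.coeff_mul, Matrix.sum_apply, Matrix.sum_apply]
      refine Ideal.sum_mem _ fun x hx => ?_
      by_cases hz : x.1 = 0 ∨ x.2 = 0
      · rw [hterm x hx hz]
        exact zero_mem _
      push Not at hz
      have := mul_entries_mem (hm x.1 (Nat.pos_of_ne_zero hz.1))
        (hm x.2 (Nat.pos_of_ne_zero hz.2)) i j h g
      rwa [show x.1 * K + c + (x.2 * K + c) = (n + 2) * K + c + c by
        rw [← Finset.HasAntidiagonal.mem_antidiagonal.1 hx]; ring] at this
    have hcomm : D0 * O = O * D0 := by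
      have e := congrArg (Polynomial.coeff · (n + 2)) (mul_assoc P P P)
      rw [Polynomial.coeff_mul (P * P) P, Polynomial.coeff_mul P (P * P),
        Finset.sum_eq_single ((n + 2, 0) : ℕ × ℕ), Finset.sum_eq_single ((0, n + 2) : ℕ × ℕ),
        h0] at e
      · exact e.symm
      · intro x hx hne
        rw [hsq x.2, mul_zero]
        have hx' := Finset.HasAntidiagonal.mem_antidiagonal.1 hx
        by_contra hc
        exact hne (Prod.ext (by omega) (by omega))
      · simp
      · intro x hx hne
        rw [hsq x.1, zero_mul]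
        have hx' := Finset.HasAntidiagonal.mem_antidiagonal.1 hx
        by_contra hc
        exact hne (Prod.ext (by omega) (by omega))
      · simp
    have hεO : ∀ i j g, Φ.ε (fun h => O i j h g) = 0 := by
      intro i j g
      by_cases hn0 : n = 0
      swap
      · refine Φ.ε_pos _ fun h hh => by_contra fun hne => ?_
        have := hOg i j h g hne
        omega
      subst hn0
      have hO2 : O = H1 * H1 := by
        rw [hO, Polynomial.coeff_mul, Finset.sum_eq_single ((1, 1) : ℕ × ℕ), h1]
        · intro x hx hne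
          refine hterm x hx ?_
          have hx' := Finset.HasAntidiagonal.mem_antidiagonal.1 hx
          by_contra hc
          push Not at hc
          exact hne (Prod.ext (by omega) (by omega))
        · simp
      have e : O i j = ∑ l, Lm i l * Lm l j := by
        rw [hO2, Matrix.mul_apply]
        refine Finset.sum_congr rfl fun l _ => ?_
        show Lm i l * S * (Lm l j * S) = _
        rw [← Matrix.mul_assoc, Matrix.mul_assoc (Lm i l), hsgn (hLm l j).deg, Matrix.mul_assoc,
          Matrix.mul_assoc, hSS, Matrix.mul_one]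
      rw [e, (Reso.IsLift.sum _ fun l _ => (hLm i l).mul (hLm l j)).aug, ← Matrix.mul_apply, hvv]
      rfl
    have hψ : ∀ i j, ∃ ψ : Matrix Φ.F.ι Φ.F.ι A,
        (∀ h g, ψ h g ≠ 0 → lev i = lev j + (n + 2) ∧ Φ.F.pos h + 1 = Φ.F.pos g + (n + 2)) ∧
        (∀ h g, ψ h g ∈ I ^ ((n + 2) * K + c)) ∧ -O i j = d * ψ + ψ * d := by
      intro i j
      by_cases e : lev i = lev j + (n + 2)
      swap
      · refine ⟨0, fun h g hne => absurd rfl hne, fun h g => zero_mem _, ?_⟩
        rw [Matrix.mul_zero, Matrix.zero_mul, add_zero, neg_eq_zero]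
        exact Matrix.ext fun h g => by_contra fun hne => e (hOg i j h g hne).1
      obtain ⟨ψ, p1, p2, p3⟩ := hc n (by omega) ((n + 2) * K + c + c) (by omega) (-O i j)
        (fun h g hne => by
          have := (hOg i j h g fun e' => hne (by rw [Matrix.neg_apply, e', neg_zero])).2
          omega)
        (by
          have hij := congrFun (congrFun hcomm i) j
          simp only [D0, Matrix.diagonal_mul, Matrix.mul_diagonal] at hij
          rw [Matrix.mul_neg, Matrix.neg_mul, hij])
        (fun g => by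
          rw [show (fun h => (-O i j) h g) = -fun h => O i j h g from rfl, map_neg, hεO, neg_zero])
        (fun h g => Ideal.neg_mem_iff _ |>.2 (hOm i j h g))
      refine ⟨ψ, fun h g hne => ⟨e, ?_⟩, fun h g => ?_, p3⟩
      · rw [p1 h g hne]; ring
      · have := p2 h g
        rwa [Nat.add_sub_cancel] at this
    choose ψ hψ1 hψ2 hψ3 using hψ
    let H : Matrix ι ι (Matrix Φ.F.ι Φ.F.ι A) := Matrix.of ψ
    set Q := Polynomial.C H * Polynomial.X ^ (n + 2) with hQ
    have hQc : ∀ s, Q.coeff s = if s = n + 2 then H else 0 := fun s =>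
      Polynomial.coeff_C_mul_X_pow H (n + 2) s
    refine ⟨P + Q, fun s => ?_, fun s hs => ?_, fun s hs => ?_, ?_, ?_, fun s hs => ?_⟩
    · rw [Polynomial.coeff_add, hQc]
      split_ifs with e
      · rw [hdeg s (by omega), zero_add, e]
        exact fun i j h g hne => hψ1 i j h g hne
      · rw [add_zero]
        exact hg s
    · intro i j h g
      rw [Polynomial.coeff_add, hQc]
      split_ifs with e
      · rw [hdeg s (by omega), zero_add, e]
        exact hψ2 i j h g
      · rw [add_zero]
        exact hm s hs i j h g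
    · rw [Polynomial.coeff_add, hQc, hdeg s (by omega), if_neg (by omega), add_zero]
    · rw [Polynomial.coeff_add, hQc, h0, if_neg (by omega), add_zero]
    · rw [Polynomial.coeff_add, hQc, h1, if_neg (by omega), add_zero]
    · rw [add_mul, mul_add, mul_add, Polynomial.coeff_add, Polynomial.coeff_add,
        Polynomial.coeff_add]
      have hPQ : ∀ a b, a + b = s → P.coeff a * Q.coeff b =
          if s = n + 2 ∧ b = n + 2 then D0 * H else 0 := by
        intro a b hab
        rw [hQc]
        by_cases e : b = n + 2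
        · rw [if_pos e, if_pos ⟨by omega, e⟩, show a = 0 by omega, h0]
        · rw [if_neg e, mul_zero, if_neg fun e' => e e'.2]
      have hQP : ∀ a b, a + b = s → Q.coeff a * P.coeff b =
          if s = n + 2 ∧ a = n + 2 then H * D0 else 0 := by
        intro a b hab
        rw [hQc]
        by_cases e : a = n + 2
        · rw [if_pos e, if_pos ⟨by omega, e⟩, show b = 0 by omega, h0]
        · rw [if_neg e, zero_mul, if_neg fun e' => e e'.2]
      have e1 : (P * Q).coeff s = if s = n + 2 then D0 * H else 0 := by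
        rw [Polynomial.coeff_mul, Finset.sum_congr rfl fun x hx =>
          hPQ x.1 x.2 (Finset.HasAntidiagonal.mem_antidiagonal.1 hx)]
        by_cases e : s = n + 2
        · subst e
          rw [Finset.sum_eq_single ((0, n + 2) : ℕ × ℕ)]
          · simp
          · intro x hx hne
            have hx' := Finset.HasAntidiagonal.mem_antidiagonal.1 hx
            exact if_neg fun h => hne (Prod.ext (by omega) h.2)
          · simp
        · simp [e]
      have e2 : (Q * P).coeff s = if s = n + 2 then H * D0 else 0 := by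
        rw [Polynomial.coeff_mul, Finset.sum_congr rfl fun x hx =>
          hQP x.1 x.2 (Finset.HasAntidiagonal.mem_antidiagonal.1 hx)]
        by_cases e : s = n + 2
        · subst e
          rw [Finset.sum_eq_single ((n + 2, 0) : ℕ × ℕ)]
          · simp
          · intro x hx hne
            have hx' := Finset.HasAntidiagonal.mem_antidiagonal.1 hx
            exact if_neg fun h => hne (Prod.ext h.2 (by omega))
          · simp
        · simp [e]
      have e3 : (Q * Q).coeff s = 0 := by
        rw [Polynomial.coeff_mul]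
        refine Finset.sum_eq_zero fun x hx => ?_
        have hx' := Finset.HasAntidiagonal.mem_antidiagonal.1 hx
        rw [hQc, hQc]
        split_ifs <;> first | omega | simp
      rw [e1, e2, e3]
      by_cases e : s = n + 2
      · subst e
        rw [if_pos rfl, if_pos rfl, ← hO, add_zero]
        refine Matrix.ext fun i j => ?_
        simp only [D0, H, Matrix.add_apply, Matrix.diagonal_mul, Matrix.mul_diagonal,
          Matrix.of_apply, Matrix.zero_apply]
        rw [add_assoc, ← hψ3 i j, add_neg_cancel]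
      · simp [e, hsq s (by omega)]

end Vale.Agent.P202.NC
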