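import Vale.Agent.P202.NC.Datum
import Vale.Agent.P202.NC.Perturb
import Vale.Agent.P202.NC.Filt
import Vale.Agent.P202.RingSide.Complete

/-!
# P202, general source ring: the datum of a complex over a finite extension of power series

A complex over `R` with entries in a high power of the maximal ideal of `k[[X]]`, lifted to a free
resolution of an `R`-module and transposed, is a good datum; its homology is controlled by the
complex on the cohomology modules of the transposed resolution.
-/

noncomputable section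

namespace Vale.Agent.P202.NC

open Matrix IsLocalRing

universe u

/-- The block diagonal matrix with constant block. -/
def blk (ι : Type*) [DecidableEq ι] {κ κ' A : Type*} [Zero A] (X : Matrix κ κ' A) :
    Matrix (ι × κ) (ι × κ') A :=
  Matrix.of fun x y => if x.1 = y.1 then X x.2 y.2 else 0

section blk

variable {ι κ κ' κ'' A : Type*} [DecidableEq ι] [CommRing A]

theorem blk_apply (X : Matrix κ κ' A) (i : ι) (a : κ) (j : ι) (b : κ') :
    blk ι X (i, a) (j, b) = if i = j then X a b else 0 := rfl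

theorem blk_mul [Fintype ι] [Fintype κ'] (X : Matrix κ κ' A) (Y : Matrix κ' κ'' A) :
    blk ι X * blk ι Y = blk ι (X * Y) := by
  ext ⟨i, a⟩ ⟨j, b⟩
  simp [Matrix.mul_apply, blk_apply, Fintype.sum_prod_type, Finset.sum_ite_irrel]

theorem blk_add (X Y : Matrix κ κ' A) : blk ι X + blk ι Y = blk ι (X + Y) := by
  ext ⟨i, a⟩ ⟨j, b⟩
  simp only [Matrix.add_apply, blk_apply]
  split_ifs <;> simp

theorem blk_sub (X Y : Matrix κ κ' A) : blk ι X - blk ι Y = blk ι (X - Y) := by
  ext ⟨i, a⟩ ⟨j, b⟩
  simp only [Matrix.sub_apply, blk_apply]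
  split_ifs <;> simp

theorem blk_zero : blk ι (0 : Matrix κ κ' A) = 0 := by
  ext ⟨i, a⟩ ⟨j, b⟩
  simp [blk_apply]

theorem blk_smul_one [DecidableEq κ] (c : A) :
    blk ι (c • (1 : Matrix κ κ A)) = c • (1 : Matrix (ι × κ) (ι × κ) A) := by
  ext ⟨i, a⟩ ⟨j, b⟩
  simp [blk_apply, Matrix.one_apply, ite_and]

theorem blk_ne_zero {X : Matrix κ κ' A} {i : ι} {a : κ} {j : ι} {b : κ'}
    (h : blk ι X (i, a) (j, b) ≠ 0) : i = j ∧ X a b ≠ 0 := by
  rw [blk_apply] at h
  split_ifs at h with e
  · exact ⟨e, h⟩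
  · exact absurd rfl h

end blk

/-- A module comparable to a free one has the rank of that free module. -/
theorem finrank_eq_of_comparison {A : Type u} [CommRing A] [IsDomain A] {N : Type u}
    [AddCommGroup N] [Module A N] [Module.Finite A N] {e : ℕ} {c : A} (hc : c ≠ 0)
    (α : (Fin e → A) →ₗ[A] N) (β : N →ₗ[A] (Fin e → A)) (hαβ : ∀ x, α (β x) = c • x)
    (hβα : ∀ v, β (α v) = c • v) : Module.finrank A N = e := by
  have hα : Function.Injective α := (injective_iff_map_eq_zero α).2 fun v hv => by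
    have h := hβα v
    rw [hv, map_zero] at h
    exact (smul_eq_zero.1 h.symm).resolve_left hc
  refine le_antisymm ?_ ?_
  · obtain ⟨v, hv⟩ := exists_linearIndependent_of_le_finrank (R := A) (M := N)
      (n := Module.finrank A N) le_rfl
    have hli : LinearIndependent A (β ∘ v) := by
      rw [Fintype.linearIndependent_iff]
      intro g hg i
      have h0 : ∑ j, g j • (c • v j) = 0 := by
        simp only [← hαβ, ← map_smul α, ← map_sum α]
        rw [show ∑ j, g j • β (v j) = 0 from hg, map_zero]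
      simp only [smul_smul] at h0
      exact (mul_eq_zero.1 (Fintype.linearIndependent_iff.1 hv _ h0 i)).resolve_right hc
    simpa using hli.fintype_card_le_finrank
  · have hb := (Pi.basisFun A (Fin e)).linearIndependent.map' α (LinearMap.ker_eq_bot.2 hα)
    simpa using hb.fintype_card_le_finrank

/-- Elements of `I R` have lifts with entries in `I`. -/
theorem exists_lift_mem {A : Type u} [CommRing A] {N : Type u} [AddCommGroup N] [Module A N]
    {R : Type u} [CommRing R] [Algebra A R] [Module R N] [IsScalarTower A R N] (Φ : Reso A N)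
    {J : Ideal A} {a : R} (ha : a ∈ J.map (algebraMap A R)) :
    ∃ L, Φ.IsLift (Algebra.lsmul A A N a) L ∧ ∀ h g, L h g ∈ J := by
  rw [← Submodule.restrictScalars_mem A, ← Ideal.smul_top_eq_map] at ha
  refine Submodule.smul_induction_on ha (fun v hv r _ => ?_) (fun x y hx hy => ?_)
  · obtain ⟨L, hL⟩ := Φ.exists_lift (Algebra.lsmul A A N r)
    refine ⟨v • L, ?_, fun h g => J.mul_mem_right _ hv⟩
    rw [map_smul]
    exact hL.smul v
  · obtain ⟨L, hL, hL'⟩ := hx
    obtain ⟨L', hM, hM'⟩ := hy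
    exact ⟨L + L', by rw [map_add]; exact hL.add hM, fun h g => J.add_mem (hL' h g) (hM' h g)⟩

section main

variable {k : Type u} [Field k] {D : ℕ}

/-- The datum of a lifted complex. -/
theorem exists_datum {R : Type u} [CommRing R] [Algebra (PS k D) R] [Algebra k R]
    [IsScalarTower k (PS k D) R] {N : Type u} [AddCommGroup N] [Module (PS k D) N] [Module R N]
    [IsScalarTower (PS k D) R N] [Module.Finite (PS k D) N] {e : ℕ} {c : PS k D} (hc : c ≠ 0)
    (α : (Fin e → PS k D) →ₗ[PS k D] N) (β : N →ₗ[PS k D] (Fin e → PS k D))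
    (hαβ : ∀ x, α (β x) = c • x) (hβα : ∀ v, β (α v) = c • v) :
    ∃ (Φ : Reso (PS k D) N) (c₀ : ℕ), ∀ (K : ℕ) (G : FreeCx R), G.LengthLE D →
      G.EntriesIn ((maximalIdeal (PS k D) ^ (K + c₀)).map (algebraMap (PS k D) R)) →
      (∀ q ≤ D, G.FiniteHom (Coh R Φ D q) k) →
      ∃ X : Datum k D, X.c = c ∧ X.m = D ∧ X.IsGood K ∧
        Fintype.card X.G.ι = Fintype.card G.ι * Fintype.card Φ.F.ι ∧
        Fintype.card X.free = Fintype.card G.ι * e ∧
        (∀ i, X.frank i = G.rank i * e) ∧
        (∀ j : ℤ, X.G.homDim (PS k D) k j ≤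
          ∑ q ∈ Finset.range (D + 1), G.homDim (Coh R Φ D q) k (j - q)) ∧
        X.G.chi (PS k D) k = ∑ q ∈ Finset.range (D + 1), (-1) ^ q * G.chi (Coh R Φ D q) k ∧
        ∀ w, (∀ q ≤ D, G.Kills (Coh R Φ D q) (algebraMap (PS k D) R w)) →
          X.G.Kills (PS k D) (w ^ (D + 1)) := by
  classical
  have : IsDomain (PS k D) := NoZeroDivisors.to_isDomain _
  obtain ⟨Φ, hlen, heul⟩ := exists_reso D N (Diag.exists_finRes k D N)
  rw [finrank_eq_of_comparison hc α β hαβ hβα] at heul
  obtain ⟨P, Q, h, hP, hQ, hh, hPd, hdQ, hPQ, hhom⟩ := Φ.exists_comparison_lift α β hαβ hβα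
  obtain ⟨c₀, hc₀⟩ := exists_perturb Φ (maximalIdeal (PS k D)) D
  refine ⟨Φ, c₀, fun K G hG hent hfin => ?_⟩
  let v : Matrix G.ι G.ι (N →ₗ[PS k D] N) :=
    Matrix.of fun i j => Algebra.lsmul (PS k D) (PS k D) N (G.mat j i)
  have hv : ∀ i j, v i j ≠ 0 → G.pos i = G.pos j + 1 := fun i j hne =>
    G.mat_pos j i fun e0 => hne (by simp [v, e0])
  have hvv : v * v = 0 := by
    refine Matrix.ext fun i j => ?_
    have h0 : ∑ l, G.mat l i * G.mat j l = 0 := by
      have := congrFun (congrFun G.sq j) i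
      rw [Matrix.mul_apply] at this
      simpa [mul_comm] using this
    simp only [v, Matrix.mul_apply, Matrix.of_apply, ← map_mul, ← map_sum, h0, map_zero,
      Matrix.zero_apply]
  obtain ⟨M, hM, hsupp, hmem, hblock, hfirst⟩ :=
    hc₀ G.pos hG v hv hvv K fun i j => exists_lift_mem Φ (hent j i)
  choose Lm hLm hLmM using hfirst
  have T : ∃ T : Twist Φ D G, T.M = M := by
    refine ⟨{ M := M, Lm := fun i j => if h : G.pos i = G.pos j + 1 then Lm i j h else 0,
              len := hlen, sq := hM, supp := hsupp, block := hblock,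
              first := fun i a j b e0 => by rw [dif_pos e0]; exact hLmM i j e0 a b,
              lift := fun i j => ?_, lift_zero := fun i j e0 => dif_neg e0 }, rfl⟩
    by_cases e0 : G.pos i = G.pos j + 1
    · rw [dif_pos e0]
      exact hLm i j e0
    · rw [dif_neg e0, show G.mat j i = 0 from by_contra fun hne => e0 (G.mat_pos j i hne),
        map_zero]
      exact Reso.IsLift.zero
  obtain ⟨T, rfl⟩ := T
  obtain ⟨hF, hdim, hchi⟩ := T.homology (k := k) hfin
  let X : Datum k D :=
    { G := T.cx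
      m := D
      c := c
      lev := fun x => G.pos x.1
      free := G.ι × Fin e
      flev := fun x => G.pos x.1
      ψ := blk G.ι Pᵀ
      π := blk G.ι Qᵀ
      hom := blk G.ι hᵀ
      c_ne := hc
      lev_le := fun x => hG x.1
      le_pos := fun x => Nat.le_add_right _ _
      pos_le := fun x => Nat.add_le_add_left (Nat.sub_le _ _) _
      ψ_supp := by
        rintro ⟨i, a⟩ ⟨j, l⟩ hne
        obtain ⟨rfl, h2⟩ := blk_ne_zero hne
        exact ⟨rfl, by simp [hP l a h2]⟩
      π_supp := by
        rintro ⟨j, l⟩ ⟨i, a⟩ hne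
        obtain ⟨rfl, h2⟩ := blk_ne_zero hne
        exact ⟨rfl, by simp [hQ a l h2]⟩
      hom_supp := by
        rintro ⟨i, a⟩ ⟨j, b⟩ hne
        obtain ⟨rfl, h2⟩ := blk_ne_zero hne
        refine ⟨rfl, ?_⟩
        have := hh b a h2
        have := hlen b
        simp only
        omega }
  have hblk : X.blockMat = blk G.ι Φ.F.matᵀ := by
    refine Matrix.ext fun x y => ?_
    obtain ⟨j, b⟩ := x
    obtain ⟨i, a⟩ := y
    show (if G.pos j = G.pos i then T.M (i, a) (j, b) else 0) = _
    rw [blk_apply]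
    by_cases e0 : G.pos j = G.pos i
    · rw [if_pos e0, hblock i a j b e0.symm]
      by_cases e1 : i = j
      · rw [if_pos e1, if_pos e1.symm]
        rfl
      · rw [if_neg e1, if_neg (Ne.symm e1)]
    · rw [if_neg e0, if_neg fun e1 => e0 (congrArg G.pos e1)]
  refine ⟨X, rfl, rfl, ⟨?_, ?_, ?_, ?_, ?_, ?_, ?_, hF⟩, ?_, ?_, ?_, hdim, hchi, T.kills⟩
  · rintro ⟨j, b⟩ ⟨i, a⟩ hne
    exact (hsupp i a j b hne).1
  · rintro ⟨j, b⟩ ⟨i, a⟩
    exact hmem i a j b
  · show X.blockMat * blk G.ι Pᵀ = 0
    rw [hblk]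
    erw [blk_mul]
    rw [← Matrix.transpose_mul, hPd, Matrix.transpose_zero, blk_zero]
  · show blk G.ι Qᵀ * X.blockMat = 0
    rw [hblk]
    erw [blk_mul]
    rw [← Matrix.transpose_mul, hdQ, Matrix.transpose_zero, blk_zero]
  · show blk G.ι Qᵀ * blk G.ι Pᵀ = c • 1
    rw [blk_mul, ← Matrix.transpose_mul, hPQ, Matrix.transpose_smul, Matrix.transpose_one,
      blk_smul_one]
  · show c • 1 - blk G.ι Pᵀ * blk G.ι Qᵀ = X.blockMat * blk G.ι hᵀ + blk G.ι hᵀ * X.blockMat
    rw [hblk]
    erw [blk_mul, blk_mul, blk_mul, blk_add, ← blk_smul_one, blk_sub]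
    rw [← Matrix.transpose_mul, ← Matrix.transpose_mul, ← Matrix.transpose_mul,
      ← Matrix.transpose_add, add_comm, ← hhom, Matrix.transpose_sub, Matrix.transpose_smul,
      Matrix.transpose_one]
  · intro i
    show ∑ g ∈ Finset.univ.filter (fun g : G.ι × Φ.F.ι => G.pos g.1 = i),
      (-1 : ℤ) ^ (G.pos g.1 + (D - Φ.F.pos g.2)) =
      (-1) ^ (i + D) * ((Finset.univ.filter fun x : G.ι × Fin e => G.pos x.1 = i).card : ℤ)
    rw [show (Finset.univ.filter fun g : G.ι × Φ.F.ι => G.pos g.1 = i) =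
        (Finset.univ.filter fun j => G.pos j = i) ×ˢ Finset.univ by ext; simp,
      show (Finset.univ.filter fun x : G.ι × Fin e => G.pos x.1 = i) =
        (Finset.univ.filter fun j => G.pos j = i) ×ˢ Finset.univ by ext; simp,
      Finset.card_product, Finset.sum_product]
    have hs : ∀ j ∈ Finset.univ.filter (fun j => G.pos j = i),
        ∑ a, (-1 : ℤ) ^ (G.pos j + (D - Φ.F.pos a)) = (-1) ^ (i + D) * e := by
      intro j hj
      rw [(Finset.mem_filter.1 hj).2, ← heul, Finset.mul_sum]
      refine Finset.sum_congr rfl fun a _ => ?_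
      rw [← pow_add]
      have := hlen a
      rw [show i + D + Φ.F.pos a = i + (D - Φ.F.pos a) + 2 * Φ.F.pos a by omega, pow_add _ _
        (2 * _), pow_mul (-1 : ℤ) 2]
      simp
    rw [Finset.sum_congr rfl hs, Finset.sum_const, nsmul_eq_mul, Finset.card_univ, Fintype.card_fin]
    push_cast
    ring
  · exact Fintype.card_prod _ _
  · show Fintype.card (G.ι × Fin e) = _
    rw [Fintype.card_prod, Fintype.card_fin]
  · intro i
    show (Finset.univ.filter fun x : G.ι × Fin e => G.pos x.1 = i).card = _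
    rw [show (Finset.univ.filter fun x : G.ι × Fin e => G.pos x.1 = i) =
        (Finset.univ.filter fun j => G.pos j = i) ×ˢ Finset.univ by ext; simp,
      Finset.card_product, Finset.card_univ, Fintype.card_fin]
    rfl

/-- A high iterate of Frobenius sends the maximal ideal into a high power of the parameters. -/
theorem entriesIn_map_frobenius {R : Type u} [CommRing R] [IsLocalRing R] (p : ℕ) [Fact p.Prime]
    [CharP R p] {φ : PS k D →+* R} {r : ℕ}
    (hr : ∀ n, maximalIdeal R ^ (n + r) ≤ (maximalIdeal (PS k D) ^ n).map φ)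
    {G : FreeCx R} (hG : G.EntriesIn (maximalIdeal R)) {e n : ℕ} (hn : n + r ≤ p ^ e) :
    (G.map (iterateFrobenius R p e)).EntriesIn ((maximalIdeal (PS k D) ^ n).map φ) := fun h g => by
  refine hr n (Ideal.pow_le_pow_right hn ?_)
  show iterateFrobenius R p e (G.mat h g) ∈ _
  rw [iterateFrobenius_def]
  exact Ideal.pow_mem_pow (hG h g) _

end main

end Vale.Agent.P202.NC
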