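import Vale.Agent.P202.NC.Reso
import Vale.Agent.P202.NC.DualMod

/-!
# P202, general source ring: cohomology of the dual of a resolution

The cohomology of the transposed resolution is indexed by `p = m - degree`.  A ring acting on the
resolved module acts on it through lifts; the top index gives the dual of the module, and below the
top a scalar comparing the module with a free one kills it.
-/

noncomputable section

namespace Vale.Agent.P202.NC

open Matrix

universe u

variable {A : Type u} [CommRing A] {N : Type u} [AddCommGroup N] [Module A N]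

namespace Reso

variable (Φ : Reso A N)

/-- Maps between `N` and a free module, composing to `c`, lifted to the resolution. -/
theorem exists_comparison_lift {e : ℕ} {c : A} (α : (Fin e → A) →ₗ[A] N)
    (β : N →ₗ[A] (Fin e → A)) (hαβ : ∀ x, α (β x) = c • x) (hβα : ∀ v, β (α v) = c • v) :
    ∃ (P : Matrix (Fin e) Φ.F.ι A) (Q : Matrix Φ.F.ι (Fin e) A) (ψ : Matrix Φ.F.ι Φ.F.ι A),
      (∀ i b, P i b ≠ 0 → Φ.F.pos b = 0) ∧ (∀ b i, Q b i ≠ 0 → Φ.F.pos b = 0) ∧
      (∀ h g, ψ h g ≠ 0 → Φ.F.pos h = Φ.F.pos g + 1) ∧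
      P * Φ.F.mat = 0 ∧ Φ.F.mat * Q = 0 ∧ P * Q = c • 1 ∧
      c • 1 - Q * P = Φ.F.mat * ψ + ψ * Φ.F.mat := by
  classical
  choose w hw using fun i : Fin e => Φ.surj (α (Pi.single i 1))
  let P : Matrix (Fin e) Φ.F.ι A := Matrix.of fun i b => β (Φ.gen b) i
  let Q : Matrix Φ.F.ι (Fin e) A := Matrix.of fun b i => Φ.F.posProj A 0 (w i) b
  have hP : ∀ i b, P i b ≠ 0 → Φ.F.pos b = 0 := fun i b hne => by_contra fun h =>
    hne (by simp [P, Φ.gen_eq_zero h])
  have hQ : ∀ b i, Q b i ≠ 0 → Φ.F.pos b = 0 := fun b i hne => by_contra fun h =>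
    hne (by simp [Q, FreeCx.posProj_apply, h])
  have hPd : P * Φ.F.mat = 0 := by
    ext i g
    have h := congrArg (fun x => β x i) (Φ.sum_gen_mat g)
    simp only [map_sum, map_smul, Finset.sum_apply, Pi.smul_apply, smul_eq_mul, map_zero,
      Pi.zero_apply] at h
    rw [Matrix.mul_apply, Matrix.zero_apply, ← h]
    exact Finset.sum_congr rfl fun b _ => mul_comm _ _
  have hdQ : Φ.F.mat * Q = 0 := by
    ext a i
    rw [Matrix.mul_apply, Matrix.zero_apply]
    refine Finset.sum_eq_zero fun b _ => ?_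
    by_cases hm : Φ.F.mat a b = 0
    · simp [hm]
    · rw [show Q b i = 0 from by_contra fun hne => by
        have := hQ b i hne
        have := Φ.F.mat_pos a b hm
        omega, mul_zero]
  have hQcol : ∀ i, Φ.ε (fun b => Q b i) = α (Pi.single i 1) := fun i => by
    rw [← hw i, ← Φ.ε_posProj_zero (w i)]
    rfl
  have hPQ : P * Q = c • 1 := by
    ext i j
    have h : ∑ b, Q b j • β (Φ.gen b) = c • Pi.single j (1 : A) := by
      simp only [← map_smul β, ← map_sum β, ← Φ.ε_apply (fun b => Q b j), hQcol, hβα]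
    have h' := congrFun h i
    rw [Matrix.mul_apply, Matrix.smul_apply, Matrix.one_apply]
    simp only [Finset.sum_apply, Pi.smul_apply, smul_eq_mul, Pi.single_apply] at h' ⊢
    rw [← h']
    exact Finset.sum_congr rfl fun b _ => mul_comm _ _
  have hlift : Φ.IsLift 0 (c • 1 - Q * P) := by
    refine ⟨fun h g hne => ?_, ?_, fun g => ?_⟩
    · by_cases e : h = g
      · rw [e]
      · rw [Matrix.sub_apply, Matrix.smul_apply, Matrix.one_apply_ne e, smul_zero, zero_sub,
          neg_ne_zero, Matrix.mul_apply] at hne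
        obtain ⟨i, -, hi⟩ := Finset.exists_ne_zero_of_sum_ne_zero hne
        rw [hQ h i (left_ne_zero_of_mul hi), hP i g (right_ne_zero_of_mul hi)]
    · rw [Matrix.mul_sub, Matrix.sub_mul, ← Matrix.mul_assoc, hdQ, Matrix.mul_assoc, hPd]
      simp
    · rw [show (fun h => (c • (1 : Matrix Φ.F.ι Φ.F.ι A) - Q * P) h g) =
        c • Pi.single g 1 - ∑ i, P i g • fun b => Q b i by
          funext h
          simp [Matrix.one_apply, Pi.single_apply, Matrix.mul_apply, mul_comm],
        map_sub, map_smul, map_sum, LinearMap.zero_apply, ← gen]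
      simp only [map_smul, hQcol]
      rw [← hαβ, sub_eq_zero]
      conv_lhs => rw [← Finset.univ_sum_single (β (Φ.gen g))]
      rw [map_sum]
      refine Finset.sum_congr rfl fun i _ => ?_
      rw [← map_smul, ← Pi.single_smul, smul_eq_mul, mul_one]
      rfl
  obtain ⟨ψ, h1, h2⟩ := Φ.exists_null _ hlift
  exact ⟨P, Q, ψ, hP, hQ, h1, hPd, hdQ, hPQ, h2⟩

variable (m p : ℕ)

/-- Cochains in index `p`. -/
def supp : Submodule A (Φ.F.ι → A) where
  carrier := {w | ∀ b, Φ.F.pos b + p ≠ m → w b = 0}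
  add_mem' {w w'} hw hw' b hb := by simp [hw b hb, hw' b hb]
  zero_mem' b _ := rfl
  smul_mem' a w hw b hb := by simp [hw b hb]

/-- Cocycles in index `p`. -/
def Z : Submodule A (Φ.F.ι → A) := Φ.supp m p ⊓ LinearMap.ker Φ.F.matᵀ.mulVecLin

/-- Coboundaries in index `p`. -/
def B : Submodule A (Φ.F.ι → A) := (Φ.supp m (p + 1)).map Φ.F.matᵀ.mulVecLin

theorem B_le_Z : Φ.B m p ≤ Φ.Z m p := by
  rintro _ ⟨v, hv, rfl⟩
  refine ⟨fun b hb => ?_, ?_⟩
  · rw [Matrix.mulVecLin_apply, Matrix.mulVec, dotProduct]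
    refine Finset.sum_eq_zero fun a _ => ?_
    by_cases hm : Φ.F.mat a b = 0
    · simp [hm]
    · have := Φ.F.mat_pos a b hm
      rw [hv a (by omega), mul_zero]
  · rw [SetLike.mem_coe, LinearMap.mem_ker, Matrix.mulVecLin_apply, Matrix.mulVecLin_apply,
      Matrix.mulVec_mulVec, ← Matrix.transpose_mul, Φ.F.sq]
    simp

variable {m p}

theorem transpose_mulVec_mem_supp {δ : ℕ} {ψ : Matrix Φ.F.ι Φ.F.ι A}
    (hψ : ∀ h g, ψ h g ≠ 0 → Φ.F.pos h = Φ.F.pos g + δ) {w : Φ.F.ι → A} (hw : w ∈ Φ.supp m p) :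
    ψᵀ *ᵥ w ∈ Φ.supp m (p + δ) := by
  intro b hb
  refine Finset.sum_eq_zero fun a _ => ?_
  by_cases hm : ψ a b = 0
  · simp [hm]
  · have := hψ a b hm
    rw [hw a (by omega), mul_zero]

variable {Φ} in
theorem IsLift.transpose_mem_Z {f : N →ₗ[A] N} {L : Matrix Φ.F.ι Φ.F.ι A} (hL : Φ.IsLift f L)
    {w : Φ.F.ι → A} (hw : w ∈ Φ.Z m p) : Lᵀ *ᵥ w ∈ Φ.Z m p := by
  refine ⟨transpose_mulVec_mem_supp Φ (δ := 0) (fun h g hne => hL.deg h g hne) hw.1, ?_⟩
  have h := hw.2
  rw [SetLike.mem_coe, LinearMap.mem_ker, Matrix.mulVecLin_apply] at h ⊢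
  rw [Matrix.mulVec_mulVec, ← Matrix.transpose_mul, ← hL.comm, Matrix.transpose_mul,
    ← Matrix.mulVec_mulVec, h, Matrix.mulVec_zero]

theorem null_transpose_mem_B {φ ψ : Matrix Φ.F.ι Φ.F.ι A}
    (hψ : ∀ h g, ψ h g ≠ 0 → Φ.F.pos h = Φ.F.pos g + 1)
    (he : φ = Φ.F.mat * ψ + ψ * Φ.F.mat) {w : Φ.F.ι → A} (hw : w ∈ Φ.Z m p) :
    φᵀ *ᵥ w ∈ Φ.B m p := by
  refine ⟨ψᵀ *ᵥ w, Φ.transpose_mulVec_mem_supp hψ hw.1, ?_⟩
  have h := hw.2
  rw [SetLike.mem_coe, LinearMap.mem_ker, Matrix.mulVecLin_apply] at h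
  rw [he, Matrix.transpose_add, Matrix.transpose_mul, Matrix.transpose_mul, Matrix.add_mulVec,
    ← Matrix.mulVec_mulVec, ← Matrix.mulVec_mulVec, h, Matrix.mulVec_zero, zero_add]
  rfl

end Reso

/-- Cohomology of the transposed resolution in index `p`, for the ring `R`. -/
def Coh (_R : Type u) (Φ : Reso A N) (m p : ℕ) : Type u :=
  ↥(Φ.Z m p) ⧸ (Φ.B m p).comap (Φ.Z m p).subtype

namespace Coh

variable {R : Type u} {Φ : Reso A N} {m p : ℕ}

instance : AddCommGroup (Coh R Φ m p) :=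
  inferInstanceAs (AddCommGroup (↥(Φ.Z m p) ⧸ (Φ.B m p).comap (Φ.Z m p).subtype))

instance : Module A (Coh R Φ m p) :=
  inferInstanceAs (Module A (↥(Φ.Z m p) ⧸ (Φ.B m p).comap (Φ.Z m p).subtype))

instance {k : Type u} [CommRing k] [Algebra k A] : Module k (Coh R Φ m p) :=
  inferInstanceAs (Module k (↥(Φ.Z m p) ⧸ (Φ.B m p).comap (Φ.Z m p).subtype))

instance {k : Type u} [CommRing k] [Algebra k A] : IsScalarTower k A (Coh R Φ m p) :=
  inferInstanceAs (IsScalarTower k A (↥(Φ.Z m p) ⧸ (Φ.B m p).comap (Φ.Z m p).subtype))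

instance [IsNoetherianRing A] : Module.Finite A (Coh R Φ m p) :=
  inferInstanceAs (Module.Finite A (↥(Φ.Z m p) ⧸ (Φ.B m p).comap (Φ.Z m p).subtype))

/-- The class of a cocycle. -/
def mk : ↥(Φ.Z m p) →ₗ[A] Coh R Φ m p := Submodule.mkQ _

theorem mk_surjective : Function.Surjective (mk (R := R) (Φ := Φ) (m := m) (p := p)) :=
  Submodule.mkQ_surjective _

theorem mk_eq_zero {w : Φ.Z m p} : mk (R := R) w = 0 ↔ (w : Φ.F.ι → A) ∈ Φ.B m p :=
  Submodule.Quotient.mk_eq_zero _

/-- The action of an endomorphism through a chosen lift. -/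
def actMap (f : N →ₗ[A] N) : Coh R Φ m p →ₗ[A] Coh R Φ m p :=
  Submodule.mapQ _ _
    ((Classical.choose (Φ.exists_lift f))ᵀ.mulVecLin.restrict
      fun _ hw => (Classical.choose_spec (Φ.exists_lift f)).transpose_mem_Z hw)
    (by
      rintro ⟨_, hw⟩ ⟨v, hv, rfl⟩
      have hL := Classical.choose_spec (Φ.exists_lift f)
      refine ⟨(Classical.choose (Φ.exists_lift f))ᵀ *ᵥ v,
        Φ.transpose_mulVec_mem_supp (δ := 0) (fun h g hne => hL.deg h g hne) hv, ?_⟩
      show Φ.F.matᵀ *ᵥ _ = _ *ᵥ (Φ.F.matᵀ *ᵥ v)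
      rw [Matrix.mulVec_mulVec, Matrix.mulVec_mulVec, ← Matrix.transpose_mul, ← hL.comm,
        Matrix.transpose_mul])

theorem actMap_mk {f : N →ₗ[A] N} {L : Matrix Φ.F.ι Φ.F.ι A} (hL : Φ.IsLift f L) (w : Φ.Z m p) :
    actMap (R := R) f (mk w) = mk ⟨Lᵀ *ᵥ w.1, hL.transpose_mem_Z w.2⟩ := by
  refine (Submodule.Quotient.eq _).2 ?_
  show (Classical.choose (Φ.exists_lift f))ᵀ *ᵥ w.1 - Lᵀ *ᵥ w.1 ∈ Φ.B m p
  have h0 : Φ.IsLift 0 (Classical.choose (Φ.exists_lift f) - L) := by
    have := (Classical.choose_spec (Φ.exists_lift f)).add (hL.smul (-1))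
    simpa [sub_eq_add_neg] using this
  obtain ⟨ψ, h1, h2⟩ := Φ.exists_null _ h0
  rw [← Matrix.sub_mulVec, ← Matrix.transpose_sub]
  exact Φ.null_transpose_mem_B h1 h2 w.2

variable [CommRing R] [Algebra A R] [Module R N] [IsScalarTower A R N]

/-- The ring acting on `N` acts on the cohomology. -/
def toEnd : R →+* Module.End A (Coh R Φ m p) where
  toFun a := actMap (Algebra.lsmul A A N a)
  map_one' := LinearMap.ext fun x => by
    obtain ⟨w, rfl⟩ := mk_surjective x
    rw [map_one, actMap_mk Reso.isLift_one]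
    simp
  map_mul' a b := LinearMap.ext fun x => by
    obtain ⟨w, rfl⟩ := mk_surjective x
    obtain ⟨La, hLa⟩ := Φ.exists_lift (Algebra.lsmul A A N a)
    obtain ⟨Lb, hLb⟩ := Φ.exists_lift (Algebra.lsmul A A N b)
    rw [Module.End.mul_apply, actMap_mk hLb, actMap_mk hLa, mul_comm a b, map_mul,
      actMap_mk (hLb.mul hLa)]
    simp [Matrix.transpose_mul, Matrix.mulVec_mulVec]
  map_zero' := LinearMap.ext fun x => by
    obtain ⟨w, rfl⟩ := mk_surjective x
    rw [map_zero, actMap_mk Reso.IsLift.zero, LinearMap.zero_apply]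
    simp only [Matrix.transpose_zero, Matrix.zero_mulVec]
    exact map_zero (mk (R := R) (Φ := Φ) (m := m) (p := p))
  map_add' a b := LinearMap.ext fun x => by
    obtain ⟨w, rfl⟩ := mk_surjective x
    obtain ⟨La, hLa⟩ := Φ.exists_lift (Algebra.lsmul A A N a)
    obtain ⟨Lb, hLb⟩ := Φ.exists_lift (Algebra.lsmul A A N b)
    rw [LinearMap.add_apply, actMap_mk hLb, actMap_mk hLa, map_add, actMap_mk (hLa.add hLb)]
    exact (congrArg (mk (R := R) (Φ := Φ) (m := m) (p := p))
      (Subtype.ext (by simp [Matrix.add_mulVec]))).trans (map_add mk _ _)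

instance : Module R (Coh R Φ m p) :=
  Module.compHom (Coh R Φ m p) (toEnd (R := R) (Φ := Φ) (m := m) (p := p) :
    R →+* Module.End A (Coh R Φ m p))

theorem smul_mk {a : R} {L : Matrix Φ.F.ι Φ.F.ι A} (hL : Φ.IsLift (Algebra.lsmul A A N a) L)
    (w : Φ.Z m p) : a • mk (R := R) w = mk ⟨Lᵀ *ᵥ w.1, hL.transpose_mem_Z w.2⟩ :=
  actMap_mk hL w

instance : IsScalarTower A R (Coh R Φ m p) :=
  IsScalarTower.of_algebraMap_smul fun a x => by
    obtain ⟨w, rfl⟩ := mk_surjective x
    have e : Algebra.lsmul A A N (algebraMap A R a) = a • (1 : N →ₗ[A] N) := by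
      ext n
      simp
    rw [smul_mk (e ▸ Reso.isLift_one.smul a), ← map_smul]
    congr 1
    exact Subtype.ext (by simp [Matrix.smul_mulVec])

instance {k : Type u} [CommRing k] [Algebra k A] [Algebra k R] [IsScalarTower k A R] :
    IsScalarTower k R (Coh R Φ m p) :=
  IsScalarTower.of_algebraMap_smul fun c x => by
    rw [IsScalarTower.algebraMap_apply k A R, algebraMap_smul, algebraMap_smul]

instance [IsNoetherianRing A] : Module.Finite R (Coh R Φ m p) :=
  Module.Finite.of_restrictScalars_finite A R _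

omit [CommRing R] [Algebra A R] [Module R N] [IsScalarTower A R N] in
/-- Below the top index the comparison scalar kills the cohomology. -/
theorem smul_eq_zero_of_lt {e : ℕ} {c : A} (α : (Fin e → A) →ₗ[A] N)
    (β : N →ₗ[A] (Fin e → A)) (hαβ : ∀ x, α (β x) = c • x) (hβα : ∀ v, β (α v) = c • v)
    (hp : p < m) (x : Coh R Φ m p) : c • x = 0 := by
  obtain ⟨P, Q, ψ, -, hQ, hψ, -, -, -, he⟩ := Φ.exists_comparison_lift α β hαβ hβα
  obtain ⟨w, rfl⟩ := mk_surjective x
  rw [← map_smul, mk_eq_zero]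
  have h := Φ.null_transpose_mem_B hψ he w.2
  have hQw : Qᵀ *ᵥ w.1 = 0 := funext fun i => Finset.sum_eq_zero fun b _ => by
    by_cases hm : Q b i = 0
    · simp [hm]
    · have := hQ b i hm
      rw [w.2.1 b (by omega), mul_zero]
  rwa [Matrix.transpose_sub, Matrix.transpose_mul, Matrix.sub_mulVec, ← Matrix.mulVec_mulVec, hQw,
    Matrix.mulVec_zero, sub_zero, Matrix.transpose_smul, Matrix.transpose_one,
    Matrix.smul_mulVec, Matrix.one_mulVec] at h

/-- A functional as a cocycle in the top index. -/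
def topFun : DualMod A R N →ₗ[A] ↥(Φ.Z m m) where
  toFun θ := ⟨fun b => DualMod.of.symm θ (Φ.gen b), fun b hb => by
      show DualMod.of.symm θ (Φ.gen b) = 0
      rw [Φ.gen_eq_zero (fun e => hb (by rw [e, Nat.zero_add])), map_zero], by
      rw [SetLike.mem_coe, LinearMap.mem_ker, Matrix.mulVecLin_apply]
      funext g
      have h := congrArg (DualMod.of.symm θ) (Φ.sum_gen_mat g)
      simp only [map_sum, map_smul, smul_eq_mul, map_zero] at h
      exact h⟩
  map_add' _ _ := rfl
  map_smul' _ _ := rfl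

variable (R Φ m) in
/-- The top index gives the dual of the module. -/
def topEquiv : DualMod A R N ≃ₗ[R] Coh R Φ m m :=
  LinearEquiv.ofBijective
    ({ toFun := fun θ => mk (topFun θ)
       map_add' := fun θ θ' => by rw [map_add, map_add]
       map_smul' := fun a θ => by
         obtain ⟨L, hL⟩ := Φ.exists_lift (Algebra.lsmul A A N a)
         rw [RingHom.id_apply, smul_mk hL]
         congr 1
         refine Subtype.ext (funext fun g => ?_)
         show DualMod.of.symm (a • θ) (Φ.gen g) = ∑ h, L h g * DualMod.of.symm θ (Φ.gen h)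
         rw [DualMod.smul_apply, show a • Φ.gen g = Algebra.lsmul A A N a (Φ.gen g) from rfl,
           ← hL.aug, Φ.ε_apply, map_sum]
         simp } : DualMod A R N →ₗ[R] Coh R Φ m m)
    ⟨(injective_iff_map_eq_zero _).2 fun θ hθ => by
      have hθ' : (topFun θ).1 ∈ Φ.B m m := mk_eq_zero.1 hθ
      obtain ⟨v, hv, hv'⟩ := hθ'
      have hv0 : v = 0 := funext fun b => hv b (by omega)
      refine DualMod.ext fun x => ?_
      obtain ⟨u, rfl⟩ := Φ.surj x
      rw [Φ.ε_apply, map_sum]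
      refine Finset.sum_eq_zero fun b _ => ?_
      rw [map_smul, show DualMod.of.symm θ (Φ.gen b) = 0 by
        rw [hv0, map_zero] at hv'
        exact (congrFun hv' b).symm, smul_zero],
    fun x => by
      classical
      obtain ⟨w, rfl⟩ := mk_surjective x
      let f : (Φ.F.ι → A) →ₗ[A] A := Fintype.linearCombination A w.1
      have hf : LinearMap.ker Φ.ε ≤ LinearMap.ker f := by
        intro u hu
        rw [LinearMap.mem_ker] at hu ⊢
        have hu0 : f u = f (Φ.F.posProj A 0 u) := by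
          simp only [f, Fintype.linearCombination_apply, smul_eq_mul, FreeCx.posProj_apply]
          refine Finset.sum_congr rfl fun b _ => ?_
          by_cases hb : Φ.F.pos b = 0
          · simp [hb]
          · rw [w.2.1 b (by omega), mul_zero, mul_zero]
        have hd : Φ.F.dA A (Φ.F.posProj A 0 u) = 0 := funext fun a => by
          rw [FreeCx.dA_apply]
          refine Finset.sum_eq_zero fun b _ => ?_
          by_cases hm : Φ.F.mat a b = 0
          · simp [hm]
          · have := Φ.F.mat_pos a b hm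
            rw [FreeCx.posProj_apply, if_neg (by omega), smul_zero]
        obtain ⟨v, hv⟩ := Φ.exact _ hd (by rw [Φ.ε_posProj_zero, hu])
        have hz := w.2.2
        rw [SetLike.mem_coe, LinearMap.mem_ker, Matrix.mulVecLin_apply] at hz
        rw [hu0, ← hv]
        calc f (Φ.F.dA A v) = ∑ a, (∑ b, Φ.F.mat a b * v b) * w.1 a := rfl
          _ = ∑ b, v b * (Φ.F.matᵀ *ᵥ w.1) b := by
            simp only [Matrix.mulVec, dotProduct, Matrix.transpose_apply, Finset.sum_mul,
              Finset.mul_sum]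
            rw [Finset.sum_comm]
            exact Finset.sum_congr rfl fun b _ => Finset.sum_congr rfl fun a _ => by ring
          _ = 0 := by simp [hz]
      refine ⟨DualMod.of (((LinearMap.ker Φ.ε).liftQ f hf).comp
        (Φ.ε.quotKerEquivOfSurjective Φ.surj).symm.toLinearMap), ?_⟩
      refine congrArg mk (Subtype.ext (funext fun b => ?_))
      show (LinearMap.ker Φ.ε).liftQ f hf
        ((Φ.ε.quotKerEquivOfSurjective Φ.surj).symm (Φ.ε (Pi.single b 1))) = w.1 b
      rw [show Φ.ε (Pi.single b 1) = Φ.ε.quotKerEquivOfSurjective Φ.surj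
        (Submodule.Quotient.mk (Pi.single b 1)) from rfl, LinearEquiv.symm_apply_apply,
        Submodule.liftQ_apply]
      simp [f, Fintype.linearCombination_apply, Pi.single_apply]⟩

end Coh

end Vale.Agent.P202.NC
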