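import Vale.Agent.P202.Core
import Vale.Agent.P202.HomAlg.Homotopy

/-!
# P202, general source ring: filtered free complexes over power series

A complex of free modules over `k[[X]]` with an auxiliary grading `lev`: the part preserving
`lev` is a fixed complex, generically a free module in its top degree, and the part lowering
`lev` by `s` has entries in the `s K`-th power of the maximal ideal.
-/

noncomputable section

namespace Vale.Agent.P202.NC

open Matrix

variable (k : Type*) [Field k] (D : ℕ)

/-- A filtered free complex, with a comparison of its graded part to free modules in the top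
degree `lev + m`, valid after inverting `c`. -/
structure Datum where
  G : FreeCx (PS k D)
  m : ℕ
  c : PS k D
  lev : G.ι → ℕ
  free : Type
  [finFree : Fintype free]
  [decFree : DecidableEq free]
  flev : free → ℕ
  ψ : Matrix G.ι free (PS k D)
  π : Matrix free G.ι (PS k D)
  hom : Matrix G.ι G.ι (PS k D)
  c_ne : c ≠ 0
  lev_le : ∀ g, lev g ≤ D
  le_pos : ∀ g, lev g ≤ G.pos g
  pos_le : ∀ g, G.pos g ≤ lev g + m
  ψ_supp : ∀ g a, ψ g a ≠ 0 → lev g = flev a ∧ G.pos g = flev a + m
  π_supp : ∀ a g, π a g ≠ 0 → lev g = flev a ∧ G.pos g = flev a + m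
  hom_supp : ∀ h g, hom h g ≠ 0 → lev h = lev g ∧ G.pos h = G.pos g + 1

attribute [instance] Datum.finFree Datum.decFree

namespace Datum

variable {k D} (X : Datum k D)

/-- The part of the differential preserving `lev`. -/
def blockMat : Matrix X.G.ι X.G.ι (PS k D) :=
  Matrix.of fun h g => if X.lev h = X.lev g then X.G.mat h g else 0

/-- The number of generic generators in level `i`. -/
def frank (i : ℕ) : ℕ := (Finset.univ.filter fun a => X.flev a = i).card

/-- The axioms on a datum, relative to `K`. -/
structure IsGood (K : ℕ) : Prop where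
  mat_lev : ∀ h g, X.G.mat h g ≠ 0 → X.lev h ≤ X.lev g
  mat_mem : ∀ h g, X.G.mat h g ∈
    IsLocalRing.maximalIdeal (PS k D) ^ (K * (X.lev g - X.lev h))
  block_ψ : X.blockMat * X.ψ = 0
  π_block : X.π * X.blockMat = 0
  π_ψ : X.π * X.ψ = X.c • 1
  homotopy : X.c • (1 : Matrix X.G.ι X.G.ι (PS k D)) - X.ψ * X.π =
    X.blockMat * X.hom + X.hom * X.blockMat
  euler : ∀ i, ∑ g ∈ Finset.univ.filter (fun g => X.lev g = i), (-1 : ℤ) ^ X.G.pos g =
    (-1) ^ (i + X.m) * (X.frank i : ℤ)
  finite : X.G.FiniteHom (PS k D) k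

end Datum

/-- Data with fixed `c`, `m` and bounded size for unboundedly many `K`, whose Euler characteristic
grows at most like `E * K ^ D`, whose homology is killed by powers of the variables of size linear
in `K`, and with at least `r` generic generators in level `0`. -/
def Bounded (E : ℤ) (r : ℕ) : Prop :=
  ∃ (c : PS k D) (m C : ℕ), ∀ Q : ℕ, ∃ K : ℕ, Q ≤ K ∧ 1 ≤ K ∧ ∃ X : Datum k D,
    X.c = c ∧ X.m = m ∧ X.IsGood K ∧ Fintype.card X.G.ι ≤ C ∧ Fintype.card X.free ≤ C ∧
    r ≤ X.frank 0 ∧
    |X.G.chi (PS k D) k| ≤ E * ((K + C : ℕ) : ℤ) ^ D ∧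
    ∀ i, X.G.Kills (PS k D) (MvPowerSeries.X i ^ (C * K))

end Vale.Agent.P202.NC
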