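import Vale.Agent.P202.NC.Dual
import Vale.Agent.P202.RingSide.Hilbert
import Vale.Agent.P202.Koszul.Recursion
import Vale.Agent.P202.Diag.ChiDiag

/-!
# P202, general source ring: multiplicity symbols and Hilbert-Samuel functions

For a finite module over power series the length of `M / m ^ N M` is the multiplicity symbol of
the variables times the number of monomials, up to an error of lower order; hence a multiplicity
symbol dominates `limsup hsSeq`, and for a minimal reduction it is at most `liminf hsSeq`.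
-/

noncomputable section

namespace Vale.Agent.P202

open IsLocalRing Filter Topology
open scoped ENNReal

universe u

namespace NC

instance {k : Type*} [Field k] {d : ℕ} : IsDomain (PS k d) := NoZeroDivisors.to_isDomain _

section lengths

variable {V : Type*} [CommRing V]

/-- A finite module killed by `J` modulo the image of a map. -/
theorem length_le_of_range {g : ℕ} {A B : Type*} [AddCommGroup A] [Module V A] [AddCommGroup B]
    [Module V B] (f : A →ₗ[V] B) (J : Ideal V) (w : Fin g → B)
    (hw : Submodule.span V (Set.range w) = ⊤)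
    (hJ : ∀ a ∈ J, ∀ b : B, a • b ∈ LinearMap.range f) :
    Module.length V B ≤ Module.length V A + (g : ℕ∞) * Module.length V (V ⧸ J) := by
  rw [Module.length_eq_add_of_exact (LinearMap.range f).subtype (LinearMap.range f).mkQ
    (Submodule.injective_subtype _) (Submodule.mkQ_surjective _) (LinearMap.exact_subtype_mkQ _)]
  refine add_le_add (Module.length_le_of_surjective f.rangeRestrict f.surjective_rangeRestrict) ?_
  let T : (Fin g → V ⧸ J) →ₗ[V] B ⧸ LinearMap.range f :=
    LinearMap.lsum V (fun _ : Fin g => V ⧸ J) V fun i =>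
      J.liftQ (LinearMap.toSpanSingleton V _ (Submodule.Quotient.mk (w i))) fun a ha => by
        rw [LinearMap.mem_ker, LinearMap.toSpanSingleton_apply, ← Submodule.Quotient.mk_smul,
          Submodule.Quotient.mk_eq_zero]
        exact hJ a ha _
  have hT : Function.Surjective T := by
    intro q
    obtain ⟨b, rfl⟩ := Submodule.Quotient.mk_surjective _ q
    have hb : b ∈ Submodule.span V (Set.range w) := hw ▸ Submodule.mem_top
    rw [Submodule.mem_span_range_iff_exists_fun] at hb
    obtain ⟨c, rfl⟩ := hb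
    refine ⟨fun i => Submodule.Quotient.mk (c i), ?_⟩
    simp only [T, LinearMap.lsum_apply, LinearMap.sum_apply, LinearMap.comp_apply,
      LinearMap.proj_apply]
    rw [← Submodule.mkQ_apply, map_sum]
    exact Finset.sum_congr rfl fun i _ => by
      rw [map_smul]
      rfl
  refine (Module.length_le_of_surjective T hT).trans (le_of_eq ?_)
  rw [Module.length_pi, ENat.card_eq_coe_fintype_card, Fintype.card_fin]

end lengths

variable {k : Type u} [Field k] {d : ℕ}

/-- The variables generate the maximal ideal. -/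
theorem ofList_vars : Ideal.ofList (Diag.vars k d) = maximalIdeal (PS k d) := by
  rw [maximalIdeal_mvPowerSeries]
  simp only [Ideal.ofList, Diag.vars, Set.range, List.mem_ofFn]

theorem finite_residue : Module.Finite k (PS k d ⧸ maximalIdeal (PS k d)) := by
  refine Module.Finite.of_surjective (Algebra.linearMap k _) fun q => ?_
  obtain ⟨a, rfl⟩ := Ideal.Quotient.mk_surjective q
  refine ⟨MvPowerSeries.constantCoeff a, ?_⟩
  rw [Algebra.linearMap_apply, IsScalarTower.algebraMap_apply k (PS k d),
    Ideal.Quotient.algebraMap_eq, Ideal.Quotient.eq, ← neg_mem_iff, neg_sub,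
    mem_maximalIdeal, mem_nonunits_iff, MvPowerSeries.isUnit_iff_constantCoeff]
  simp [MvPowerSeries.algebraMap_apply]

theorem good_vars (M : Type u) [AddCommGroup M] [Module (PS k d) M] [Module.Finite (PS k d) M] :
    Good k (Diag.vars k d) M := by
  refine ⟨inferInstance, ?_⟩
  have := finite_residue (k := k) (d := d)
  exact finite_quot_of_le (I := maximalIdeal (PS k d)) (ofList_vars.symm.le.trans le_sup_right)

/-- The number of monomials is the exact length. -/
theorem length_le_monCount (N : ℕ) :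
    Module.length (PS k d) (PS k d ⧸ maximalIdeal (PS k d) ^ N) ≤ (monCount d N : ℕ∞) := by
  have h := length_quotient_span_pow_le (fun i : Fin d => (MvPowerSeries.X i : PS k d)) N
  rw [← maximalIdeal_mvPowerSeries] at h
  have : IsSimpleModule (PS k d) (PS k d ⧸ maximalIdeal (PS k d)) := by
    rw [isSimpleModule_iff_isCoatom]
    exact (maximalIdeal.isMaximal (PS k d)).out
  rwa [Module.length_eq_one (R := PS k d) (M := PS k d ⧸ maximalIdeal (PS k d)), mul_one] at h

/-- Colengths below a nonzero element have lower order. -/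
theorem exists_length_sup_pow_le {c : PS k d} (hc : c ≠ 0) :
    ∃ C : ℕ, ∀ N : ℕ, Module.length (PS k d) (PS k d ⧸ (Ideal.span {c} ⊔ maximalIdeal (PS k d) ^ N))
      ≤ ((C * (d * (N + 1) ^ (d - 1)) : ℕ) : ℕ∞) := by
  by_cases hu : IsUnit c
  · refine ⟨0, fun N => ?_⟩
    have htop : Ideal.span {c} ⊔ maximalIdeal (PS k d) ^ N = ⊤ := by
      rw [Ideal.span_singleton_eq_top.2 hu, top_sup_eq]
    rw [htop, Module.length_eq_zero]
    exact bot_le
  have hcm : c ∈ maximalIdeal (PS k d) := hu
  have hd : 1 ≤ d := by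
    rcases Nat.eq_zero_or_pos d with rfl | h
    · exfalso
      rw [maximalIdeal_mvPowerSeries] at hcm
      simp at hcm
      exact hc hcm
    · exact h
  set I := Ideal.span {c}
  have hI : I ≤ maximalIdeal (PS k d) := (Ideal.span_singleton_le_iff_mem _).2 hcm
  have : Nontrivial ((PS k d) ⧸ I) :=
    Ideal.Quotient.nontrivial_iff.2 (ne_top_of_le_ne_top (maximalIdeal.isMaximal (PS k d)).ne_top hI)
  have : IsLocalRing ((PS k d) ⧸ I) :=
    IsLocalRing.of_surjective' (Ideal.Quotient.mk I) Ideal.Quotient.mk_surjective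
  obtain ⟨C, hC⟩ := exists_qlen_pow_le (A := (PS k d) ⧸ I)
  have hdim : dimNat ((PS k d) ⧸ I) ≤ d - 1 := by
    have h1 := (ringKrullDim_quotient_succ_le_of_nonZeroDivisor
      (mem_nonZeroDivisors_of_ne_zero hc)).trans (ringKrullDim_mvPowerSeries_le (k := k) d)
    have h2 := le_natCast_of_add_one_le (n := d - 1) (by rwa [Nat.sub_add_cancel hd])
    rw [dimNat]
    have h0 : 0 ≤ ringKrullDim ((PS k d) ⧸ I) := ringKrullDim_nonneg_of_nontrivial
    revert h0 h2
    generalize ringKrullDim ((PS k d) ⧸ I) = a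
    intro h2 h0
    induction a using WithBot.recBotCoe with
    | bot => simp
    | coe a =>
      induction a using ENat.recTopCoe with
      | top =>
        change ((⊤ : ℕ∞) : WithBot ℕ∞) ≤ (((d - 1 : ℕ) : ℕ∞) : WithBot ℕ∞) at h2
        rw [WithBot.coe_le_coe] at h2
        exact absurd (top_le_iff.1 h2) (ENat.natCast_ne_top _)
      | coe a =>
        change (((a : ℕ) : ℕ∞) : WithBot ℕ∞) ≤ (((d - 1 : ℕ) : ℕ∞) : WithBot ℕ∞) at h2
        rw [WithBot.coe_le_coe, Nat.cast_le] at h2
        exact h2
  have hm : maximalIdeal ((PS k d) ⧸ I) = (maximalIdeal (PS k d)).map (Ideal.Quotient.mk I) := by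
    refine (IsLocalRing.eq_maximalIdeal ?_).symm
    exact Ideal.IsMaximal.map_of_surjective_of_ker_le Ideal.Quotient.mk_surjective
      (by rw [Ideal.mk_ker]; exact hI)
  refine ⟨C, fun N => ?_⟩
  have e : (((PS k d) ⧸ I) ⧸ maximalIdeal ((PS k d) ⧸ I) ^ N) ≃ₗ[(PS k d)] (PS k d) ⧸ (I ⊔ maximalIdeal (PS k d) ^ N) :=
    ((Ideal.quotientEquivAlgOfEq (PS k d) (by rw [hm, ← Ideal.map_pow]; rfl)).trans
      (DoubleQuot.quotQuotEquivQuotSupₐ (PS k d) I (maximalIdeal (PS k d) ^ N))).toLinearEquiv
  rw [← e.length_eq, Module.length_eq_of_surjective (R := (PS k d) ⧸ I) Ideal.Quotient.mk_surjective,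
    ← coe_qlen (le_refl (maximalIdeal ((PS k d) ⧸ I) ^ N))]
  refine Nat.cast_le.2 ((hC N).trans (Nat.mul_le_mul_left C ?_))
  exact (Nat.pow_le_pow_right N.succ_pos hdim).trans (Nat.le_mul_of_pos_left _ hd)

theorem emult_vars_pi (n : ℕ) : emult k (Diag.vars k d) (Fin n → PS k d) = n := by
  obtain ⟨h1, h2⟩ := Diag.koszul_vars (k := k) d
  obtain ⟨-, h4⟩ := koszul_chi_eq_emult (k := k) (Diag.vars k d) (Fin n → PS k d) (good_vars _)
  rw [← h4, ((FreeCx.koszul (Diag.vars k d)).chi_pi h1 n).2, h2, mul_one]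

/-- The length of `M / m ^ N M` against the multiplicity symbol of the variables. -/
theorem exists_hilbert_bounds (M : Type u) [AddCommGroup M] [Module (PS k d) M]
    [Module.Finite (PS k d) M] : ∃ n C : ℕ, emult k (Diag.vars k d) M = n ∧ ∀ N : ℕ,
      Module.length (PS k d) (M ⧸ (maximalIdeal (PS k d) ^ N • ⊤ : Submodule (PS k d) M)) ≤
          ((n * monCount d N + C * (d * (N + 1) ^ (d - 1)) : ℕ) : ℕ∞) ∧
        ((n * monCount d N : ℕ) : ℕ∞) ≤
          Module.length (PS k d) (M ⧸ (maximalIdeal (PS k d) ^ N • ⊤ : Submodule (PS k d) M)) +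
            ((C * (d * (N + 1) ^ (d - 1)) : ℕ) : ℕ∞) := by
  classical
  obtain ⟨c, n, v, θ, hc, hv, hθ⟩ := exists_coords (V := (PS k d)) (M := M)
  let Φ : (Fin n → (PS k d)) →ₗ[(PS k d)] M := Fintype.linearCombination (PS k d) v
  let Θ : M →ₗ[(PS k d)] (Fin n → (PS k d)) := LinearMap.pi θ
  have hΦΘ : ∀ m, Φ (Θ m) = c • m := fun m => by
    simp only [Φ, Fintype.linearCombination_apply, Θ, LinearMap.pi_apply]
    exact hθ m
  have hΦ : Function.Injective Φ := fun a b hab => by
    have h0 := Fintype.linearIndependent_iff.1 hv (fun i => a i - b i) (by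
      simp only [sub_smul, Finset.sum_sub_distrib]
      exact sub_eq_zero.2 (by simpa [Φ, Fintype.linearCombination_apply] using hab))
    exact funext fun i => sub_eq_zero.1 (h0 i)
  have hΘΦ : ∀ a, Θ (Φ a) = c • a := fun a => hΦ (by rw [hΦΘ, map_smul])
  obtain ⟨C, hC⟩ := exists_length_sup_pow_le hc
  obtain ⟨g, w, hw⟩ := Submodule.fg_iff_exists_fin_generating_family.1
    (Module.Finite.fg_top (R := (PS k d)) (M := M))
  refine ⟨n, (g + n) * C, ?_, fun N => ?_⟩
  · have hexact : emult k (Diag.vars k d) M = emult k (Diag.vars k d) (Fin n → (PS k d)) +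
        emult k (Diag.vars k d) (M ⧸ LinearMap.range Φ) :=
      emult_exact (Diag.vars k d) _ _ _ Φ (LinearMap.range Φ).mkQ hΦ (Submodule.mkQ_surjective _)
        (LinearMap.exact_map_mkQ_range Φ) (good_vars M)
    have hlt := sdim_lt_of_killed (R := (PS k d)) (V := (PS k d))
      (ringKrullDim_mvPowerSeries_le (k := k) d) (M ⧸ LinearMap.range Φ) hc fun q => by
        obtain ⟨m, rfl⟩ := Submodule.Quotient.mk_surjective _ q
        rw [Algebra.algebraMap_self, RingHom.id_apply, ← Submodule.Quotient.mk_smul,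
          Submodule.Quotient.mk_eq_zero]
        exact ⟨Θ m, hΦΘ m⟩
    rw [hexact, emult_vars_pi, emult_eq_zero (Diag.vars k d) _ (good_vars _)
      (by simpa [Diag.vars] using hlt), add_zero]
  set mN := maximalIdeal (PS k d) ^ N
  set U : Submodule (PS k d) M := mN • ⊤
  set J := Ideal.span {c} ⊔ mN
  have hL : Module.length (PS k d) ((PS k d) ⧸ J) ≤ ((C * (d * (N + 1) ^ (d - 1)) : ℕ) : ℕ∞) := hC N
  have hfree : Module.length (PS k d) (Fin n → (PS k d) ⧸ mN) = (n : ℕ∞) * Module.length (PS k d) ((PS k d) ⧸ mN) := by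
    rw [Module.length_pi, ENat.card_eq_coe_fintype_card, Fintype.card_fin]
  have hmem : ∀ (a : (PS k d)), a ∈ mN → ∀ m : M, a • m ∈ U := fun a ha m =>
    Submodule.smul_mem_smul ha Submodule.mem_top
  constructor
  · let f : (Fin n → (PS k d) ⧸ mN) →ₗ[(PS k d)] M ⧸ U :=
      LinearMap.lsum (PS k d) (fun _ : Fin n => (PS k d) ⧸ mN) (PS k d) fun i =>
        mN.liftQ (LinearMap.toSpanSingleton (PS k d) _ (Submodule.Quotient.mk (v i))) fun a ha => by
          rw [LinearMap.mem_ker, LinearMap.toSpanSingleton_apply, ← Submodule.Quotient.mk_smul,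
            Submodule.Quotient.mk_eq_zero]
          exact hmem a ha _
    have hfc : ∀ m : M, c • (Submodule.Quotient.mk m : M ⧸ U) ∈ LinearMap.range f := fun m => by
      refine ⟨fun i => Submodule.Quotient.mk (θ i m), ?_⟩
      rw [← Submodule.Quotient.mk_smul, ← hθ m, ← Submodule.mkQ_apply, map_sum]
      simp only [f, LinearMap.lsum_apply, LinearMap.sum_apply, LinearMap.comp_apply,
        LinearMap.proj_apply]
      exact Finset.sum_congr rfl fun i _ => by rw [map_smul]; rfl
    have h := length_le_of_range f J (fun i => (Submodule.Quotient.mk (w i) : M ⧸ U)) (by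
        have hr : Set.range (fun i => (Submodule.Quotient.mk (w i) : M ⧸ U)) = U.mkQ '' Set.range w :=
          by rw [← Set.range_comp]; rfl
        rw [hr, ← Submodule.map_span, hw, Submodule.map_top, Submodule.range_mkQ])
      (fun a ha b => by
        obtain ⟨m, rfl⟩ := Submodule.Quotient.mk_surjective _ b
        obtain ⟨a₁, ha₁, a₂, ha₂, rfl⟩ := Submodule.mem_sup.1 ha
        obtain ⟨r, rfl⟩ := Ideal.mem_span_singleton'.1 ha₁
        rw [add_smul, mul_smul, ← Submodule.Quotient.mk_smul _ a₂,
          (Submodule.Quotient.mk_eq_zero U).2 (hmem a₂ ha₂ m), add_zero]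
        exact Submodule.smul_mem _ r (hfc m))
    rw [hfree] at h
    refine h.trans (le_trans (add_le_add (mul_le_mul' le_rfl (length_le_monCount N))
      (mul_le_mul' le_rfl hL)) ?_)
    norm_cast
    have : g * (C * (d * (N + 1) ^ (d - 1))) ≤ (g + n) * C * (d * (N + 1) ^ (d - 1)) := by
      rw [mul_assoc (g + n)]
      exact Nat.mul_le_mul_right _ (Nat.le_add_right g n)
    omega
  · let h0 : U ≤ LinearMap.ker ((LinearMap.pi fun i => (mN.mkQ).comp (LinearMap.proj i)).comp Θ) := by
      refine Submodule.smul_le.2 fun a ha m _ => ?_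
      rw [LinearMap.mem_ker, map_smul]
      funext i
      obtain ⟨b, hb⟩ := Submodule.Quotient.mk_surjective mN
        ((((LinearMap.pi fun i => (mN.mkQ).comp (LinearMap.proj i)).comp Θ) m) i)
      rw [Pi.smul_apply, ← hb, ← Submodule.Quotient.mk_smul]
      exact (Submodule.Quotient.mk_eq_zero _).2 (Ideal.mul_mem_right _ _ ha)
    let f : (M ⧸ U) →ₗ[(PS k d)] (Fin n → (PS k d) ⧸ mN) := U.liftQ _ h0
    have h := length_le_of_range f J
      (fun i => (Pi.single i (Submodule.Quotient.mk 1) : Fin n → (PS k d) ⧸ mN)) (by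
        rw [eq_top_iff]
        rintro a -
        rw [Submodule.mem_span_range_iff_exists_fun]
        choose r hr using fun i => Submodule.Quotient.mk_surjective mN (a i)
        refine ⟨r, funext fun j => ?_⟩
        simp only [Finset.sum_apply, Pi.smul_apply, Pi.single_apply, smul_ite, smul_zero,
          Finset.sum_ite_eq, Finset.mem_univ, if_true]
        rw [← Submodule.Quotient.mk_smul, smul_eq_mul, mul_one, hr])
      (fun a ha b => by
        obtain ⟨a₁, ha₁, a₂, ha₂, rfl⟩ := Submodule.mem_sup.1 ha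
        obtain ⟨r, rfl⟩ := Ideal.mem_span_singleton'.1 ha₁
        choose s hs using fun i => Submodule.Quotient.mk_surjective mN (b i)
        have h2 : a₂ • b = 0 := funext fun i => by
          rw [Pi.smul_apply, ← hs i, ← Submodule.Quotient.mk_smul, Pi.zero_apply]
          exact (Submodule.Quotient.mk_eq_zero _).2 (Ideal.mul_mem_right _ _ ha₂)
        rw [add_smul, h2, add_zero, mul_smul]
        refine Submodule.smul_mem _ r ⟨Submodule.Quotient.mk (Φ s), funext fun i => ?_⟩
        show mN.mkQ (Θ (Φ s) i) = c • b i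
        rw [hΘΦ, Pi.smul_apply, map_smul, ← hs i]
        rfl)
    rw [hfree] at h
    rw [Nat.cast_mul]
    refine le_trans (le_trans (mul_le_mul' le_rfl (monCount_le_length N)) h) (add_le_add le_rfl ?_)
    refine (mul_le_mul' le_rfl hL).trans ?_
    norm_cast
    rw [mul_assoc (g + n)]
    exact Nat.mul_le_mul_right _ (Nat.le_add_left n g)

/-- The error terms disappear in the limit. -/
theorem tendsto_error (C d : ℕ) :
    Tendsto (fun N : ℕ => ((C * (d * (N + 1) ^ (d - 1)) : ℕ) : ℝ≥0∞) / (N : ℝ≥0∞) ^ d)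
      atTop (𝓝 0) := by
  rcases d with _ | e
  · simp
  have hb : ∀ N : ℕ, 1 ≤ N →
      ((C * ((e + 1) * (N + 1) ^ (e + 1 - 1)) : ℕ) : ℝ≥0∞) / (N : ℝ≥0∞) ^ (e + 1) ≤
        ((C * ((e + 1) * 2 ^ e) : ℕ) : ℝ≥0∞) * (N : ℝ≥0∞)⁻¹ := by
    intro N hN
    have h0 : (N : ℝ≥0∞) ^ e ≠ 0 := pow_ne_zero _ (by exact_mod_cast (by omega : N ≠ 0))
    have h1 : ((C * ((e + 1) * (N + 1) ^ (e + 1 - 1)) : ℕ) : ℝ≥0∞) ≤
        ((C * ((e + 1) * 2 ^ e) : ℕ) : ℝ≥0∞) * (N : ℝ≥0∞) ^ e := by
      have : C * ((e + 1) * (N + 1) ^ e) ≤ C * ((e + 1) * 2 ^ e) * N ^ e := by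
        rw [mul_assoc C, mul_assoc (e + 1), ← mul_pow]
        exact Nat.mul_le_mul_left _ (Nat.mul_le_mul_left _ (Nat.pow_le_pow_left (by omega) e))
      rw [Nat.add_sub_cancel]
      exact_mod_cast this
    refine (ENNReal.div_le_div_right h1 _).trans (le_of_eq ?_)
    rw [pow_succ, div_eq_mul_inv,
      ENNReal.mul_inv (Or.inl h0) (Or.inl (ENNReal.pow_ne_top (ENNReal.natCast_ne_top N))),
      mul_assoc, ← mul_assoc ((N : ℝ≥0∞) ^ e),
      ENNReal.mul_inv_cancel h0 (ENNReal.pow_ne_top (ENNReal.natCast_ne_top N)), one_mul]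
  have h2 := ENNReal.Tendsto.const_mul ENNReal.tendsto_inv_nat_nhds_zero
    (a := ((C * ((e + 1) * 2 ^ e) : ℕ) : ℝ≥0∞)) (Or.inr (ENNReal.natCast_ne_top _))
  rw [mul_zero] at h2
  exact tendsto_of_tendsto_of_tendsto_of_le_of_le' tendsto_const_nhds h2
    (Eventually.of_forall fun _ => bot_le) (eventually_atTop.2 ⟨1, hb⟩)

section algebra

variable {A : Type u} [CommRing A] [IsLocalRing A] [Algebra k A]
  (φ : PS k d →+* A)

/-- The symbol of the images of the variables is that of the variables. -/
theorem emult_map_vars (hC : ∀ c, φ (MvPowerSeries.C c) = algebraMap k A c) :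
    (letI := φ.toAlgebra; emult k (Diag.vars k d) A) =
      emult k (List.ofFn fun i => φ (MvPowerSeries.X i)) A := by
  let := φ.toAlgebra
  rw [show (List.ofFn fun i => φ (MvPowerSeries.X i)) = (Diag.vars k d).map φ by
    simp [Diag.vars, List.map_ofFn, Function.comp_def]]
  refine emult_semilinear (RingEquiv.refl k) φ (fun c => ?_) _ A A (AddEquiv.refl A) fun a m => rfl
  rw [MvPowerSeries.algebraMap_apply]
  simpa using hC c

/-- Lengths over `A` and over the power series agree. -/
theorem length_eq_length_powerSeries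
    (hres : ∀ a : A, ∃ c, a - algebraMap k A c ∈ maximalIdeal A)
    (hC : ∀ c, φ (MvPowerSeries.C c) = algebraMap k A c) (N : ℕ) :
    (letI := φ.toAlgebra; Module.length (PS k d)
        (A ⧸ (maximalIdeal (PS k d) ^ N • ⊤ : Submodule (PS k d) A))) =
      Module.length A (A ⧸ Ideal.span (Set.range fun i => φ (MvPowerSeries.X i)) ^ N) := by
  let := φ.toAlgebra
  have : IsScalarTower k (PS k d) A := IsScalarTower.of_algebraMap_eq fun c => by
    rw [MvPowerSeries.algebraMap_apply]
    exact (show φ (MvPowerSeries.C c) = _ from hC c).symm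
  set J := Ideal.span (Set.range fun i => φ (MvPowerSeries.X i))
  have hJ : (maximalIdeal (PS k d) ^ N • ⊤ : Submodule (PS k d) A) =
      (J ^ N).restrictScalars (PS k d) := by
    rw [Ideal.smul_top_eq_map, Ideal.map_pow, maximalIdeal_mvPowerSeries, Ideal.map_span,
      ← Set.range_comp]
    rfl
  rw [((Submodule.quotEquivOfEq _ _ hJ).trans
    (Submodule.Quotient.restrictScalarsEquiv (PS k d) (J ^ N))).length_eq]
  have h1 : Module.length k (ResidueField A) = 1 := by
    rw [Module.length_eq_of_surjective (R := ResidueField A) fun q => ?_]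
    · exact Module.length_eq_one _ _
    · obtain ⟨a, rfl⟩ := residue_surjective q
      obtain ⟨c, hc⟩ := hres a
      refine ⟨c, ?_⟩
      rw [IsScalarTower.algebraMap_apply k A (ResidueField A), ResidueField.algebraMap_eq, eq_comm,
        ← sub_eq_zero, ← map_sub, residue_eq_zero_iff]
      exact hc
  have h2 : Module.length k (ResidueField (PS k d)) = 1 := by
    rw [Module.length_eq_of_surjective (R := ResidueField (PS k d)) fun q => ?_]
    · exact Module.length_eq_one _ _
    · obtain ⟨F, rfl⟩ := residue_surjective q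
      refine ⟨MvPowerSeries.constantCoeff F, ?_⟩
      rw [IsScalarTower.algebraMap_apply k (PS k d) (ResidueField (PS k d)),
        ResidueField.algebraMap_eq, eq_comm, ← sub_eq_zero, ← map_sub, residue_eq_zero_iff,
        maximalIdeal_mvPowerSeries]
      exact sub_C_constantCoeff_mem_span_X F
  have a1 := length_field_eq_mul (k := k) (B := A) (A ⧸ J ^ N)
  have a2 := length_field_eq_mul (k := k) (B := PS k d) (A ⧸ J ^ N)
  rw [h1, mul_one] at a1
  rw [h2, mul_one] at a2
  rw [← a1, ← a2]

end algebra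

/-- The multiplicity symbol of a parametrisation dominates the multiplicity. -/
theorem limsup_hsSeq_le_emult {A : Type u} [CommRing A] [IsNoetherianRing A] [IsLocalRing A]
    [Algebra k A] (hres : ∀ a : A, ∃ c, a - algebraMap k A c ∈ maximalIdeal A)
    {d : ℕ} (hd : dimNat A = d) (φ : PS k d →+* A) (hfin : φ.Finite)
    (hC : ∀ c, φ (MvPowerSeries.C c) = algebraMap k A c)
    (hX : ∀ i, φ (MvPowerSeries.X i) ∈ maximalIdeal A) :
    ∃ e : ℕ, emult k (List.ofFn fun i => φ (MvPowerSeries.X i)) A = e ∧
      limsup (hsSeq A) atTop ≤ (e : ℝ≥0∞) := by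
  let algφ := φ.toAlgebra
  have : Module.Finite (PS k d) A := hfin
  obtain ⟨e, C, he, hN⟩ := exists_hilbert_bounds (k := k) (d := d) A
  refine ⟨e, by rw [← he, emult_map_vars φ hC], ?_⟩
  have hb : ∀ N : ℕ, hsSeq A N ≤ (e : ℝ≥0∞) * (((N + d : ℕ) : ℝ≥0∞) ^ d / (N : ℝ≥0∞) ^ d) +
      ((d.factorial * C * (d * (N + 1) ^ (d - 1)) : ℕ) : ℝ≥0∞) / (N : ℝ≥0∞) ^ d := by
    intro N
    have h1 : Module.length A (A ⧸ maximalIdeal A ^ N) ≤
        ((e * monCount d N + C * (d * (N + 1) ^ (d - 1)) : ℕ) : ℕ∞) := by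
      refine (length_quotient_mono (Ideal.pow_right_mono ?_ N)).trans
        ((length_eq_length_powerSeries φ hres hC N).symm.le.trans (hN N).1)
      rw [Ideal.span_le]
      rintro _ ⟨i, rfl⟩
      exact hX i
    rw [hsSeq, hd, ← mul_div_assoc, ENNReal.div_add_div_same]
    refine ENNReal.div_le_div_right ?_ _
    refine (mul_le_mul' le_rfl (ENat.toENNReal_le.2 h1)).trans ?_
    simp only [ENat.toENNReal_coe]
    have := factorial_mul_monCount_le d N
    have : d.factorial * (e * monCount d N + C * (d * (N + 1) ^ (d - 1))) ≤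
        e * (N + d) ^ d + d.factorial * C * (d * (N + 1) ^ (d - 1)) := by
      calc _ = e * (d.factorial * monCount d N) +
            d.factorial * C * (d * (N + 1) ^ (d - 1)) := by ring
        _ ≤ _ := Nat.add_le_add_right (Nat.mul_le_mul_left e this) _
    exact_mod_cast this
  refine (limsup_le_limsup (Eventually.of_forall hb)).trans_eq ?_
  have h := (ENNReal.Tendsto.const_mul (tendsto_add_pow_div_pow d d) (a := (e : ℝ≥0∞))
    (Or.inl one_ne_zero)).add (tendsto_error (d.factorial * C) d)
  rw [mul_one, add_zero] at h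
  exact h.limsup_eq

/-- The multiplicity symbol of a minimal reduction is at most the multiplicity. -/
theorem emult_le_liminf_hsSeq {A : Type u} [CommRing A] [IsNoetherianRing A] [IsLocalRing A]
    [Algebra k A] (hres : ∀ a : A, ∃ c, a - algebraMap k A c ∈ maximalIdeal A)
    {d : ℕ} (hd : dimNat A = d) (φ : PS k d →+* A) (hfin : φ.Finite)
    (hC : ∀ c, φ (MvPowerSeries.C c) = algebraMap k A c) {r : ℕ}
    (hr : ∀ N, maximalIdeal A ^ (N + r) ≤
      Ideal.span (Set.range fun i => φ (MvPowerSeries.X i)) ^ N) :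
    ∃ e : ℕ, emult k (List.ofFn fun i => φ (MvPowerSeries.X i)) A = e ∧
      (e : ℝ≥0∞) ≤ liminf (hsSeq A) atTop := by
  let algφ := φ.toAlgebra
  have : Module.Finite (PS k d) A := hfin
  obtain ⟨e, C, he, hN⟩ := exists_hilbert_bounds (k := k) (d := d) A
  refine ⟨e, by rw [← he, emult_map_vars φ hC], ?_⟩
  have hb : ∀ N : ℕ, 0 < N → (e : ℝ≥0∞) * ((N : ℝ≥0∞) ^ d / ((N + r : ℕ) : ℝ≥0∞) ^ d) -
      ((d.factorial * C * (d * (N + 1) ^ (d - 1)) : ℕ) : ℝ≥0∞) / (N : ℝ≥0∞) ^ d ≤
        hsSeq A (N + r) := by
    intro N hN0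
    rw [tsub_le_iff_right]
    obtain ⟨n, rfl⟩ : ∃ n, N = n + 1 := ⟨N - 1, by omega⟩
    have h1 : ((e * monCount d (n + 1) : ℕ) : ℕ∞) ≤
        Module.length A (A ⧸ maximalIdeal A ^ (n + 1 + r)) +
          ((C * (d * (n + 1 + 1) ^ (d - 1)) : ℕ) : ℕ∞) :=
      (hN (n + 1)).2.trans (add_le_add ((length_eq_length_powerSeries φ hres hC (n + 1)).le.trans
        (length_quotient_mono (hr (n + 1)))) le_rfl)
    rw [hsSeq, hd, ← mul_div_assoc]
    refine le_trans ?_ (add_le_add le_rfl (ENNReal.div_le_div_left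
      (pow_le_pow_left₀ bot_le (Nat.cast_le.2 (Nat.le_add_right (n + 1) r)) d) _))
    rw [ENNReal.div_add_div_same]
    refine ENNReal.div_le_div_right ?_ _
    have h2 := mul_le_mul' (le_refl ((d.factorial : ℕ) : ℝ≥0∞)) (ENat.toENNReal_le.2 h1)
    simp only [ENat.toENNReal_add, ENat.toENNReal_coe, mul_add] at h2
    refine le_trans ?_ (h2.trans (le_of_eq ?_))
    · have := pow_le_factorial_mul_monCount d n
      have : e * (n + 1) ^ d ≤ d.factorial * (e * monCount d (n + 1)) := by
        rw [mul_left_comm]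
        exact Nat.mul_le_mul_left e this
      exact_mod_cast this
    · push_cast
      ring
  have h := ENNReal.Tendsto.sub (ENNReal.Tendsto.const_mul (tendsto_pow_div_add_pow r d)
    (a := (e : ℝ≥0∞)) (Or.inl one_ne_zero)) (tendsto_error (d.factorial * C) d)
    (Or.inl (by rw [mul_one]; exact ENNReal.natCast_ne_top e))
  rw [mul_one, tsub_zero] at h
  rw [← liminf_nat_add (hsSeq A) r, ← h.liminf_eq]
  exact liminf_le_liminf (eventually_atTop.2 ⟨1, fun N hN => hb N hN⟩)

/-- The multiplicity symbol over a subfield is the residue degree times the one over a coefficient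
field. -/
theorem emult_residueDegree {k L : Type*} [Field k] [Field L] {B : Type*} [CommRing B]
    [IsLocalRing B] [Algebra k B] [Algebra L B]
    (hL : ∀ a : B, ∃ c, a - algebraMap L B c ∈ maximalIdeal B)
    [Module.Finite k (ResidueField B)] : ∀ (z : List B) (M : Type u) [AddCommGroup M] [Module B M],
      emult k z M = Module.finrank k (ResidueField B) * emult L z M := by
  intro z
  induction z with
  | nil =>
    intro M _ _
    let := Module.compHom M (algebraMap k B)
    let := Module.compHom M (algebraMap L B)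
    have : IsScalarTower k B M := IsScalarTower.of_algebraMap_smul fun _ _ => rfl
    have : IsScalarTower L B M := IsScalarTower.of_algebraMap_smul fun _ _ => rfl
    have h1 : Module.length L (ResidueField B) = 1 := by
      rw [Module.length_eq_of_surjective (R := ResidueField B) fun q => ?_]
      · exact Module.length_eq_one _ _
      · obtain ⟨a, rfl⟩ := residue_surjective q
        obtain ⟨c, hc⟩ := hL a
        refine ⟨c, ?_⟩
        rw [IsScalarTower.algebraMap_apply L B (ResidueField B), ResidueField.algebraMap_eq,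
          eq_comm, ← sub_eq_zero, ← map_sub, residue_eq_zero_iff]
        exact hc
    have a1 := length_field_eq_mul (k := k) (B := B) M
    have a2 := length_field_eq_mul (k := L) (B := B) M
    rw [h1, mul_one] at a2
    rw [← a2, Module.length_eq_rank, Module.length_eq_rank, Module.length_eq_finrank] at a1
    have := congrArg ENat.toNat a1
    rw [ENat.toNat_mul, ENat.toNat_natCast] at this
    change (Module.finrank k M : ℤ) = Module.finrank k (ResidueField B) * (Module.finrank L M : ℤ)
    rw [show Module.finrank k M = (Module.rank k M).toENat.toNat from rfl, this,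
      show Module.finrank L M = (Module.rank L M).toENat.toNat from rfl]
    push_cast
    ring
  | cons a zs ih =>
    intro M _ _
    rw [emult_cons, emult_cons, ih, ih, mul_sub]

end NC

end Vale.Agent.P202
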