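import Vale.Agent.P202.NC.Bounds
import Vale.Agent.P202.Diag.ChiDiag

/-!
# P202, general source ring: transfer of homology bounds to finite modules

A bound on the low homology of a complex on the power series ring gives, up to a constant
depending on the module only, a bound on every finite module.
-/

noncomputable section

namespace Vale.Agent.P202

universe u

namespace FreeCx

variable {A : Type*} [CommRing A] (G : FreeCx A) {k : Type*} [Field k] [Algebra k A]

/-- The homology of a quotient is bounded by that of the middle and, one step down, of the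
submodule. -/
theorem homDim_last_le {M₁ M₂ M₃ : Type*} [AddCommGroup M₁] [Module A M₁] [Module k M₁]
    [IsScalarTower k A M₁] [AddCommGroup M₂] [Module A M₂] [Module k M₂] [IsScalarTower k A M₂]
    [AddCommGroup M₃] [Module A M₃] [Module k M₃] [IsScalarTower k A M₃]
    {f : M₁ →ₗ[A] M₂} {g : M₂ →ₗ[A] M₃} (hf : Function.Injective f) (hg : Function.Surjective g)
    (hfg : Function.Exact f g) (h1 : G.FiniteHom M₁ k) (h2 : G.FiniteHom M₂ k) (j : ℤ) :
    G.homDim M₃ k j ≤ G.homDim M₂ k j + G.homDim M₁ k (j - 1) := by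
  have e1 := (G.pairMap_inj k hf).betti_eq (j - 1)
  have e3 := (G.pairMap_surj k hg).betti_eq j
  rw [← G.range_coef_eq_ker hfg] at e3
  have h3 := G.finiteHom_last hf hg hfg h1 h2
  set D := G.diff M₂ k
  set X := LinearMap.range (G.coef k f)
  have f1 : Module.Finite k (D.H X ⊥ (j - 1)) :=
    have := h1 (j - 1)
    Module.Finite.equiv ((G.pairMap_inj k hf).equiv (j - 1))
  have f3 : Module.Finite k (D.H ⊤ X j) := by
    show Module.Finite k (D.H ⊤ (LinearMap.range (G.coef k f)) j)
    rw [G.range_coef_eq_ker hfg]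
    have := h3 j
    exact Module.Finite.equiv ((G.pairMap_surj k hg).equiv j).symm
  have f2 : Module.Finite k (D.H ⊤ ⊥ j) := h2 j
  have key := Diff.finrank_mid _ _
    (D.exact_right (Y := ⊥) (X := X) bot_le le_top j (j - 1) (by ring))
  have a := LinearMap.finrank_range_le (D.projMap (W := ⊤) (bot_le : ⊥ ≤ X) j)
  have b := Submodule.finrank_le
    (LinearMap.range (D.connMap (W := ⊤) (X := X) (Y := ⊥) j (j - 1) (by ring)))
  have c3 : G.homDim M₃ k j = D.betti ⊤ X j := e3
  have c1 : G.homDim M₁ k (j - 1) = D.betti X ⊥ (j - 1) := e1.symm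
  show G.homDim M₃ k j ≤ D.betti ⊤ ⊥ j + _
  rw [c3, c1]
  unfold Diff.betti
  omega

/-- Homology of finitely many copies of a module. -/
theorem homDim_pi_le {M : Type*} [AddCommGroup M] [Module A M] [Module k M] [IsScalarTower k A M]
    (h : G.FiniteHom M k) : ∀ (m : ℕ) (j : ℤ), G.homDim (Fin m → M) k j ≤ m * G.homDim M k j := by
  intro m j
  induction m with
  | zero =>
    have : Module.Finite k (Fin 0 → M) := Module.Finite.of_finite
    refine (G.dA_le_card _ j).trans ?_
    simp [Module.finrank_zero_of_subsingleton]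
  | succ m ih =>
    let f : M →ₗ[A] (Fin (m + 1) → M) := LinearMap.single A (fun _ => M) 0
    let g : (Fin (m + 1) → M) →ₗ[A] (Fin m → M) := LinearMap.funLeft A M Fin.succ
    have hf : Function.Injective f := Pi.single_injective (M := fun _ => M) 0
    have hg : Function.Surjective g := fun y => ⟨Fin.cons 0 y, by
      funext i; simp [g, LinearMap.funLeft_apply]⟩
    have hfg : Function.Exact f g := fun y => by
      constructor
      · intro hy
        refine ⟨y 0, funext fun i => ?_⟩
        refine Fin.cases ?_ (fun i => ?_) i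
        · simp [f]
        · have := congrFun hy i
          simp [g, LinearMap.funLeft_apply] at this
          simp [f, this]
      · rintro ⟨x, rfl⟩
        funext i
        simp [f, g, LinearMap.funLeft_apply]
    refine (G.homDim_le_add hf hg hfg h (G.chi_pi h m).1 j).trans ?_
    rw [add_mul, one_mul, add_comm]
    exact Nat.add_le_add ih le_rfl

end FreeCx

/-- Low homology on a finite module is at most a constant times that on the ring. -/
theorem exists_transfer_const {k : Type u} [Field k] {D : ℕ} (M : Type u) [AddCommGroup M]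
    [Module (PS k D) M] [Module k M] [IsScalarTower k (PS k D) M] [Module.Finite (PS k D) M] :
    ∃ C : ℕ, ∀ G : FreeCx (PS k D), G.FiniteHom (PS k D) k → ∀ (m : ℕ) (A : ℕ),
      (∀ j : ℤ, j < (m : ℤ) → G.homDim (PS k D) k j ≤ A) →
        ∀ j : ℤ, j < (m : ℤ) → G.homDim M k j ≤ C * A := by
  have main := Diag.finite_module_induction
    (fun (N : Type u) [AddCommGroup N] [Module (PS k D) N] =>
      ∀ [Module k N] [IsScalarTower k (PS k D) N], ∃ C : ℕ, ∀ G : FreeCx (PS k D),
        G.FiniteHom (PS k D) k → G.FiniteHom N k ∧ ∀ (m : ℕ) (A : ℕ),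
          (∀ j : ℤ, j < (m : ℤ) → G.homDim (PS k D) k j ≤ A) →
            ∀ j : ℤ, j < (m : ℤ) → G.homDim N k j ≤ C * A) ?_ ?_ M
  · obtain ⟨C, hC⟩ := main
    exact ⟨C, fun G hG => (hC G hG).2⟩
  · intro r N _ _ e _ _
    refine ⟨r, fun G hG => ⟨(G.finiteHom_congr k e).2 (G.chi_pi hG r).1, fun m A hA j hj => ?_⟩⟩
    rw [G.homDim_congr e j]
    exact (G.homDim_pi_le hG r j).trans (Nat.mul_le_mul_left r (hA j hj))
  · intro r N _ _ f hf ih _ _
    obtain ⟨C, hC⟩ := ih
    refine ⟨r + C, fun G hG => ?_⟩
    obtain ⟨g0, b0⟩ := hC G hG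
    obtain ⟨g1, -⟩ := G.chi_pi hG r
    have hi : Function.Injective (LinearMap.ker f).subtype := Subtype.val_injective
    have hex : Function.Exact (LinearMap.ker f).subtype f := LinearMap.exact_subtype_ker_map f
    refine ⟨G.finiteHom_last hi hf hex g0 g1, fun m A hA j hj => ?_⟩
    refine (G.homDim_last_le hi hf hex g0 g1 j).trans ?_
    rw [add_mul]
    exact Nat.add_le_add ((G.homDim_pi_le hG r j).trans (Nat.mul_le_mul_left r (hA j hj)))
      (b0 m A hA (j - 1) (by omega))

end Vale.Agent.P202
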