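import Vale.Agent.P202.NC.Build
import Vale.Agent.P202.NC.Bounds
import Vale.Agent.P202.NC.Dual
import Vale.Agent.P202.Koszul.Bridge
import Vale.Agent.P202.Diag.KoszulVars

/-!
# P202, general source ring: Frobenius gives bounded data

For a complete local ring of characteristic `p`, finite over `k[[X]]` by a reduction, the twists of
the minimal complex of the Koszul complex of a flat finite extension give bounded data.
-/

noncomputable section

namespace Vale.Agent.P202

open IsLocalRing TensorProduct

universe u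

section multiplicity

variable {k : Type u} [Field k] {d : ℕ}

/-- The residue field of a power series ring is the scalars. -/
theorem finite_quot_vars (J : Ideal (PS k d)) :
    Module.Finite k (PS k d ⧸ (J ⊔ Ideal.ofList (Diag.vars k d))) := by
  have hm : Ideal.ofList (Diag.vars k d) = maximalIdeal (PS k d) := by
    rw [maximalIdeal_mvPowerSeries]
    simp [Ideal.ofList, Diag.vars, Set.range, List.mem_ofFn]
  have : Module.Finite k (PS k d ⧸ maximalIdeal (PS k d)) := by
    refine Module.Finite.of_surjective (Algebra.linearMap k _) fun q => ?_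
    obtain ⟨a, rfl⟩ := Ideal.Quotient.mk_surjective q
    refine ⟨MvPowerSeries.constantCoeff a, ?_⟩
    rw [Algebra.linearMap_apply, IsScalarTower.algebraMap_apply k (PS k d),
      Ideal.Quotient.algebraMap_eq, Ideal.Quotient.eq, ← neg_mem_iff, neg_sub, mem_maximalIdeal,
      mem_nonunits_iff, MvPowerSeries.isUnit_iff_constantCoeff]
    simp [MvPowerSeries.algebraMap_apply]
  exact finite_quot_of_le (I := maximalIdeal (PS k d)) (hm ▸ le_sup_right)

/-- The multiplicity of the variables on a finite module is its rank. -/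
theorem emult_vars_eq_finrank (M : Type u) [AddCommGroup M] [Module (PS k d) M]
    [Module.Finite (PS k d) M] :
    emult k (Diag.vars k d) M = (Module.finrank (PS k d) M : ℤ) := by
  have : IsDomain (PS k d) := NoZeroDivisors.to_isDomain _
  have hgood : ∀ (N : Type u) [AddCommGroup N] [Module (PS k d) N] [Module.Finite (PS k d) N],
      Good k (Diag.vars k d) N := fun N _ _ _ => ⟨inferInstance, finite_quot_vars _⟩
  obtain ⟨c, α, β, hc, hαβ, hβα⟩ := NC.exists_free_comparison (PS k d) M
  generalize he : Module.finrank (PS k d) M = e at α β hαβ hβα ⊢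
  have hα : Function.Injective α := (injective_iff_map_eq_zero α).2 fun v hv => by
    have h := hβα v
    rw [hv, map_zero] at h
    exact (smul_eq_zero.1 h.symm).resolve_left hc
  rw [emult_exact (Diag.vars k d) (Fin e → PS k d) M (M ⧸ LinearMap.range α) α
    (LinearMap.range α).mkQ hα (Submodule.mkQ_surjective _) (LinearMap.exact_map_mkQ_range α)
    (hgood M)]
  have h1 : emult k (Diag.vars k d) (Fin e → PS k d) = (e : ℤ) := by
    obtain ⟨-, h2⟩ := koszul_chi_eq_emult (k := k) (Diag.vars k d) (Fin e → PS k d) (hgood _)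
    obtain ⟨hf, hchi⟩ := Diag.koszul_vars (k := k) d
    rw [← h2, ((FreeCx.koszul (Diag.vars k d)).chi_pi (k := k) hf e).2, hchi, mul_one]
  have h2 : emult k (Diag.vars k d) (M ⧸ LinearMap.range α) = 0 := by
    refine emult_eq_zero _ _ (hgood _) ?_
    rw [Diag.vars, List.length_ofFn]
    refine sdim_lt_of_killed (V := PS k d) (ringKrullDim_mvPowerSeries_le d) _ hc fun x => ?_
    obtain ⟨x, rfl⟩ := Submodule.Quotient.mk_surjective _ x
    rw [algebraMap_smul, ← Submodule.Quotient.mk_smul, Submodule.Quotient.mk_eq_zero, ← hαβ]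
    exact ⟨_, rfl⟩
  rw [h1, h2, add_zero]

/-- The multiplicity of a parametrisation is the rank over it. -/
theorem emult_eq_finrank_powerSeries {R : Type u} [CommRing R] [Algebra k R]
    [Algebra (PS k d) R] [IsScalarTower k (PS k d) R] [Module.Finite (PS k d) R] :
    emult k (List.ofFn fun i => algebraMap (PS k d) R (MvPowerSeries.X i)) R =
      (Module.finrank (PS k d) R : ℤ) := by
  rw [← emult_vars_eq_finrank (k := k) (d := d) R]
  have h := emult_semilinear (RingEquiv.refl k) (algebraMap (PS k d) R)
    (fun c => (IsScalarTower.algebraMap_apply k (PS k d) R c).symm) (Diag.vars k d) R R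
    (AddEquiv.refl R) (fun a m => (algebraMap_smul R a m).symm)
  rw [h, Diag.vars, List.map_ofFn]
  rfl

end multiplicity

namespace NC

variable (p : ℕ) [Fact p.Prime] {k : Type u} [Field k] [CharP k p] [PerfectRing k p]

/-- Blueprint 2c: the witness of boundedness. -/
theorem exists_bounded {R : Type u} [CommRing R] [IsNoetherianRing R] [IsLocalRing R]
    [IsAdicComplete (maximalIdeal R) R] [CharP R p] [PerfectField (ResidueField R)]
    [Algebra k R] [Module.Finite k (ResidueField R)] {d : ℕ} [Algebra (PS k d) R]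
    [IsScalarTower k (PS k d) R] [Module.Finite (PS k d) R]
    (hX : ∀ i, algebraMap (PS k d) R (MvPowerSeries.X i) ∈ maximalIdeal R) {r : ℕ}
    (hpow : ∀ n, maximalIdeal R ^ (n + r) ≤
      (maximalIdeal (PS k d) ^ n).map (algebraMap (PS k d) R))
    {S : Type u} [CommRing S] [IsLocalRing S] [Algebra R S] [Algebra k S] [IsScalarTower k R S]
    [Module.Finite R S] [Module.Flat R S] {ys : List S} [Module.Finite k (S ⧸ Ideal.ofList ys)]
    (hy : ∀ a ∈ ys, a ∈ maximalIdeal S) (hlen : ys.length = d) :
    ∃ f : ℕ, Module.finrank k (ResidueField S) ≤ f * Module.finrank k (ResidueField R) ∧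
      Bounded k d (emult k ys S) (f * Module.finrank (PS k d) R) := by
  classical
  have : IsDomain (PS k d) := NoZeroDivisors.to_isDomain _
  have : IsNoetherianRing S := IsNoetherianRing.of_finite R S
  have : Module.Free R S := Module.free_of_flat_of_isLocalRing
  -- parameters
  set xs := List.ofFn fun i => algebraMap (PS k d) R (MvPowerSeries.X i) with hxs
  have hmap : Ideal.ofList xs = (maximalIdeal (PS k d)).map (algebraMap (PS k d) R) := by
    rw [maximalIdeal_mvPowerSeries, Ideal.map_span, ← Set.range_comp, hxs]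
    simp [Ideal.ofList, Set.range, List.mem_ofFn]
  have : Module.Finite k (R ⧸ Ideal.ofList xs) := by
    have := finite_quot_maximalIdeal_pow (k := k) (R := R) (1 + r)
    refine finite_quot_of_le (I := maximalIdeal R ^ (1 + r)) ?_
    have := hpow 1
    rwa [pow_one, ← hmap] at this
  have hxm : ∀ a ∈ xs, a ∈ maximalIdeal R := by
    intro a ha
    rw [hxs, List.mem_ofFn] at ha
    obtain ⟨i, rfl⟩ := ha
    exact hX i
  have hxl : xs.length = d := by rw [hxs, List.length_ofFn]
  obtain ⟨G, hGlen, hGm, -, hf, htw⟩ := exists_twist (k := k) p (x := xs) (y := ys) hxm hy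
    (hlen.trans hxl.symm) (Module.finBasis R S)
  rw [hxl] at hGlen htw
  have hGfin : G.FiniteHom R k := by
    have h := (htw 0 (iterateFrobenius_finite R p 0)).2.1
    exact (G.finiteHom_changeRing (iterateFrobenius R p 0) (k := k) (N := R)
      (fun a n => by rw [iterateFrobenius_def, pow_zero, pow_one])).1 h
  refine ⟨G.rank 0, hf, ?_⟩
  -- the comparison and the resolved module
  obtain ⟨c, α, β, hc, hαβ, hβα⟩ := exists_free_comparison (PS k d) R
  generalize he : Module.finrank (PS k d) R = e at α β hαβ hβα ⊢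
  obtain ⟨α', β', hαβ', hβα'⟩ := DualMod.exists_comparison (R := R) α β hαβ hβα
  obtain ⟨Φ, c₀, hdata⟩ := exists_datum (R := R) (N := DualMod (PS k d) R R) hc α' β' hαβ' hβα'
  obtain ⟨N₀, hN₀⟩ := FreeCx.exists_pow_kills hGfin hGlen
  set B := 1 + r + c₀ with hB
  set C := Fintype.card G.ι * Fintype.card Φ.F.ι + Fintype.card G.ι * e + B +
    N₀ * (d + 1) * (d + 1) * B with hC
  refine ⟨c, d, C, fun Q => ?_⟩
  obtain ⟨n, hn⟩ : ∃ n, Q + r + c₀ + 1 ≤ p ^ n :=
    ⟨_, (Nat.lt_pow_self (Fact.out : p.Prime).one_lt).le⟩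
  obtain ⟨-, -, -, htwM⟩ := htw n (iterateFrobenius_finite R p n)
  set Gn := G.map (iterateFrobenius R p n)
  set K := p ^ n - r - c₀ with hK
  have hK1 : 1 ≤ K := by omega
  obtain ⟨X, hXc, hXm, hgood, hcard, hfree, hfrank, -, hchi, hkills⟩ := hdata K Gn
    (fun g => hGlen g) (entriesIn_map_frobenius p hpow hGm (by omega))
    (fun q _ => (htwM _).1)
  refine ⟨K, by omega, hK1, X, hXc, hXm, hgood, ?_, ?_, ?_, ?_, fun i => ?_⟩
  · rw [hcard]
    show Fintype.card G.ι * _ ≤ C
    omega
  · rw [hfree]
    show Fintype.card G.ι * _ ≤ C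
    omega
  · rw [hfrank 0]
    rfl
  · -- Euler characteristic
    have hlow : ∀ q < d, emult k ys (S ⊗[R] Coh R Φ d q) = 0 := fun q hq =>
      emult_baseChange_eq_zero (lt_of_lt_of_eq
        (sdim_lt_of_killed (V := PS k d) (ringKrullDim_mvPowerSeries_le d) _ hc fun x => by
          rw [algebraMap_smul]
          exact Coh.smul_eq_zero_of_lt α' β' hαβ' hβα' hq x) (by rw [hlen]))
    obtain ⟨hker, hcoker⟩ := DualMod.eval_ker_coker (R := R) α β hαβ
    have htop : emult k ys (S ⊗[R] Coh R Φ d d) = emult k ys S := by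
      rw [← emult_baseChange_congr ys (Coh.topEquiv R Φ d),
        ← emult_baseChange_eq_of_torsion (V := PS k d) (ringKrullDim_mvPowerSeries_le d) hlen
          (DualMod.eval (PS k d) R) hc
          (fun x hx => by rw [algebraMap_smul]; exact hker x (LinearMap.mem_ker.1 hx))
          (fun ξ => by
            rw [algebraMap_smul]
            exact LinearMap.mem_range.2 (hcoker ξ))]
      exact emult_congr (AlgebraTensorModule.rid R S S)
    have hE : 0 ≤ emult k ys S :=
      (emult_nonneg ys hy S ⟨inferInstance, finite_quot_of_le (I := Ideal.ofList ys) le_sup_right⟩).1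
    rw [hchi, Finset.sum_eq_single d (fun q hqr hne => by
        rw [(htwM _).2, hlow q (by have := Finset.mem_range_succ_iff.1 hqr; omega), mul_zero,
          mul_zero]) (by simp), (htwM _).2, htop, abs_mul, abs_pow, abs_neg, abs_one, one_pow,
      one_mul, abs_of_nonneg (by positivity), mul_comm]
    refine mul_le_mul_of_nonneg_left (pow_le_pow_left₀ (Int.natCast_nonneg _) ?_ d) hE
    exact_mod_cast (show p ^ n ≤ K + C by omega)
  · -- powers of the variables
    have hq : p ^ n ≤ B * K := by
      have : r + c₀ ≤ (r + c₀) * K := Nat.le_mul_of_pos_right _ hK1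
      rw [hB, add_assoc, add_mul, one_mul]
      omega
    have hkill : ∀ q ≤ d, Gn.Kills (Coh R Φ d q)
        (algebraMap (PS k d) R (MvPowerSeries.X i ^ (N₀ * (d + 1) * p ^ n))) := fun q _ => by
      have h := G.kills_map (φ := iterateFrobenius R p n)
        (hN₀ _ (Ideal.pow_mem_pow (hX i) N₀)) hGlen (Coh R Φ d q)
      rwa [iterateFrobenius_def, ← pow_mul, ← pow_mul, ← map_pow, ← mul_assoc] at h
    have h1 : (N₀ * (d + 1) * p ^ n) * (d + 1) ≤ C * K :=
      calc (N₀ * (d + 1) * p ^ n) * (d + 1) = N₀ * (d + 1) * (d + 1) * p ^ n := by ring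
        _ ≤ N₀ * (d + 1) * (d + 1) * (B * K) := Nat.mul_le_mul_left _ hq
        _ = (N₀ * (d + 1) * (d + 1) * B) * K := by ring
        _ ≤ C * K := Nat.mul_le_mul_right _ (by omega)
    have h2 := hkills _ hkill
    rw [← pow_mul] at h2
    rw [← Nat.sub_add_cancel h1, pow_add]
    exact Ideal.mul_mem_left (X.G.killsIdeal (PS k d)) _ h2

end NC

end Vale.Agent.P202
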